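import Vale.Agent.Lib.P219.A.Basic

/-! # P219 Part A: exponential coordinates -/

namespace Vale.Agent.Lib.P219

open MeasureTheory Set Filter Topology
open scoped ENNReal

namespace HData

variable {n : ℕ} (H : HData n)

private theorem ch_det_comp (A B : Ev n →L[ℝ] Ev n) : (A.comp B).det = A.det * B.det := by
  unfold ContinuousLinearMap.det
  rw [← LinearMap.det_comp]
  rfl

private theorem ch_det_mul (y : Ev n) : |(H.L y).det| * H.dens y = 1 := by
  unfold HData.dens
  rw [← abs_mul, ← ch_det_comp]
  have : (H.L y).comp (H.Li y) = ContinuousLinearMap.id ℝ (Ev n) := by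
    ext1 v
    simp [H.L_Li]
  rw [this]
  unfold ContinuousLinearMap.det
  have h2 : ((ContinuousLinearMap.id ℝ (Ev n) : Ev n →L[ℝ] Ev n) : Ev n →ₗ[ℝ] Ev n)
      = LinearMap.id := rfl
  rw [h2, LinearMap.det_id, abs_one]

private theorem ch_absdet (x w : Ev n) :
    |((H.L (H.Ex x w)).comp (H.P x w)).det| * H.dens (H.Ex x w) = H.th x w := by
  rw [ch_det_comp, abs_mul]
  have := ch_det_mul H (H.Ex x w)
  unfold HData.th
  calc |(H.L (H.Ex x w)).det| * |(H.P x w).det| * H.dens (H.Ex x w)
      = (|(H.L (H.Ex x w)).det| * H.dens (H.Ex x w)) * |(H.P x w).det| := by ring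
    _ = |(H.P x w).det| := by rw [this, one_mul]

private theorem ch_deriv (x w : Ev n) (s : Set (Ev n)) :
    HasFDerivWithinAt (H.Ex x) ((H.L (H.Ex x w)).comp (H.P x w)) s w :=
  (H.exp_deriv x w).hasFDerivWithinAt

private theorem ch_inj (x : Ev n) : InjOn (H.Ex x) univ := by
  have := (H.exp_bij x).1
  intro a _ b _ hab
  exact this hab

private theorem ch_image (x : Ev n) : H.Ex x '' univ = univ := by
  rw [image_univ]
  exact (H.exp_bij x).2.range_eq

private theorem ch_dens_meas : Measurable (fun y : Ev n => ENNReal.ofReal (H.dens y)) :=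
  H.dens_cont.measurable.ennreal_ofReal

private theorem ch_dens_lt : ∀ᵐ y : Ev n, ENNReal.ofReal (H.dens y) < ∞ :=
  Filter.Eventually.of_forall fun _ => ENNReal.ofReal_lt_top

/-- change of variables `y = Ex x w` -/
theorem lintegral_exp (x : Ev n) (f : Ev n → ℝ≥0∞) :
    ∫⁻ y, f y ∂H.vol = ∫⁻ w, f (H.Ex x w) * ENNReal.ofReal (H.th x w) := by
  unfold HData.vol
  rw [lintegral_withDensity_eq_lintegral_mul_non_measurable _ (ch_dens_meas H) (ch_dens_lt H)]
  have h := lintegral_image_eq_lintegral_abs_det_fderiv_mul (volume : Measure (Ev n))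
    MeasurableSet.univ (fun w _ => ch_deriv H x w univ) (ch_inj H x)
    ((fun y : Ev n => ENNReal.ofReal (H.dens y)) * f)
  rw [ch_image, Measure.restrict_univ] at h
  rw [h]
  refine lintegral_congr fun w => ?_
  simp only [Pi.mul_apply]
  rw [← mul_assoc, ← ENNReal.ofReal_mul (abs_nonneg _), ch_absdet, mul_comm]

theorem integral_exp (x : Ev n) (f : Ev n → ℝ) :
    ∫ y, f y ∂H.vol = ∫ w, H.th x w * f (H.Ex x w) := by
  unfold HData.vol
  rw [integral_withDensity_eq_integral_toReal_smul (ch_dens_meas H) (ch_dens_lt H)]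
  have h := integral_image_eq_integral_abs_det_fderiv_smul (volume : Measure (Ev n))
    MeasurableSet.univ (fun w _ => ch_deriv H x w univ) (ch_inj H x)
    (fun y : Ev n => (ENNReal.ofReal (H.dens y)).toReal • f y)
  rw [ch_image, Measure.restrict_univ] at h
  rw [h]
  refine integral_congr_ae (Filter.Eventually.of_forall fun w => ?_)
  simp only [smul_eq_mul]
  rw [ENNReal.toReal_ofReal (H.dens_pos _).le, ← mul_assoc, ch_absdet]

theorem integrable_exp_iff (x : Ev n) (f : Ev n → ℝ) :
    Integrable f H.vol ↔ Integrable (fun w => H.th x w * f (H.Ex x w)) := by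
  unfold HData.vol
  rw [integrable_withDensity_iff_integrable_smul' (ch_dens_meas H) (ch_dens_lt H)]
  have h := integrableOn_image_iff_integrableOn_abs_det_fderiv_smul (volume : Measure (Ev n))
    MeasurableSet.univ (fun w _ => ch_deriv H x w univ) (ch_inj H x)
    (fun y : Ev n => (ENNReal.ofReal (H.dens y)).toReal • f y)
  rw [ch_image, integrableOn_univ, integrableOn_univ] at h
  rw [h]
  refine integrable_congr (Filter.Eventually.of_forall fun w => ?_)
  simp only [smul_eq_mul]
  rw [ENNReal.toReal_ofReal (H.dens_pos _).le, ← mul_assoc, ch_absdet]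

end HData

end Vale.Agent.Lib.P219
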