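import Vale.Agent.Lib.P219.LA.Det

/-! # P219 Part A: basic facts about `HData` -/

namespace Vale.Agent.Lib.P219

open MeasureTheory Set Filter Topology
open scoped ENNReal

namespace HData

variable {n : ℕ} (H : HData n)

theorem Ex_zero (x : Ev n) : H.Ex x 0 = x := by
  have h := H.fl_smul 1 0 x 0
  rw [zero_smul, zero_mul, H.fl_zero] at h
  unfold HData.Ex
  rw [h]

theorem Ex_smul (t : ℝ) (x w : Ev n) : H.Ex x (t • w) = (H.fl t (x, w)).1 := by
  unfold HData.Ex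
  rw [H.fl_smul, mul_one]

theorem ve_smul (t : ℝ) (x w : Ev n) : H.ve x (t • w) = t • (H.fl t (x, w)).2 := by
  unfold HData.ve
  rw [H.fl_smul, mul_one]

theorem norm_ve (x w : Ev n) : ‖H.ve x w‖ = ‖w‖ := H.fl_norm 1 (x, w)

theorem Ex_cont : Continuous (fun p : Ev n × Ev n => H.Ex p.1 p.2) :=
  continuous_fst.comp (H.fl_cont.comp (continuous_const.prodMk continuous_id))

theorem ve_cont : Continuous (fun p : Ev n × Ev n => H.ve p.1 p.2) :=
  continuous_snd.comp (H.fl_cont.comp (continuous_const.prodMk continuous_id))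

private theorem fl_rev (x w : Ev n) :
    H.fl 1 (H.Ex x w, -(H.ve x w)) = (x, -w) := by
  have h1 := H.fl_smul 1 (-1) (H.Ex x w) (H.ve x w)
  have h2 : H.fl (-1 * 1) (H.Ex x w, H.ve x w) = (x, w) := by
    have h3 : (H.Ex x w, H.ve x w) = H.fl 1 (x, w) := rfl
    rw [h3, ← H.fl_add, mul_one, neg_add_cancel, H.fl_zero]
  rw [h2, neg_one_smul, neg_one_smul] at h1
  exact h1

theorem Ex_reverse (x w : Ev n) : H.Ex (H.Ex x w) (-(H.ve x w)) = x :=
  congrArg Prod.fst (fl_rev H x w)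

theorem ve_reverse (x w : Ev n) : H.ve (H.Ex x w) (-(H.ve x w)) = -w :=
  congrArg Prod.snd (fl_rev H x w)

/-- reversal of the flow -/
theorem fl_neg (t : ℝ) (x w : Ev n) :
    H.fl t (x, -w) = ((H.fl (-t) (x, w)).1, -(H.fl (-t) (x, w)).2) := by
  have h := H.fl_smul t (-1) x w
  rw [neg_one_smul, neg_one_smul, neg_one_mul] at h
  exact h

theorem P_self (x w : Ev n) : H.P x w w = H.ve x w := by
  have h1 : HasDerivAt (fun s : ℝ => (H.fl s (x, w)).1)
      (H.L (H.Ex x w) (H.ve x w)) 1 := H.fl_deriv 1 (x, w)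
  have h2 : HasDerivAt (fun s : ℝ => s • w) w 1 := by
    simpa using (hasDerivAt_id (1 : ℝ)).smul_const w
  have h3 : HasFDerivAt (fun w' => (H.fl 1 (x, w')).1)
      ((H.L (H.fl 1 (x, w)).1).comp (H.P x w)) ((1 : ℝ) • w) := by
    rw [one_smul]
    exact H.exp_deriv x w
  have h4 := h3.comp_hasDerivAt (1 : ℝ) h2
  have h5 : ((fun w' => (H.fl 1 (x, w')).1) ∘ fun s : ℝ => s • w) =
      fun s : ℝ => (H.fl s (x, w)).1 := by
    funext s
    exact H.Ex_smul s x w
  rw [h5] at h4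
  have h6 : H.L (H.Ex x w) (H.P x w w) = H.L (H.Ex x w) (H.ve x w) := h4.unique h1
  have h7 := congrArg (H.Li (H.Ex x w)) h6
  rwa [H.Li_L, H.Li_L] at h7

theorem norm_le_P (x w ξ : Ev n) : ‖ξ‖ ≤ ‖H.P x w ξ‖ := by
  have h := H.P_mono x w ξ 0 1 le_rfl zero_le_one
  rwa [zero_smul, one_smul, H.P_zero] at h

theorem th_cont : Continuous (fun p : Ev n × Ev n => H.th p.1 p.2) :=
  (ContinuousLinearMap.continuous_det.comp H.P_cont).abs

theorem one_le_th (x w : Ev n) : 1 ≤ H.th x w :=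
  LA.one_le_abs_det (H.P x w) (H.norm_le_P x w)

theorem th_mono (x w : Ev n) {s t : ℝ} (hs : 0 ≤ s) (hst : s ≤ t) :
    H.th x (s • w) ≤ H.th x (t • w) :=
  LA.abs_det_mono _ _ fun ξ => H.P_mono x w ξ s t hs hst

theorem th_symm (x w : Ev n) : H.th (H.Ex x w) (-(H.ve x w)) = H.th x w :=
  H.P_symm x w

theorem dens_pos (x : Ev n) : 0 < H.dens x := by
  have h1 : (H.L x : Ev n →ₗ[ℝ] Ev n) ∘ₗ (H.Li x : Ev n →ₗ[ℝ] Ev n) = LinearMap.id := by
    ext1 v
    exact H.L_Li x v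
  have h2 := congrArg LinearMap.det h1
  rw [LinearMap.det_comp, LinearMap.det_id] at h2
  have h3 : LinearMap.det (H.Li x : Ev n →ₗ[ℝ] Ev n) ≠ 0 := by
    intro h0
    rw [h0, mul_zero] at h2
    exact zero_ne_one h2
  exact abs_pos.2 h3

theorem dens_cont : Continuous H.dens :=
  (ContinuousLinearMap.continuous_det.comp H.Li_cont).abs

end HData

end Vale.Agent.Lib.P219
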