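import Mathlib.Algebra.Order.Star.Real
import Mathlib.Topology.UniformSpace.Uniformizable
import Vale.Agent.Lib.P219.A.Basic

/-! # P219 Part A: the Riemannian measure, gradients, integrability -/

namespace Vale.Agent.Lib.P219

open MeasureTheory Set Filter Topology
open scoped ENNReal

namespace HData

variable {n : ℕ} (H : HData n)

theorem vol_isFiniteMeasureOnCompacts : IsFiniteMeasureOnCompacts H.vol := by
  have : IsLocallyFiniteMeasure H.vol := by
    unfold vol
    exact IsLocallyFiniteMeasure.withDensity_ofReal H.dens_cont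
  infer_instance

theorem vol_sFinite : SFinite H.vol := by
  unfold vol
  infer_instance

theorem vol_isOpenPosMeasure : H.vol.IsOpenPosMeasure := by
  unfold vol
  refine Measure.AbsolutelyContinuous.isOpenPosMeasure (μ := (volume : Measure (Ev n))) ?_
  apply withDensity_absolutelyContinuous'
  · exact (ENNReal.continuous_ofReal.comp H.dens_cont).measurable.aemeasurable
  · refine Filter.Eventually.of_forall (fun x => ?_)
    have := H.dens_pos x
    simp only [ne_eq, ENNReal.ofReal_eq_zero, not_le]
    exact this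

theorem integrable_of_continuous {f : Ev n → ℝ} (hf : Continuous f) (hs : HasCompactSupport f) :
    Integrable f H.vol := by
  have := H.vol_isFiniteMeasureOnCompacts
  exact hf.integrable_of_hasCompactSupport hs

theorem gr_cont {u : Ev n → ℝ} (hu : ContDiff ℝ 1 u) : Continuous (H.gr u) := by
  unfold gr
  apply (InnerProductSpace.toDual ℝ (Ev n)).symm.continuous.comp
  exact (hu.continuous_fderiv (by norm_num)).clm_comp H.L_cont

theorem gr_zero_of_not_mem {u : Ev n → ℝ} {x : Ev n} (hx : x ∉ tsupport u) : H.gr u x = 0 := by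
  unfold gr
  rw [fderiv_of_notMem_tsupport ℝ hx]
  simp

theorem gr_hasCompactSupport {u : Ev n → ℝ} (hs : HasCompactSupport u) :
    HasCompactSupport (H.gr u) := by
  apply HasCompactSupport.intro hs
  intro x hx
  exact H.gr_zero_of_not_mem hx

/-- `⟨gr u x, v⟩ = du (L v)` -/
theorem inner_gr (u : Ev n → ℝ) (x v : Ev n) :
    inner ℝ (H.gr u x) v = fderiv ℝ u x (H.L x v) := by
  unfold gr
  rw [InnerProductSpace.toDual_symm_apply]
  rfl

/-- derivative of `u` along the flow -/
theorem hasDerivAt_comp_fl {u : Ev n → ℝ} (hu : ContDiff ℝ 1 u) (t : ℝ) (v : Ev n × Ev n) :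
    HasDerivAt (fun s => u (H.fl s v).1) (inner ℝ (H.gr u (H.fl t v).1) (H.fl t v).2) t := by
  rw [inner_gr]
  have h1 : HasFDerivAt u (fderiv ℝ u (H.fl t v).1) (H.fl t v).1 :=
    ((hu.differentiable (by norm_num)) _).hasFDerivAt
  exact h1.comp_hasDerivAt t (H.fl_deriv t v)

/-- derivative of `u` in exponential coordinates -/
theorem hasFDerivAt_comp_Ex {u : Ev n → ℝ} (hu : ContDiff ℝ 1 u) (x w ξ : Ev n) :
    fderiv ℝ (fun w' => u (H.Ex x w')) w ξ = inner ℝ (H.gr u (H.Ex x w)) (H.P x w ξ) := by
  rw [inner_gr]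
  have h1 : HasFDerivAt u (fderiv ℝ u (H.fl 1 (x, w)).1) (H.fl 1 (x, w)).1 :=
    ((hu.differentiable (by norm_num)) _).hasFDerivAt
  have h2 := h1.comp w (H.exp_deriv x w)
  have h3 : (fun w' => u (H.Ex x w')) = u ∘ (fun w' => (H.fl 1 (x, w')).1) := rfl
  rw [h3, h2.fderiv]
  rfl

theorem A_nonneg (u : Ev n → ℝ) : 0 ≤ H.A u := by
  unfold A
  exact integral_nonneg (fun x => norm_nonneg _)

theorem V_le {K : Set (Ev n)} (hK : IsCompact K) {h : ℝ} {u : Ev n → ℝ} (hu : H.Adm K h u) :
    H.V u ≤ (H.vol K).toReal := by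
  have := H.vol_isFiniteMeasureOnCompacts
  have hs : HasCompactSupport u := hK.of_isClosed_subset (isClosed_tsupport u) hu.supp
  have hi : Integrable u H.vol := H.integrable_of_continuous hu.smooth.continuous hs
  have hKm : MeasurableSet K := hK.isClosed.measurableSet
  have hfin : H.vol K ≠ ∞ := hK.measure_lt_top.ne
  have hi2 : Integrable (K.indicator (fun _ => (1 : ℝ))) H.vol :=
    (integrable_indicator_iff hKm).mpr (integrableOn_const hfin)
  have h1 : H.V u ≤ ∫ x, K.indicator (fun _ => (1 : ℝ)) x ∂H.vol := by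
    unfold V
    apply integral_mono hi hi2
    intro x
    by_cases hx : x ∈ K
    · simp only [indicator_of_mem hx]
      exact hu.le_one x
    · simp only [indicator_of_notMem hx]
      have : x ∉ tsupport u := fun h' => hx (hu.supp h')
      rw [image_eq_zero_of_notMem_tsupport this]
  refine le_trans h1 ?_
  rw [integral_indicator hKm, setIntegral_const]
  simp [Measure.real]

theorem Adm.mono {K : Set (Ev n)} {h h' : ℝ} {u : Ev n → ℝ} (hu : H.Adm K h u) (hh : h ≤ h') :
    H.Adm K h' u where
  smooth := hu.smooth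
  supp := hu.supp
  nonneg := hu.nonneg
  le_one := hu.le_one
  mass_pos := hu.mass_pos
  layer := le_trans hu.layer (mul_le_mul_of_nonneg_right hh hu.mass_pos.le)

theorem Adm.h_nonneg {K : Set (Ev n)} {h : ℝ} {u : Ev n → ℝ} (hu : H.Adm K h u) : 0 ≤ h := by
  have h1 : 0 ≤ ∫ x, u x * (1 - u x) ∂H.vol := by
    apply integral_nonneg
    intro x
    exact mul_nonneg (hu.nonneg x) (by have := hu.le_one x; simpa using this)
  have h2 := le_trans h1 hu.layer
  exact nonneg_of_mul_nonneg_left h2 hu.mass_pos

end HData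

end Vale.Agent.Lib.P219
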