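import Vale.Agent.Lib.P219.A.KerB
import Vale.Agent.Lib.P219.A.Vol
import Vale.Agent.Lib.P219.A.Change

/-! # P219 Part A: integrability and bounds for the one-point functional -/

namespace Vale.Agent.Lib.P219

open MeasureTheory Set Filter Topology

namespace HData

variable {n : ℕ} (H : HData n) (k : Ker n)

private theorem fvb_grEx_cont {u : Ev n → ℝ} (hu : ContDiff ℝ 1 u) :
    Continuous (fun p : Ev n × Ev n => H.gr u (H.Ex p.1 p.2)) :=
  (H.gr_cont hu).comp H.Ex_cont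

theorem cy_measurable {u : Ev n → ℝ} (hu : ContDiff ℝ 1 u) :
    Measurable (fun p : Ev n × Ev n => H.cy u p.1 p.2) := by
  have h1 := H.fvb_grEx_cont hu
  have h2 : Continuous (fun p : Ev n × Ev n =>
      -(inner ℝ (H.gr u (H.Ex p.1 p.2)) (H.ve p.1 p.2))) := (h1.inner H.ve_cont).neg
  have h3 : Continuous (fun p : Ev n × Ev n => ‖H.gr u (H.Ex p.1 p.2)‖ * ‖p.2‖) :=
    h1.norm.mul continuous_snd.norm
  exact h2.measurable.div h3.measurable

theorem cx_measurable {u : Ev n → ℝ} (hu : ContDiff ℝ 1 u) :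
    Measurable (fun p : Ev n × Ev n => H.cx u p.1 p.2) := by
  have h1 : Continuous (fun p : Ev n × Ev n => H.gr u p.1) := (H.gr_cont hu).comp continuous_fst
  have h2 : Continuous (fun p : Ev n × Ev n => (inner ℝ (H.gr u p.1) p.2 : ℝ)) :=
    h1.inner continuous_snd
  have h3 : Continuous (fun p : Ev n × Ev n => ‖H.gr u p.1‖ * ‖p.2‖) :=
    h1.norm.mul continuous_snd.norm
  exact h2.measurable.div h3.measurable

theorem cs_measurable {u : Ev n → ℝ} (hu : ContDiff ℝ 1 u) : Measurable (H.cs u) := by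
  have h1 : Continuous (fun p : Ev n × Ev n => H.gr u p.1) := (H.gr_cont hu).comp continuous_fst
  have h2 : Continuous (fun p : Ev n × Ev n => (inner ℝ (H.gr u p.1) p.2 : ℝ)) :=
    h1.inner continuous_snd
  exact h2.measurable.div h1.norm.measurable

private theorem fvb_quot_le {a b : Ev n} : |inner ℝ a b / (‖a‖ * ‖b‖)| ≤ 1 :=
  abs_real_inner_div_norm_mul_norm_le_one a b

private theorem fvb_cy_le (u : Ev n → ℝ) (x w : Ev n) : |H.cy u x w| ≤ 1 := by
  unfold cy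
  rw [neg_div, abs_neg, ← H.norm_ve x w]
  exact fvb_quot_le

private theorem fvb_ce_le (w : Ev n) {e : Ev n} (he : ‖e‖ ≤ 1) : |inner ℝ w e / ‖w‖| ≤ 1 := by
  rw [abs_div, abs_norm]
  rcases eq_or_ne w 0 with rfl | hw
  · simp
  · rw [div_le_one (norm_pos_iff.2 hw)]
    calc |inner ℝ w e| ≤ ‖w‖ * ‖e‖ := abs_real_inner_le_norm w e
      _ ≤ ‖w‖ * 1 := mul_le_mul_of_nonneg_left he (norm_nonneg _)
      _ = ‖w‖ := mul_one _

private theorem fvb_base_integrable {u : Ev n → ℝ} (hu : ContDiff ℝ 1 u)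
    (hs : HasCompactSupport u) (x : Ev n) :
    Integrable (fun w => H.th x w * ‖H.gr u (H.Ex x w)‖) := by
  rw [← H.integrable_exp_iff x (fun y => ‖H.gr u y‖)]
  exact H.integrable_of_continuous (H.gr_cont hu).norm (H.gr_hasCompactSupport hs).norm

private theorem fvb_bound {F : ℝ → ℝ → ℝ → ℝ} {C : ℝ}
    (hC : ∀ r c c', |c| ≤ 1 → |c'| ≤ 1 → |F r c c'| ≤ C) (u : Ev n → ℝ) (ρ₀ : ℝ) (x : Ev n)
    {e : Ev n} (he : ‖e‖ ≤ 1) (w : Ev n) :
    ‖‖H.gr u (H.Ex x w)‖ * F (‖w‖ / ρ₀) (H.cy u x w) (inner ℝ w e / ‖w‖) * H.th x w‖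
      ≤ C * (H.th x w * ‖H.gr u (H.Ex x w)‖) := by
  have h1 := hC (‖w‖ / ρ₀) (H.cy u x w) (inner ℝ w e / ‖w‖) (H.fvb_cy_le u x w)
    (fvb_ce_le w he)
  have hth : 0 ≤ H.th x w := abs_nonneg _
  rw [Real.norm_eq_abs, abs_mul, abs_mul, abs_norm, abs_of_nonneg hth]
  calc ‖H.gr u (H.Ex x w)‖ * |F (‖w‖ / ρ₀) (H.cy u x w) (inner ℝ w e / ‖w‖)| * H.th x w
      ≤ ‖H.gr u (H.Ex x w)‖ * C * H.th x w :=
        mul_le_mul_of_nonneg_right (mul_le_mul_of_nonneg_left h1 (norm_nonneg _)) hth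
    _ = C * (H.th x w * ‖H.gr u (H.Ex x w)‖) := by ring

private theorem fvb_meas_F {F : ℝ → ℝ → ℝ → ℝ}
    (hF : Measurable (fun p : ℝ × ℝ × ℝ => F p.1 p.2.1 p.2.2)) {a b c : Ev n → ℝ}
    (ha : Measurable a) (hb : Measurable b) (hc : Measurable c) :
    Measurable (fun w => F (a w) (b w) (c w)) :=
  hF.comp (ha.prodMk (hb.prodMk hc))

private theorem fvb_m4 (e : Ev n) : Measurable (fun w : Ev n => (inner ℝ w e / ‖w‖ : ℝ)) := by
  have h1 : Continuous (fun w : Ev n => (inner ℝ w e : ℝ)) := continuous_id.inner continuous_const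
  exact h1.measurable.div continuous_norm.measurable

private theorem fvb_m1 {u : Ev n → ℝ} (hu : ContDiff ℝ 1 u) (x : Ev n) :
    Measurable (fun w => ‖H.gr u (H.Ex x w)‖) := by
  have hx : Continuous (fun w : Ev n => (x, w)) := continuous_const.prodMk continuous_id
  have h : Continuous (fun w => H.gr u (H.Ex x w)) := (H.fvb_grEx_cont hu).comp hx
  exact h.norm.measurable

private theorem fvb_sec {G : Ev n × Ev n → ℝ} (hG : Measurable G) (x : Ev n) :
    Measurable (fun w : Ev n => G (x, w)) := hG.comp measurable_prodMk_left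

private theorem fvb_m3 {u : Ev n → ℝ} (hu : ContDiff ℝ 1 u) (x : Ev n) :
    Measurable (fun w => H.cy u x w) := fvb_sec (H.cy_measurable hu) x

private theorem fvb_m5 (x : Ev n) : Measurable (fun w => H.th x w) := by
  have hx : Continuous (fun w : Ev n => (x, w)) := continuous_const.prodMk continuous_id
  have h : Continuous (fun w => H.th x w) := H.th_cont.comp hx
  exact h.measurable

private theorem fvb_m2 (ρ₀ : ℝ) : Measurable (fun w : Ev n => ‖w‖ / ρ₀) :=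
  continuous_norm.measurable.div_const ρ₀

private theorem fvb_meas {F : ℝ → ℝ → ℝ → ℝ}
    (hF : Measurable (fun p : ℝ × ℝ × ℝ => F p.1 p.2.1 p.2.2)) {u : Ev n → ℝ}
    (hu : ContDiff ℝ 1 u) (ρ₀ : ℝ) (x e : Ev n) :
    Measurable (fun w => ‖H.gr u (H.Ex x w)‖ * F (‖w‖ / ρ₀) (H.cy u x w)
      (inner ℝ w e / ‖w‖) * H.th x w) := by
  have m6 : Measurable (fun w => F (‖w‖ / ρ₀) (H.cy u x w) (inner ℝ w e / ‖w‖)) :=
    fvb_meas_F hF (fvb_m2 ρ₀) (H.fvb_m3 hu x) (fvb_m4 e)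
  exact ((H.fvb_m1 hu x).mul m6).mul (H.fvb_m5 x)

/-- integrability of the integrand of `FV` -/
theorem FV_integrable {F : ℝ → ℝ → ℝ → ℝ}
    (hF : Measurable (fun p : ℝ × ℝ × ℝ => F p.1 p.2.1 p.2.2)) {C : ℝ}
    (hC : ∀ r c c', |c| ≤ 1 → |c'| ≤ 1 → |F r c c'| ≤ C) {u : Ev n → ℝ} (hu : ContDiff ℝ 1 u)
    (hs : HasCompactSupport u) (ρ₀ : ℝ) (x : Ev n) {e : Ev n} (he : ‖e‖ ≤ 1) :
    Integrable (fun w => ‖H.gr u (H.Ex x w)‖ * F (‖w‖ / ρ₀) (H.cy u x w)
      (inner ℝ w e / ‖w‖) * H.th x w) := by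
  have hm := (H.fvb_meas hF hu ρ₀ x e).aestronglyMeasurable (μ := (volume : Measure (Ev n)))
  have hb := Filter.Eventually.of_forall (f := ae (volume : Measure (Ev n)))
    (fun w => H.fvb_bound hC u ρ₀ x he w)
  exact Integrable.mono' ((H.fvb_base_integrable hu hs x).const_mul C) hm hb

/-- `A` in exponential coordinates -/
private theorem fvb_A_eq (u : Ev n → ℝ) (x : Ev n) :
    H.A u = ∫ w, H.th x w * ‖H.gr u (H.Ex x w)‖ := H.integral_exp x (fun y => ‖H.gr u y‖)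

theorem abs_FV_le {F : ℝ → ℝ → ℝ → ℝ} {C : ℝ}
    (hC : ∀ r c c', |c| ≤ 1 → |c'| ≤ 1 → |F r c c'| ≤ C) {u : Ev n → ℝ} (hu : ContDiff ℝ 1 u)
    (hs : HasCompactSupport u) (ρ₀ : ℝ) (x : Ev n) {e : Ev n} (he : ‖e‖ ≤ 1) :
    |H.FV F u ρ₀ x e| ≤ C * H.A u := by
  rw [H.fvb_A_eq u x, ← integral_const_mul, ← Real.norm_eq_abs]
  exact norm_integral_le_of_norm_le ((H.fvb_base_integrable hu hs x).const_mul C)
    (Filter.Eventually.of_forall (fun w => H.fvb_bound hC u ρ₀ x he w))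

/-- `A` in exponential coordinates -/
theorem A_eq_exp (u : Ev n → ℝ) (x : Ev n) :
    H.A u = ∫ w, ‖H.gr u (H.Ex x w)‖ * H.th x w := by
  rw [H.fvb_A_eq u x]
  exact integral_congr_ae (Filter.Eventually.of_forall (fun w => mul_comm _ _))

end HData

end Vale.Agent.Lib.P219
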