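import Vale.Agent.Lib.P219.A.AreaPt
import Vale.Agent.Lib.P219.A.FVBasic

/-! # P219 Part A: area of the transported function -/

namespace Vale.Agent.Lib.P219

open MeasureTheory Set Filter Topology

namespace HData

variable {n : ℕ} (H : HData n) (k : Ker n)

theorem area_int (hn : 2 ≤ n) : ∃ C : ℝ, 0 < C ∧ ∀ (x e : Ev n), ‖e‖ = 1 →
    ∀ τ ρ₀ : ℝ, 0 ≤ τ → τ ≤ k.τ₀ → 0 < ρ₀ → ∀ u v : Ev n → ℝ, ContDiff ℝ 1 u →
    HasCompactSupport u → ContDiff ℝ 1 v →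
    (∀ w, v (H.Ex x (k.phi τ ρ₀ e w)) = u (H.Ex x w)) →
    H.A v ≤ (1 + C * τ ^ 2) * H.A u - τ * H.FV k.gh u ρ₀ x e := by
  obtain ⟨C, hC0, hC⟩ := H.area_pt k hn
  refine ⟨C, hC0, ?_⟩
  intro x e he τ ρ₀ hτ hτ' hρ u v hu hs hv huv
  obtain ⟨Cg, hCg0, hCg⟩ := k.g_bounded
  have hn1 : 1 ≤ n := by omega
  have : Nonempty (Fin n) := ⟨⟨0, by omega⟩⟩
  have hne : ∀ᵐ w : Ev n, w ≠ 0 := by
    have h0 : (volume : Measure (Ev n)) {(0 : Ev n)} = 0 := by simp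
    have := compl_mem_ae_iff.mpr h0
    filter_upwards [this] with w hw
    exact hw
  have hI1 : Integrable (fun w => ‖H.gr u (H.Ex x w)‖ * H.th x w) := by
    have h := H.FV_integrable (F := fun _ _ _ => (1 : ℝ)) measurable_const (C := 1)
      (fun _ _ _ _ _ => by simp) hu hs ρ₀ x he.le
    simpa using h
  have hI2 : Integrable (fun w => ‖H.gr u (H.Ex x w)‖ * k.gh (‖w‖ / ρ₀) (H.cy u x w)
      (inner ℝ w e / ‖w‖) * H.th x w) :=
    H.FV_integrable k.gh_measurable (C := Cg) (fun r c c' hc hc' => (hCg r c c' hc hc').2.1)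
      hu hs ρ₀ x he.le
  have hA : H.A v = ∫ w, ‖H.gr v (H.Ex x (k.phi τ ρ₀ e w))‖ * (H.th x (k.phi τ ρ₀ e w)
      * |(fderiv ℝ (k.phi τ ρ₀ e) w).det|) :=
    H.integral_comp k hn1 x he hτ hτ' hρ (fun y => ‖H.gr v y‖)
  have hbound : H.A v ≤ ∫ w, ((1 + C * τ ^ 2) * (‖H.gr u (H.Ex x w)‖ * H.th x w)
      - τ * (‖H.gr u (H.Ex x w)‖ * k.gh (‖w‖ / ρ₀) (H.cy u x w)
      (inner ℝ w e / ‖w‖) * H.th x w)) := by
    rw [hA]
    refine integral_mono_of_nonneg (Filter.Eventually.of_forall fun w => ?_)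
      ((hI1.const_mul _).sub (hI2.const_mul _)) ?_
    · simp only [Pi.zero_apply]
      exact mul_nonneg (norm_nonneg _) (mul_nonneg (abs_nonneg _) (abs_nonneg _))
    · filter_upwards [hne] with w hw
      refine (hC x e he τ ρ₀ hτ hτ' hρ u v hu hv huv w hw).trans (le_of_eq ?_)
      ring
  rw [integral_sub (hI1.const_mul _) (hI2.const_mul _), integral_const_mul,
    integral_const_mul] at hbound
  rw [H.A_eq_exp u x]
  exact hbound

end HData

end Vale.Agent.Lib.P219
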