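import Vale.Agent.Lib.P219.Defs

/-! # P219 Part A: further definitions (contraction, cosines, functionals) -/

namespace Vale.Agent.Lib.P219

open MeasureTheory Set Filter Topology
open scoped ENNReal

noncomputable section

namespace Ker

variable {n : ℕ} (k : Ker n)

/-- contraction factor -/
def mu (τ ρ₀ : ℝ) (e w : Ev n) : ℝ :=
  1 - τ * ρ₀ * k.η (‖w‖ / ρ₀) (inner ℝ w e / ‖w‖) / ‖w‖

/-- the contraction in the tangent space -/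
def phi (τ ρ₀ : ℝ) (e w : Ev n) : Ev n := k.mu τ ρ₀ e w • w

/-- largest admissible step -/
def τ₀ : ℝ := min (1 / (2 * k.M)) (k.δ / (2 * k.M))

end Ker

namespace HData

variable {n : ℕ} (H : HData n)

/-- cosine at the end point, with respect to the outer normal `-gr u` -/
def cy (u : Ev n → ℝ) (x w : Ev n) : ℝ :=
  -(inner ℝ (H.gr u (H.Ex x w)) (H.ve x w)) / (‖H.gr u (H.Ex x w)‖ * ‖w‖)

/-- cosine at the initial point, with respect to the inner normal `gr u` -/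
def cx (u : Ev n → ℝ) (x w : Ev n) : ℝ := inner ℝ (H.gr u x) w / (‖H.gr u x‖ * ‖w‖)

/-- signed cosine of a vector with the gradient -/
def cs (u : Ev n → ℝ) (v : Ev n × Ev n) : ℝ := inner ℝ (H.gr u v.1) v.2 / ‖H.gr u v.1‖

/-- one-point functional with base point `x` and direction `e` -/
def FV (F : ℝ → ℝ → ℝ → ℝ) (u : Ev n → ℝ) (ρ₀ : ℝ) (x e : Ev n) : ℝ :=
  ∫ w, ‖H.gr u (H.Ex x w)‖ * F (‖w‖ / ρ₀) (H.cy u x w) (inner ℝ w e / ‖w‖) * H.th x w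

/-- pair functional -/
def Pair (F : ℝ → ℝ → ℝ → ℝ) (u : Ev n → ℝ) (ρ₀ : ℝ) : ℝ≥0∞ :=
  ∫⁻ x, (∫⁻ w, ENNReal.ofReal (‖H.gr u x‖ * ‖H.gr u (H.Ex x w)‖
    * F (‖w‖ / ρ₀) (H.cy u x w) (H.cx u x w) * H.th x w)) ∂H.vol

/-- the pair kernel along a geodesic, flat Jacobian -/
def Lk (k : Ker n) (u : Ev n → ℝ) (ρ₀ : ℝ) (v : Ev n × Ev n) : ℝ≥0∞ :=
  ∫⁻ t in Ioi (0 : ℝ), ENNReal.ofReal (‖H.gr u v.1‖ * ‖H.gr u (H.fl t v).1‖
    * k.B (t / ρ₀) (-(H.cs u (H.fl t v))) (H.cs u v) * t ^ (n - 1))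

/-- `c₀` is the limit of the isoperimetric constants of almost indicator functions in `K` -/
def Near (K : Set (Ev n)) (c₀ : ℝ) : Prop :=
  0 < c₀ ∧ ∀ ε > 0, ∃ h₀ > 0,
    (∀ v, H.Adm K h₀ v → (1 - ε) * c₀ * (H.V v) ^ (((n : ℝ) - 1) / n) ≤ H.A v) ∧
    (∀ h > 0, ∃ u, H.Adm K h u ∧ H.A u ≤ (1 + ε) * c₀ * (H.V u) ^ (((n : ℝ) - 1) / n))

end HData

end

end Vale.Agent.Lib.P219
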