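import Mathlib.Algebra.Order.Star.Real
import Mathlib.MeasureTheory.Order.Group.Lattice
import Vale.Agent.Lib.P219.A.CDefs

/-! # P219 Part A: bounds for a regularised certificate -/

namespace Vale.Agent.Lib.P219

open MeasureTheory Set Filter Topology

namespace Ker

variable {n : ℕ} (k : Ker n)

theorem η_cont : Continuous (fun p : ℝ × ℝ => k.η p.1 p.2) :=
  k.smooth.continuous

private theorem kerB_fderiv (p : ℝ × ℝ) :
    HasFDerivAt (fun p : ℝ × ℝ => k.η p.1 p.2)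
      (fderiv ℝ (fun p : ℝ × ℝ => k.η p.1 p.2) p) p :=
  ((k.smooth.differentiable (by norm_num)) p).hasFDerivAt

private theorem kerB_ηr (p : ℝ × ℝ) :
    k.ηr p.1 p.2 = fderiv ℝ (fun p : ℝ × ℝ => k.η p.1 p.2) p (1, 0) := by
  have h1 : HasDerivAt (fun s : ℝ => (s, p.2)) ((1 : ℝ), (0 : ℝ)) p.1 :=
    (hasDerivAt_id p.1).prodMk (hasDerivAt_const p.1 p.2)
  have h2 : HasFDerivAt (fun p : ℝ × ℝ => k.η p.1 p.2)
      (fderiv ℝ (fun p : ℝ × ℝ => k.η p.1 p.2) p) (p.1, p.2) := kerB_fderiv k p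
  have h3 := h2.comp_hasDerivAt p.1 h1
  exact (k.deriv_r p.1 p.2).unique h3

private theorem kerB_ηc (p : ℝ × ℝ) :
    k.ηc p.1 p.2 = fderiv ℝ (fun p : ℝ × ℝ => k.η p.1 p.2) p (0, 1) := by
  have h1 : HasDerivAt (fun s : ℝ => (p.1, s)) ((0 : ℝ), (1 : ℝ)) p.2 :=
    (hasDerivAt_const p.2 p.1).prodMk (hasDerivAt_id p.2)
  have h2 : HasFDerivAt (fun p : ℝ × ℝ => k.η p.1 p.2)
      (fderiv ℝ (fun p : ℝ × ℝ => k.η p.1 p.2) p) (p.1, p.2) := kerB_fderiv k p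
  have h3 := h2.comp_hasDerivAt p.2 h1
  exact (k.deriv_c p.1 p.2).unique h3

theorem ηr_cont : Continuous (fun p : ℝ × ℝ => k.ηr p.1 p.2) := by
  have h : (fun p : ℝ × ℝ => k.ηr p.1 p.2) =
      fun p => fderiv ℝ (fun p : ℝ × ℝ => k.η p.1 p.2) p (1, 0) := funext (kerB_ηr k)
  rw [h]
  exact (k.smooth.continuous_fderiv (by norm_num)).clm_apply continuous_const

theorem ηc_cont : Continuous (fun p : ℝ × ℝ => k.ηc p.1 p.2) := by
  have h : (fun p : ℝ × ℝ => k.ηc p.1 p.2) =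
      fun p => fderiv ℝ (fun p : ℝ × ℝ => k.η p.1 p.2) p (0, 1) := funext (kerB_ηc k)
  rw [h]
  exact (k.smooth.continuous_fderiv (by norm_num)).clm_apply continuous_const

theorem ηr_zero (r c : ℝ) (hr : r ≤ k.δ) : k.ηr r c = 0 := by
  have h1 : HasDerivWithinAt (fun s => k.η s c) (k.ηr r c) (Iic r) r :=
    (k.deriv_r r c).hasDerivWithinAt
  have h2 : HasDerivWithinAt (fun s => k.η s c) 0 (Iic r) r := by
    refine (hasDerivWithinAt_const r (Iic r) (0 : ℝ)).congr ?_ ?_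
    · intro s hs
      exact k.η_zero s c (le_trans hs hr)
    · exact k.η_zero r c hr
  exact (uniqueDiffWithinAt_Iic r).eq_deriv _ h1 h2

theorem ηc_zero (r c : ℝ) (hr : r ≤ k.δ) : k.ηc r c = 0 := by
  have h1 : (fun s => k.η r s) = fun _ => (0 : ℝ) := funext fun s => k.η_zero r s hr
  have h2 := k.deriv_c r c
  rw [h1] at h2
  exact h2.unique (hasDerivAt_const c (0 : ℝ))

theorem η_div_nonneg (r c : ℝ) (hc : |c| ≤ 1) : 0 ≤ k.η r c / r := by
  rcases le_or_gt r k.δ with h | h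
  · rw [k.η_zero r c h, zero_div]
  · exact div_nonneg (k.η_nonneg r c hc) (k.δ_pos.le.trans h.le)

theorem η_div_le (r c : ℝ) (hc : |c| ≤ 1) : k.η r c / r ≤ k.M / k.δ := by
  rcases le_or_gt r k.δ with h | h
  · rw [k.η_zero r c h, zero_div]
    exact (div_pos k.M_pos k.δ_pos).le
  · exact div_le_div₀ k.M_pos.le (k.η_le r c hc) k.δ_pos h.le

theorem ηc_div_le (r c : ℝ) (hc : |c| ≤ 1) : |k.ηc r c / r| ≤ k.M / k.δ := by
  rcases le_or_gt r k.δ with h | h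
  · rw [k.ηc_zero r c h, zero_div, abs_zero]
    exact (div_pos k.M_pos k.δ_pos).le
  · rw [abs_div, abs_of_pos (k.δ_pos.trans h)]
    exact div_le_div₀ k.M_pos.le (k.ηc_le r c hc) k.δ_pos h.le

private theorem kerB_sq {c : ℝ} (hc : |c| ≤ 1) : 0 ≤ 1 - c ^ 2 ∧ 1 - c ^ 2 ≤ 1 ∧ c ^ 2 ≤ 1 := by
  have h1 : c ^ 2 ≤ 1 := by
    rw [← sq_abs]
    exact pow_le_one₀ (abs_nonneg c) hc
  exact ⟨by linarith, by nlinarith [sq_nonneg c], h1⟩

private theorem kerB_gh (r c c' : ℝ) (hc : |c| ≤ 1) (hc' : |c'| ≤ 1) :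
    |k.gh r c c'| ≤ k.M + k.M / k.δ * ((n : ℝ) + 2) + k.M / k.δ := by
  obtain ⟨h1, h2, h3⟩ := kerB_sq hc
  obtain ⟨h1', h2', h3'⟩ := kerB_sq hc'
  have hn : (0 : ℝ) ≤ n := Nat.cast_nonneg n
  have hMd : 0 < k.M / k.δ := div_pos k.M_pos k.δ_pos
  have a1 : |k.ηr r c' * (1 - c ^ 2)| ≤ k.M := by
    rw [abs_mul, abs_of_nonneg h1]
    calc |k.ηr r c'| * (1 - c ^ 2) ≤ k.M * 1 :=
          mul_le_mul (k.ηr_le r c' hc') h2 h1 k.M_pos.le
      _ = k.M := mul_one _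
  have a2 : |k.η r c' / r * ((n : ℝ) - 2 + c ^ 2)| ≤ k.M / k.δ * ((n : ℝ) + 2) := by
    rw [abs_mul, abs_of_nonneg (k.η_div_nonneg r c' hc')]
    refine mul_le_mul (k.η_div_le r c' hc') ?_ (abs_nonneg _) hMd.le
    rw [abs_le]
    constructor
    · nlinarith [sq_nonneg c]
    · linarith
  have a3 : |(|c| * |k.ηc r c'| * Real.sqrt ((1 - c ^ 2) * (1 - c' ^ 2)) / r)| ≤ k.M / k.δ := by
    have e : |c| * |k.ηc r c'| * Real.sqrt ((1 - c ^ 2) * (1 - c' ^ 2)) / r =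
        (|c| * Real.sqrt ((1 - c ^ 2) * (1 - c' ^ 2))) * (|k.ηc r c'| / r) := by ring
    rw [e, abs_mul]
    have b1 : Real.sqrt ((1 - c ^ 2) * (1 - c' ^ 2)) ≤ 1 := by
      rw [Real.sqrt_le_one]
      exact mul_le_one₀ h2 h1' h2'
    have b2 : |(|c| * Real.sqrt ((1 - c ^ 2) * (1 - c' ^ 2)))| ≤ 1 := by
      rw [abs_of_nonneg (by positivity)]
      exact mul_le_one₀ hc (Real.sqrt_nonneg _) b1
    have b3 : |(|k.ηc r c'| / r)| ≤ k.M / k.δ := by
      have := k.ηc_div_le r c' hc'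
      rwa [abs_div, abs_abs, ← abs_div]
    calc |(|c| * Real.sqrt ((1 - c ^ 2) * (1 - c' ^ 2)))| * |(|k.ηc r c'| / r)| ≤
        1 * (k.M / k.δ) := mul_le_mul b2 b3 (abs_nonneg _) zero_le_one
      _ = k.M / k.δ := one_mul _
  unfold gh
  calc |k.ηr r c' * (1 - c ^ 2) + k.η r c' / r * ((n : ℝ) - 2 + c ^ 2)
        - |c| * |k.ηc r c'| * Real.sqrt ((1 - c ^ 2) * (1 - c' ^ 2)) / r|
      ≤ |k.ηr r c' * (1 - c ^ 2) + k.η r c' / r * ((n : ℝ) - 2 + c ^ 2)| +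
        |(|c| * |k.ηc r c'| * Real.sqrt ((1 - c ^ 2) * (1 - c' ^ 2)) / r)| := abs_sub _ _
    _ ≤ (|k.ηr r c' * (1 - c ^ 2)| + |k.η r c' / r * ((n : ℝ) - 2 + c ^ 2)|) +
        |(|c| * |k.ηc r c'| * Real.sqrt ((1 - c ^ 2) * (1 - c' ^ 2)) / r)| := by
        have := abs_add_le (k.ηr r c' * (1 - c ^ 2)) (k.η r c' / r * ((n : ℝ) - 2 + c ^ 2))
        linarith
    _ ≤ _ := by linarith

private theorem kerB_g (r c c' : ℝ) (hc : |c| ≤ 1) (hc' : |c'| ≤ 1) :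
    |k.g r c c'| ≤ k.M + k.M / k.δ * ((n : ℝ) + 2) + k.M / k.δ + ((n : ℝ) + 1) * k.M := by
  have h1 := kerB_gh k r c c' hc hc'
  have hn : (0 : ℝ) ≤ n := Nat.cast_nonneg n
  have h2 : |((n : ℝ) - 1) * c * k.η r c'| ≤ ((n : ℝ) + 1) * k.M := by
    rw [abs_mul, abs_mul, abs_of_nonneg (k.η_nonneg r c' hc')]
    have b1 : |(n : ℝ) - 1| ≤ (n : ℝ) + 1 := by
      rw [abs_le]
      constructor <;> linarith
    have b2 : |(n : ℝ) - 1| * |c| ≤ ((n : ℝ) + 1) * 1 :=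
      mul_le_mul b1 hc (abs_nonneg _) (by linarith)
    rw [mul_one] at b2
    exact mul_le_mul b2 (k.η_le r c' hc') (k.η_nonneg r c' hc') (by linarith)
  unfold g
  calc |k.gh r c c' - ((n : ℝ) - 1) * c * k.η r c'| ≤
      |k.gh r c c'| + |((n : ℝ) - 1) * c * k.η r c'| := abs_sub _ _
    _ ≤ _ := by linarith

theorem g_bounded : ∃ C : ℝ, 0 < C ∧ ∀ r c c', |c| ≤ 1 → |c'| ≤ 1 →
    |k.g r c c'| ≤ C ∧ |k.gh r c c'| ≤ C ∧ |k.B r c c'| ≤ C := by
  have hn : (0 : ℝ) ≤ n := Nat.cast_nonneg n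
  have hM := k.M_pos
  have ha := k.a_pos
  have hMd : 0 < k.M / k.δ := div_pos k.M_pos k.δ_pos
  have hnM : 0 ≤ ((n : ℝ) + 1) * k.M := by positivity
  have hnd : 0 ≤ k.M / k.δ * ((n : ℝ) + 2) := by positivity
  refine ⟨k.a + (k.M + k.M / k.δ * ((n : ℝ) + 2) + k.M / k.δ + ((n : ℝ) + 1) * k.M),
    by linarith, ?_⟩
  intro r c c' hc hc'
  have h1 := kerB_gh k r c c' hc hc'
  have h2 := kerB_g k r c c' hc hc'
  have h3 := kerB_g k r c' c hc' hc
  refine ⟨by linarith, by linarith, ?_⟩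
  unfold B
  rw [abs_le] at h2 h3 ⊢
  constructor <;> linarith [h2.1, h2.2, h3.1, h3.2]

private theorem kerB_meas (F : ℝ → ℝ → ℝ) (hF : Continuous (fun p : ℝ × ℝ => F p.1 p.2)) :
    Measurable (fun p : ℝ × ℝ × ℝ => F p.1 p.2.2) :=
  hF.measurable.comp (measurable_fst.prodMk (measurable_snd.comp measurable_snd))

theorem gh_measurable : Measurable (fun p : ℝ × ℝ × ℝ => k.gh p.1 p.2.1 p.2.2) := by
  have h1 := kerB_meas k.η k.η_cont
  have h2 := kerB_meas k.ηr k.ηr_cont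
  have h3 := kerB_meas k.ηc k.ηc_cont
  have hr : Measurable (fun p : ℝ × ℝ × ℝ => p.1) := measurable_fst
  have hc : Measurable (fun p : ℝ × ℝ × ℝ => p.2.1) := measurable_fst.comp measurable_snd
  have hc' : Measurable (fun p : ℝ × ℝ × ℝ => p.2.2) := measurable_snd.comp measurable_snd
  have h3a : Measurable (fun p : ℝ × ℝ × ℝ => |k.ηc p.1 p.2.2|) := h3.abs
  have hca : Measurable (fun p : ℝ × ℝ × ℝ => |p.2.1|) := hc.abs
  unfold gh
  exact (((h2.mul (measurable_const.sub (hc.pow_const 2))).add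
    ((h1.div hr).mul (measurable_const.add (hc.pow_const 2)))).sub
    (((hca.mul h3a).mul (((measurable_const.sub (hc.pow_const 2)).mul
      (measurable_const.sub (hc'.pow_const 2))).sqrt)).div hr))

theorem g_measurable : Measurable (fun p : ℝ × ℝ × ℝ => k.g p.1 p.2.1 p.2.2) := by
  have h1 := kerB_meas k.η k.η_cont
  have hc : Measurable (fun p : ℝ × ℝ × ℝ => p.2.1) := measurable_fst.comp measurable_snd
  unfold g
  exact k.gh_measurable.sub ((measurable_const.mul hc).mul h1)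

theorem B_measurable : Measurable (fun p : ℝ × ℝ × ℝ => k.B p.1 p.2.1 p.2.2) := by
  have h1 := k.g_measurable
  have h2 : Measurable (fun p : ℝ × ℝ × ℝ => k.g p.1 p.2.2 p.2.1) :=
    k.g_measurable.comp (measurable_fst.prodMk
      ((measurable_snd.comp measurable_snd).prodMk (measurable_fst.comp measurable_snd)))
  unfold B
  exact measurable_const.add ((h1.add h2).div_const 2)

theorem B_nonneg' (r c c' : ℝ) (hr : 0 ≤ r) (hc : |c| ≤ 1) (hc' : |c'| ≤ 1) :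
    0 ≤ k.B r c c' := by
  rcases hr.eq_or_lt with h | h
  · have h0 : (0 : ℝ) ≤ k.δ := k.δ_pos.le
    rw [← h]
    unfold B g gh
    rw [k.η_zero 0 c h0, k.η_zero 0 c' h0, k.ηr_zero 0 c h0, k.ηr_zero 0 c' h0,
      k.ηc_zero 0 c h0, k.ηc_zero 0 c' h0]
    have := k.a_pos
    simp
    exact this.le
  · exact k.B_nonneg r c c' h hc hc'

theorem τ₀_pos : 0 < k.τ₀ := by
  have h1 := k.M_pos
  have h2 := k.δ_pos
  unfold τ₀
  exact lt_min (by positivity) (by positivity)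

end Ker

end Vale.Agent.Lib.P219
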