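import Mathlib.Algebra.Order.Ring.Star
import Vale.Agent.Lib.P219.A.KerB

/-! # P219 Part A: first order expansion of the area factor -/

namespace Vale.Agent.Lib.P219

open MeasureTheory Set Filter Topology

namespace Ker

variable {n : ℕ} (k : Ker n)

private theorem pow_le_second (m : ℕ) {x : ℝ} (h0 : 0 ≤ x) (h1 : x ≤ 1) :
    (1 - x) ^ m ≤ 1 - m * x + (m : ℝ) ^ 2 * x ^ 2 := by
  induction m with
  | zero => simp
  | succ m ih =>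
    have h2 : 0 ≤ 1 - x := by linarith
    have h3 := mul_le_mul_of_nonneg_right ih h2
    rw [pow_succ]
    have hm : (0 : ℝ) ≤ m := Nat.cast_nonneg m
    have e : (1 - m * x + (m : ℝ) ^ 2 * x ^ 2) * (1 - x) =
        1 - ((m : ℝ) + 1) * x + ((m : ℝ) ^ 2 + m) * x ^ 2 - (m : ℝ) ^ 2 * x ^ 3 := by ring
    have h4 : 0 ≤ (m : ℝ) ^ 2 * x ^ 3 := by positivity
    have h5 : 0 ≤ ((m : ℝ) + 1) * x ^ 2 := by positivity
    push_cast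
    nlinarith [h3, h4, h5]

private theorem sqrt_le_half {X : ℝ} (hX : 0 ≤ X) : Real.sqrt X ≤ (1 + X) / 2 := by
  have h1 := Real.sq_sqrt hX
  nlinarith [sq_nonneg (Real.sqrt X - 1)]

/-- the sum of the second order terms -/
private theorem second_order {N m m' D t₀ τ A c q S : ℝ} (hτ : 0 ≤ τ) (hτ0 : τ ≤ t₀)
    (hA : 0 ≤ A) (hAD : A ≤ D) (hS0 : 0 ≤ S) (hS1 : S ≤ 1) (hc2 : c ^ 2 ≤ 1)
    (hq : |q| ≤ D) (hm0 : 0 ≤ m) (hmN : m ≤ N) (hm0' : 0 ≤ m') (hmN' : m' ≤ N) :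
    c ^ 2 * (m' ^ 2 * A ^ 2) + q ^ 2 +
        -(2 * m * (A * (S * q))) + m ^ 2 * A ^ 2 * S ^ 2 +
        τ * (2 * m ^ 2 * (A ^ 2 * (S * q))) +
        τ ^ 2 * (m ^ 2 * (A ^ 2 * q ^ 2)) -
        τ * (m * (A * q ^ 2)) ≤
      N ^ 2 * D ^ 2 + D ^ 2 + 2 * N * D ^ 2 + N ^ 2 * D ^ 2 +
          2 * t₀ * N ^ 2 * D ^ 3 + t₀ ^ 2 * N ^ 2 * D ^ 4 := by
  have hD : 0 ≤ D := hA.trans hAD
  have hN : 0 ≤ N := hm0.trans hmN
  have ht₀ : 0 ≤ t₀ := hτ.trans hτ0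
  have hq2 : q ^ 2 ≤ D ^ 2 := sq_le_sq' (abs_le.mp hq).1 (abs_le.mp hq).2
  have hA2 : A ^ 2 ≤ D ^ 2 := pow_le_pow_left₀ hA hAD 2
  have hm2 : m ^ 2 ≤ N ^ 2 := pow_le_pow_left₀ hm0 hmN 2
  have hm2' : m' ^ 2 ≤ N ^ 2 := pow_le_pow_left₀ hm0' hmN' 2
  have hSq : |S * q| ≤ D := by
    rw [abs_mul, abs_of_nonneg hS0]
    calc S * |q| ≤ 1 * D := mul_le_mul hS1 hq (abs_nonneg q) zero_le_one
      _ = D := one_mul D
  have hASq : |A * (S * q)| ≤ D ^ 2 := by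
    rw [abs_mul, abs_of_nonneg hA]
    calc A * |S * q| ≤ D * D := mul_le_mul hAD hSq (abs_nonneg _) hD
      _ = D ^ 2 := by ring
  have hA2Sq : |A ^ 2 * (S * q)| ≤ D ^ 3 := by
    rw [abs_mul, abs_of_nonneg (sq_nonneg A)]
    calc A ^ 2 * |S * q| ≤ D ^ 2 * D := mul_le_mul hA2 hSq (abs_nonneg _) (sq_nonneg D)
      _ = D ^ 3 := by ring
  have hA2q2 : A ^ 2 * q ^ 2 ≤ D ^ 4 := by
    calc A ^ 2 * q ^ 2 ≤ D ^ 2 * D ^ 2 := mul_le_mul hA2 hq2 (sq_nonneg _) (sq_nonneg D)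
      _ = D ^ 4 := by ring
  have r1 : c ^ 2 * (m' ^ 2 * A ^ 2) ≤ N ^ 2 * D ^ 2 := by
    have h2 : m' ^ 2 * A ^ 2 ≤ N ^ 2 * D ^ 2 := mul_le_mul hm2' hA2 (sq_nonneg _) (sq_nonneg _)
    have h3 : 0 ≤ m' ^ 2 * A ^ 2 := by positivity
    exact (mul_le_of_le_one_left h3 hc2).trans h2
  have r2 : -(2 * m * (A * (S * q))) ≤ 2 * N * D ^ 2 := by
    have h1 := (abs_le.mp hASq).1
    have h2 : m * (-(A * (S * q))) ≤ N * D ^ 2 := by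
      calc m * (-(A * (S * q))) ≤ m * D ^ 2 := mul_le_mul_of_nonneg_left (by linarith) hm0
        _ ≤ _ := mul_le_mul_of_nonneg_right hmN (sq_nonneg _)
    linarith
  have r3 : m ^ 2 * A ^ 2 * S ^ 2 ≤ N ^ 2 * D ^ 2 := by
    have h2 : m ^ 2 * A ^ 2 ≤ N ^ 2 * D ^ 2 := mul_le_mul hm2 hA2 (sq_nonneg _) (sq_nonneg _)
    have h3 : 0 ≤ m ^ 2 * A ^ 2 := by positivity
    have h4 : S ^ 2 ≤ 1 := by
      calc S ^ 2 ≤ 1 ^ 2 := pow_le_pow_left₀ hS0 hS1 2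
        _ = 1 := one_pow 2
    exact (mul_le_of_le_one_right h3 h4).trans h2
  have r4 : τ * (2 * m ^ 2 * (A ^ 2 * (S * q))) ≤ 2 * t₀ * N ^ 2 * D ^ 3 := by
    have h1 := (abs_le.mp hA2Sq).2
    have hD3 : 0 ≤ D ^ 3 := by positivity
    have h2 : m ^ 2 * (A ^ 2 * (S * q)) ≤ N ^ 2 * D ^ 3 := by
      calc m ^ 2 * (A ^ 2 * (S * q)) ≤ m ^ 2 * D ^ 3 :=
            mul_le_mul_of_nonneg_left h1 (sq_nonneg _)
        _ ≤ _ := mul_le_mul_of_nonneg_right hm2 hD3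
    have h3 : 0 ≤ N ^ 2 * D ^ 3 := by positivity
    calc τ * (2 * m ^ 2 * (A ^ 2 * (S * q)))
        = τ * (2 * (m ^ 2 * (A ^ 2 * (S * q)))) := by ring
      _ ≤ τ * (2 * (N ^ 2 * D ^ 3)) := mul_le_mul_of_nonneg_left (by linarith) hτ
      _ ≤ t₀ * (2 * (N ^ 2 * D ^ 3)) := mul_le_mul_of_nonneg_right hτ0 (by linarith)
      _ = _ := by ring
  have r5 : τ ^ 2 * (m ^ 2 * (A ^ 2 * q ^ 2)) ≤ t₀ ^ 2 * N ^ 2 * D ^ 4 := by
    have h2 : m ^ 2 * (A ^ 2 * q ^ 2) ≤ N ^ 2 * D ^ 4 :=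
      mul_le_mul hm2 hA2q2 (by positivity) (sq_nonneg _)
    have h3 : 0 ≤ N ^ 2 * D ^ 4 := by positivity
    have h4 : τ ^ 2 ≤ t₀ ^ 2 := pow_le_pow_left₀ hτ hτ0 2
    calc τ ^ 2 * (m ^ 2 * (A ^ 2 * q ^ 2)) ≤ τ ^ 2 * (N ^ 2 * D ^ 4) :=
          mul_le_mul_of_nonneg_left h2 (sq_nonneg _)
      _ ≤ t₀ ^ 2 * (N ^ 2 * D ^ 4) := mul_le_mul_of_nonneg_right h4 h3
      _ = _ := by ring
  have r6 : 0 ≤ τ * (m * (A * q ^ 2)) := by positivity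
  linarith

private theorem expand_key (N₂ p b c S S' A τ q m m' : ℝ) (hS : S ^ 2 = 1 - c ^ 2)
    (hq : q = -p * S + |c| * b * S') (hm : m = 2 * N₂) (hm' : m' = 2 * N₂ + 2) :
    c ^ 2 * (1 - m' * (τ * A) + m' ^ 2 * (τ * A) ^ 2) +
      (1 - m * (τ * A) + m ^ 2 * (τ * A) ^ 2) * (S + τ * q) ^ 2 =
      1 - 2 * τ * (p * (1 - c ^ 2) + A * (N₂ + c ^ 2) - |c| * b * (S * S')) +
      τ ^ 2 * (c ^ 2 * (m' ^ 2 * A ^ 2) + q ^ 2 +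
        -(2 * m * (A * (S * q))) + m ^ 2 * A ^ 2 * S ^ 2 +
        τ * (2 * m ^ 2 * (A ^ 2 * (S * q))) +
        τ ^ 2 * (m ^ 2 * (A ^ 2 * q ^ 2)) -
        τ * (m * (A * q ^ 2))) := by
  have hSq' : S * q = -p * (1 - c ^ 2) + |c| * b * (S * S') := by
    rw [hq, ← hS]; ring
  have e3 : (S + τ * q) ^ 2 = (1 - c ^ 2) + 2 * τ * (S * q) + τ ^ 2 * q ^ 2 := by
    rw [← hS]; ring
  have e4 : |c| * b * (S * S') = S * q + p * (1 - c ^ 2) := by rw [hSq']; ring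
  rw [e3, hS, e4, hm, hm']
  ring

private theorem expand_aux (hn : 2 ≤ n) {D t₀ τ A p b c S S' : ℝ} (hτ : 0 ≤ τ) (hτ0 : τ ≤ t₀)
    (hA : 0 ≤ A) (hAD : A ≤ D) (hτA : τ * A ≤ 1) (hS0 : 0 ≤ S) (hS : S ^ 2 = 1 - c ^ 2)
    (hc2 : c ^ 2 ≤ 1) (hq : |(-p * S + |c| * b * S')| ≤ D) :
    c ^ 2 * (1 - τ * A) ^ (2 * n - 2)
      + (1 - τ * A) ^ (2 * n - 4) * ((1 - τ * p) * S + |c| * (τ * b * S')) ^ 2
      ≤ 1 - 2 * τ * (p * (1 - c ^ 2) + A * (((n : ℝ) - 2) + c ^ 2) - |c| * b * (S * S')) +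
        τ ^ 2 * ((2 * n) ^ 2 * D ^ 2 + D ^ 2 + 2 * (2 * n) * D ^ 2 + (2 * n) ^ 2 * D ^ 2 +
          2 * t₀ * (2 * n) ^ 2 * D ^ 3 + t₀ ^ 2 * (2 * n) ^ 2 * D ^ 4) := by
  have hx0 : 0 ≤ τ * A := mul_nonneg hτ hA
  have hS1 : S ≤ 1 := by
    have h := sq_nonneg c
    have h' : S ^ 2 ≤ 1 := by linarith
    exact (sq_le_one_iff₀ hS0).mp h'
  have hn' : (2 : ℝ) ≤ n := by exact_mod_cast hn
  have e1 : ((2 * n - 2 : ℕ) : ℝ) = 2 * n - 2 := by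
    rw [Nat.cast_sub (by omega)]; push_cast; ring
  have e2 : ((2 * n - 4 : ℕ) : ℝ) = 2 * n - 4 := by
    rw [Nat.cast_sub (by omega)]; push_cast; ring
  have p1 := pow_le_second (2 * n - 2) hx0 hτA
  have p2 := pow_le_second (2 * n - 4) hx0 hτA
  rw [e1] at p1
  rw [e2] at p2
  have eQ : (1 - τ * p) * S + |c| * (τ * b * S') = S + τ * (-p * S + |c| * b * S') := by
    ring
  rw [eQ]
  have t1 := mul_le_mul_of_nonneg_left p1 (sq_nonneg c)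
  have t2 := mul_le_mul_of_nonneg_right p2 (sq_nonneg (S + τ * (-p * S + |c| * b * S')))
  have so := second_order (N := 2 * n) (m := 2 * n - 4) (m' := 2 * n - 2) (D := D) (t₀ := t₀)
    (τ := τ) (A := A) (c := c) (q := -p * S + |c| * b * S') (S := S) hτ hτ0 hA hAD hS0 hS1 hc2 hq
    (by linarith) (by linarith) (by linarith) (by linarith)
  have so' := mul_le_mul_of_nonneg_left so (sq_nonneg τ)
  have key := expand_key ((n : ℝ) - 2) p b c S S' A τ (-p * S + |c| * b * S') (2 * n - 4)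
    (2 * n - 2) hS rfl (by ring) (by ring)
  calc _ ≤ _ := add_le_add t1 t2
    _ = _ := key
    _ ≤ _ := by gcongr

theorem expand (hn : 2 ≤ n) : ∃ C : ℝ, 0 < C ∧ ∀ τ, 0 ≤ τ → τ ≤ k.τ₀ → ∀ r c c', 0 < r →
    |c| ≤ 1 → |c'| ≤ 1 →
    Real.sqrt (c ^ 2 * (1 - τ * k.η r c' / r) ^ (2 * n - 2)
      + (1 - τ * k.η r c' / r) ^ (2 * n - 4) * ((1 - τ * k.ηr r c') * Real.sqrt (1 - c ^ 2)
        + |c| * (τ * |k.ηc r c'| * Real.sqrt (1 - c' ^ 2) / r)) ^ 2)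
      ≤ 1 - τ * k.gh r c c' + C * τ ^ 2 := by
  have hM := k.M_pos
  have hδ := k.δ_pos
  have ht0 := k.τ₀_pos
  have hMδ : 0 < k.M / k.δ := by positivity
  obtain ⟨D, hD⟩ : ∃ D : ℝ, D = k.M + k.M / k.δ := ⟨_, rfl⟩
  have hDpos : 0 < D := by rw [hD]; positivity
  have hn0 : (0 : ℝ) < n := by exact_mod_cast (by omega : 0 < n)
  obtain ⟨K, hK⟩ : ∃ K : ℝ, K = ((2 * n) ^ 2 * D ^ 2 + D ^ 2 + 2 * (2 * n) * D ^ 2 +
      (2 * n) ^ 2 * D ^ 2 + 2 * k.τ₀ * (2 * n) ^ 2 * D ^ 3 + k.τ₀ ^ 2 * (2 * n) ^ 2 * D ^ 4) :=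
    ⟨_, rfl⟩
  have hKpos : 0 < K := by rw [hK]; positivity
  refine ⟨K, hKpos, ?_⟩
  intro τ hτ hτ0 r c c' hr hc hc'
  have hA0 : 0 ≤ k.η r c' / r := k.η_div_nonneg r c' hc'
  have hAle : k.η r c' / r ≤ k.M / k.δ := k.η_div_le r c' hc'
  have hc2 : c ^ 2 ≤ 1 := (sq_le_one_iff_abs_le_one c).mpr hc
  have hc2' : c' ^ 2 ≤ 1 := (sq_le_one_iff_abs_le_one c').mpr hc'
  have hS0 : 0 ≤ Real.sqrt (1 - c ^ 2) := Real.sqrt_nonneg _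
  have hS0' : 0 ≤ Real.sqrt (1 - c' ^ 2) := Real.sqrt_nonneg _
  have hSs : Real.sqrt (1 - c ^ 2) ^ 2 = 1 - c ^ 2 := Real.sq_sqrt (by linarith)
  have hS1 : Real.sqrt (1 - c ^ 2) ≤ 1 := by
    rw [Real.sqrt_le_one]; linarith [sq_nonneg c]
  have hS1' : Real.sqrt (1 - c' ^ 2) ≤ 1 := by
    rw [Real.sqrt_le_one]; linarith [sq_nonneg c']
  have hgh : k.gh r c c' = k.ηr r c' * (1 - c ^ 2) + (k.η r c' / r) * ((n - 2) + c ^ 2) -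
      |c| * (|k.ηc r c'| / r) * (Real.sqrt (1 - c ^ 2) * Real.sqrt (1 - c' ^ 2)) := by
    unfold gh
    rw [Real.sqrt_mul (by linarith : (0 : ℝ) ≤ 1 - c ^ 2)]
    ring
  have eA : τ * k.η r c' / r = τ * (k.η r c' / r) := by ring
  have eb : τ * |k.ηc r c'| * Real.sqrt (1 - c' ^ 2) / r =
      τ * (|k.ηc r c'| / r) * Real.sqrt (1 - c' ^ 2) := by ring
  have hb0 : 0 ≤ |k.ηc r c'| / r := by positivity
  have hble : |k.ηc r c'| / r ≤ k.M / k.δ := by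
    have h := k.ηc_div_le r c' hc'
    rwa [abs_div, abs_of_pos hr] at h
  have hp := k.ηr_le r c' hc'
  rw [hgh, eA, eb]
  generalize k.η r c' / r = A at *
  generalize |k.ηc r c'| / r = b at *
  generalize Real.sqrt (1 - c ^ 2) = S at *
  generalize Real.sqrt (1 - c' ^ 2) = S' at *
  generalize k.ηr r c' = p at *
  have hτA : τ * A ≤ 1 := by
    have h1 : τ ≤ k.δ / (2 * k.M) := hτ0.trans (min_le_right _ _)
    calc τ * A ≤ (k.δ / (2 * k.M)) * (k.M / k.δ) := by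
          apply mul_le_mul h1 hAle hA0 (by positivity)
      _ = 1 / 2 := by field_simp
      _ ≤ 1 := by norm_num
  have hq : |(-p * S + |c| * b * S')| ≤ D := by
    refine (abs_add_le _ _).trans ?_
    rw [hD]
    apply add_le_add
    · rw [abs_mul, abs_neg, abs_of_nonneg hS0]
      calc |p| * S ≤ k.M * 1 := mul_le_mul hp hS1 hS0 hM.le
        _ = k.M := mul_one _
    · rw [abs_of_nonneg (by positivity)]
      calc |c| * b * S' ≤ 1 * (k.M / k.δ) * 1 := by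
            apply mul_le_mul (mul_le_mul hc hble hb0 zero_le_one) hS1' hS0' (by positivity)
        _ = k.M / k.δ := by ring
  have haux := expand_aux (n := n) hn (D := D) (t₀ := k.τ₀) (τ := τ) (A := A)
    (p := p) (b := b) (c := c) (S := S) (S' := S') hτ hτ0 hA0
    (by rw [hD]; linarith) hτA hS0 hSs hc2 hq
  rw [← hK] at haux
  have hX0 : 0 ≤ c ^ 2 * (1 - τ * A) ^ (2 * n - 2)
      + (1 - τ * A) ^ (2 * n - 4) * ((1 - τ * p) * S + |c| * (τ * b * S')) ^ 2 := by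
    have : 0 ≤ 1 - τ * A := by linarith
    positivity
  have hsq := sqrt_le_half hX0
  have hτ2 : 0 ≤ τ ^ 2 * K := by positivity
  linarith

end Ker

end Vale.Agent.Lib.P219
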