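import Vale.Agent.Lib.P219.A.Comp
import Vale.Agent.Lib.P219.A.Expand
import Vale.Agent.Lib.P219.LA.Area

/-! # P219 Part A: pointwise area estimate for the transported function -/

namespace Vale.Agent.Lib.P219

open MeasureTheory Set Filter Topology

namespace HData

variable {n : ℕ} (H : HData n) (k : Ker n)

theorem abs_cy_le (u : Ev n → ℝ) (x w : Ev n) : |H.cy u x w| ≤ 1 := by
  unfold HData.cy
  rw [abs_div, abs_neg, abs_of_nonneg (mul_nonneg (norm_nonneg _) (norm_nonneg w))]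
  refine div_le_one_of_le₀ ?_ (mul_nonneg (norm_nonneg _) (norm_nonneg _))
  have h := abs_real_inner_le_norm (H.gr u (H.Ex x w)) (H.ve x w)
  rwa [H.norm_ve] at h

theorem abs_cx_le (u : Ev n → ℝ) (x w : Ev n) : |H.cx u x w| ≤ 1 := by
  unfold HData.cx
  rw [abs_div, abs_of_nonneg (mul_nonneg (norm_nonneg _) (norm_nonneg w))]
  refine div_le_one_of_le₀ ?_ (mul_nonneg (norm_nonneg _) (norm_nonneg _))
  exact abs_real_inner_le_norm _ _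

private theorem inner_gr_aux (u : Ev n → ℝ) (y ζ : Ev n) :
    inner ℝ (H.gr u y) ζ = fderiv ℝ u y (H.L y ζ) := by
  unfold HData.gr
  rw [InnerProductSpace.toDual_symm_apply]
  rfl

private theorem P_inner (x w : Ev n) {m : ℝ} (hm : m ≠ 0) (ξ : Ev n) :
    inner ℝ (H.P x (m • w) w) (H.P x (m • w) ξ) = inner ℝ w ξ := by
  have h1 : inner ℝ (H.ve x (m • w)) (H.P x (m • w) ξ) = inner ℝ (m • w) ξ :=
    H.P_gauss x (m • w) ξ
  rw [← H.P_self, map_smul, real_inner_smul_left, real_inner_smul_left] at h1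
  exact mul_left_cancel₀ hm h1

theorem area_pt (hn : 2 ≤ n) : ∃ C : ℝ, 0 < C ∧ ∀ (x e : Ev n), ‖e‖ = 1 →
    ∀ τ ρ₀ : ℝ, 0 ≤ τ → τ ≤ k.τ₀ → 0 < ρ₀ → ∀ u v : Ev n → ℝ, ContDiff ℝ 1 u → ContDiff ℝ 1 v →
    (∀ w, v (H.Ex x (k.phi τ ρ₀ e w)) = u (H.Ex x w)) → ∀ w : Ev n, w ≠ 0 →
    ‖H.gr v (H.Ex x (k.phi τ ρ₀ e w))‖ * (H.th x (k.phi τ ρ₀ e w)
        * |(fderiv ℝ (k.phi τ ρ₀ e) w).det|)
      ≤ ‖H.gr u (H.Ex x w)‖ * H.th x w * (1 - τ * k.gh (‖w‖ / ρ₀) (H.cy u x w)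
          (inner ℝ w e / ‖w‖) + C * τ ^ 2) := by
  obtain ⟨C, hC, hexp⟩ := k.expand hn
  refine ⟨C, hC, ?_⟩
  intro x e he τ ρ₀ hτ hτ' hρ₀ u v hu hv huv w hw
  have hw' : 0 < ‖w‖ := norm_pos_iff.2 hw
  obtain ⟨hμ1, hμ2, -⟩ := k.mu_mem hτ hτ' hρ₀ he w
  have hc' : |inner ℝ w e / ‖w‖| ≤ 1 := by
    rw [abs_div, abs_norm]
    refine div_le_one_of_le₀ ?_ (norm_nonneg _)
    have h := abs_real_inner_le_norm w e
    rwa [he, mul_one] at h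
  obtain ⟨hρ1, hρ2⟩ := k.rho_deriv_mem hτ hτ' (‖w‖ / ρ₀) (inner ℝ w e / ‖w‖) hc'
  have hcy := H.abs_cy_le u x w
  have hβn := k.norm_beta hτ hρ₀ he w hw
  have hβo := k.beta_orth (τ := τ) (ρ₀ := ρ₀) e w hw
  have hφ := k.phi_hasFDerivAt (τ := τ) hρ₀ he w hw
  have hdet := k.det_fderiv_phi (by omega : 1 ≤ n) (τ := τ) hρ₀ he w hw
  have hμdef : k.mu τ ρ₀ e w = 1 - τ * k.η (‖w‖ / ρ₀) (inner ℝ w e / ‖w‖) / (‖w‖ / ρ₀) := by
    unfold Ker.mu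
    have h1 : ρ₀ ≠ 0 := hρ₀.ne'
    have h2 : ‖w‖ ≠ 0 := hw'.ne'
    field_simp
  have hE := hexp τ hτ hτ' (‖w‖ / ρ₀) (H.cy u x w) (inner ℝ w e / ‖w‖) (div_pos hw' hρ₀) hcy hc'
  rw [← hμdef, ← hβn] at hE
  have hμ0 : 0 < k.mu τ ρ₀ e w := by linarith
  have hρ0 : 0 < 1 - τ * k.ηr (‖w‖ / ρ₀) (inner ℝ w e / ‖w‖) := by linarith
  have hphi : k.phi τ ρ₀ e w = k.mu τ ρ₀ e w • w := rfl
  have hω : ‖(‖w‖⁻¹ • w : Ev n)‖ = 1 := by
    rw [norm_smul, norm_inv, norm_norm, inv_mul_cancel₀ hw'.ne']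
  have hP2w : H.P x w w = H.ve x w := H.P_self x w
  have hmain := LA.area_factor hn (H.P x (k.phi τ ρ₀ e w)) (H.P x w) (‖w‖⁻¹ • w)
    (k.beta τ ρ₀ e w) (H.gr u (H.Ex x w)) (H.gr v (H.Ex x (k.phi τ ρ₀ e w)))
    (k.mu τ ρ₀ e w) (1 - τ * k.ηr (‖w‖ / ρ₀) (inner ℝ w e / ‖w‖)) hμ0 hρ0 hω hβo
    (by
      intro ξ
      have h := H.P_mono x w ξ (k.mu τ ρ₀ e w) 1 hμ0.le hμ2
      rwa [one_smul] at h)
    (H.norm_le_P x w)
    (by
      intro ξ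
      rw [map_smul, real_inner_smul_left, real_inner_smul_left, hphi,
        P_inner H x w hμ0.ne'])
    (by
      intro ξ
      have h := P_inner H x w one_ne_zero ξ
      rw [one_smul] at h
      rw [map_smul, real_inner_smul_left, real_inner_smul_left, h])
    (by
      have h1 : HasFDerivAt (fun w' => H.Ex x w')
          ((H.L (H.Ex x (k.phi τ ρ₀ e w))).comp (H.P x (k.phi τ ρ₀ e w)))
          (k.phi τ ρ₀ e w) := H.exp_deriv x (k.phi τ ρ₀ e w)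
      have h2 : HasFDerivAt (fun w' => H.Ex x w')
          ((H.L (H.Ex x w)).comp (H.P x w)) w := H.exp_deriv x w
      have h3 := (hv.differentiable (by norm_num)
        (H.Ex x (k.phi τ ρ₀ e w))).hasFDerivAt.comp w (h1.comp w hφ)
      have h4 := (hu.differentiable (by norm_num) (H.Ex x w)).hasFDerivAt.comp w h2
      have h5 : (v ∘ ((fun w' => H.Ex x w') ∘ k.phi τ ρ₀ e)) = u ∘ (fun w' => H.Ex x w') := by
        funext w'
        exact huv w'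
      rw [h5] at h3
      have h6 := h3.unique h4
      intro ξ
      rw [inner_gr_aux, inner_gr_aux]
      exact congrArg (fun T => T ξ) h6)
    (H.cy u x w) hcy
    (by
      rw [map_smul, real_inner_smul_right, hP2w]
      unfold HData.cy
      rcases eq_or_ne (H.gr u (H.Ex x w)) 0 with h0 | h0
      · rw [h0]
        simp
      · have h1 : ‖H.gr u (H.Ex x w)‖ ≠ 0 := norm_ne_zero_iff.2 h0
        have h2 : ‖w‖ ≠ 0 := hw'.ne'
        field_simp)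
  have hdet' : |(fderiv ℝ (k.phi τ ρ₀ e) w).det| =
      (1 - τ * k.ηr (‖w‖ / ρ₀) (inner ℝ w e / ‖w‖)) * k.mu τ ρ₀ e w ^ (n - 1) := by
    rw [hdet]
    exact abs_of_nonneg (by positivity)
  rw [hdet']
  unfold HData.th
  calc ‖H.gr v (H.Ex x (k.phi τ ρ₀ e w))‖ * (|(H.P x (k.phi τ ρ₀ e w)).det| *
        ((1 - τ * k.ηr (‖w‖ / ρ₀) (inner ℝ w e / ‖w‖)) * k.mu τ ρ₀ e w ^ (n - 1)))
      = |(H.P x (k.phi τ ρ₀ e w)).det| * ((1 - τ * k.ηr (‖w‖ / ρ₀) (inner ℝ w e / ‖w‖)) *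
          k.mu τ ρ₀ e w ^ (n - 1)) * ‖H.gr v (H.Ex x (k.phi τ ρ₀ e w))‖ := by ring
    _ ≤ _ := hmain
    _ ≤ |(H.P x w).det| * ‖H.gr u (H.Ex x w)‖ * (1 - τ * k.gh (‖w‖ / ρ₀) (H.cy u x w)
          (inner ℝ w e / ‖w‖) + C * τ ^ 2) :=
        mul_le_mul_of_nonneg_left hE (mul_nonneg (abs_nonneg _) (norm_nonneg _))
    _ = _ := by ring

end HData

end Vale.Agent.Lib.P219
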