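import Vale.Agent.Lib.P219.A.Phi

/-! # P219 Part A: the contraction of the tangent space is bijective -/

namespace Vale.Agent.Lib.P219

open MeasureTheory Set Filter Topology

namespace Ker

variable {n : ℕ} (k : Ker n)

/-- the radial function of a ray, in closed form -/
private theorem radial_eq (τ ρ₀ : ℝ) (e ω : Ev n) (hω : ‖ω‖ = 1) {s : ℝ} (hs : 0 < s) :
    s * k.mu τ ρ₀ e (s • ω) = s - τ * ρ₀ * k.η (s / ρ₀) (inner ℝ ω e) := by
  have h1 : ‖s • ω‖ = s := by rw [norm_smul, hω, mul_one, Real.norm_of_nonneg hs.le]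
  have h2 : inner ℝ (s • ω) e / s = inner ℝ ω e := by
    rw [real_inner_smul_left, mul_div_cancel_left₀ _ hs.ne']
  unfold mu
  rw [h1, h2]
  field_simp

private theorem hasDerivAt_R {τ ρ₀ : ℝ} (hρ : 0 < ρ₀) (c t : ℝ) :
    HasDerivAt (fun s : ℝ => s - τ * ρ₀ * k.η (s / ρ₀) c) (1 - τ * k.ηr (t / ρ₀) c) t := by
  have h1 : HasDerivAt (fun s : ℝ => s / ρ₀) (1 / ρ₀) t := (hasDerivAt_id t).div_const ρ₀
  have h2 : HasDerivAt (fun s : ℝ => k.η (s / ρ₀) c) (k.ηr (t / ρ₀) c * (1 / ρ₀)) t :=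
    HasDerivAt.comp (h₂ := fun s => k.η s c) t (k.deriv_r (t / ρ₀) c) h1
  have h3 := (hasDerivAt_id t).sub (h2.const_mul (τ * ρ₀))
  have e1 : 1 - τ * k.ηr (t / ρ₀) c = 1 - τ * ρ₀ * (k.ηr (t / ρ₀) c * (1 / ρ₀)) := by
    field_simp
  rw [e1]
  exact h3

/-- the radial function `t ↦ t * mu (t ω)` -/
theorem hasDerivAt_radial {τ ρ₀ : ℝ} (hρ : 0 < ρ₀) {e : Ev n}
    (ω : Ev n) (hω : ‖ω‖ = 1) (t : ℝ) (ht : 0 < t) :
    HasDerivAt (fun s : ℝ => s * k.mu τ ρ₀ e (s • ω))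
      (1 - τ * k.ηr (t / ρ₀) (inner ℝ ω e)) t := by
  refine (k.hasDerivAt_R hρ (inner ℝ ω e) t (τ := τ)).congr_of_eventuallyEq ?_
  filter_upwards [lt_mem_nhds ht] with s hs
  exact k.radial_eq τ ρ₀ e ω hω hs

theorem phi_bijective {τ ρ₀ : ℝ} (hτ : 0 ≤ τ) (hτ' : τ ≤ k.τ₀) (hρ : 0 < ρ₀) {e : Ev n}
    (he : ‖e‖ = 1) : Function.Bijective (k.phi τ ρ₀ e) := by
  have hmu : ∀ w, 0 < k.mu τ ρ₀ e w := fun w => by
    have := (k.mu_mem hτ hτ' hρ he w).1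
    linarith
  -- the closed form is strictly monotone
  have hmono : ∀ c : ℝ, |c| ≤ 1 → StrictMono (fun s : ℝ => s - τ * ρ₀ * k.η (s / ρ₀) c) := by
    intro c hc
    refine strictMono_of_deriv_pos fun x => ?_
    rw [(k.hasDerivAt_R hρ c x (τ := τ)).deriv]
    have := (k.rho_deriv_mem hτ hτ' (x / ρ₀) c hc).1
    linarith
  have hzero : ∀ c : ℝ, (0 : ℝ) - τ * ρ₀ * k.η (0 / ρ₀) c = 0 := by
    intro c
    rw [zero_div, k.η_zero 0 c k.δ_pos.le]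
    ring
  have hc : ∀ ω : Ev n, ‖ω‖ = 1 → |(inner ℝ ω e : ℝ)| ≤ 1 := by
    intro ω hω
    have := abs_real_inner_le_norm ω e
    rw [hω, he, mul_one] at this
    exact this
  constructor
  · intro w w' hww
    have hww' : k.mu τ ρ₀ e w • w = k.mu τ ρ₀ e w' • w' := hww
    by_cases hw : w = 0
    · rw [hw, smul_zero] at hww'
      have := (smul_eq_zero.mp hww'.symm).resolve_left (hmu w').ne'
      rw [hw, this]
    by_cases hw' : w' = 0
    · rw [hw', smul_zero] at hww'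
      have := (smul_eq_zero.mp hww').resolve_left (hmu w).ne'
      rw [hw', this]
    have nw : 0 < ‖w‖ := norm_pos_iff.mpr hw
    have nw' : 0 < ‖w'‖ := norm_pos_iff.mpr hw'
    have hn : k.mu τ ρ₀ e w * ‖w‖ = k.mu τ ρ₀ e w' * ‖w'‖ := by
      have := congrArg norm hww'
      rwa [norm_smul, norm_smul, Real.norm_of_nonneg (hmu w).le,
        Real.norm_of_nonneg (hmu w').le] at this
    set ω := ‖w‖⁻¹ • w with hω
    have hω1 : ‖ω‖ = 1 := by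
      rw [hω, norm_smul, norm_inv, norm_norm, inv_mul_cancel₀ nw.ne']
    have hw_eq : w = ‖w‖ • ω := by
      rw [hω, smul_smul, mul_inv_cancel₀ nw.ne', one_smul]
    have hw'_eq : w' = ‖w'‖ • ω := by
      have h1 : w' = (k.mu τ ρ₀ e w')⁻¹ • (k.mu τ ρ₀ e w • w) := by
        rw [hww', smul_smul, inv_mul_cancel₀ (hmu w').ne', one_smul]
      have h2 : ‖w'‖ = (k.mu τ ρ₀ e w')⁻¹ * (k.mu τ ρ₀ e w * ‖w‖) := by
        rw [hn, ← mul_assoc, inv_mul_cancel₀ (hmu w').ne', one_mul]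
      rw [h2, hω, smul_smul]
      conv_lhs => rw [h1]
      rw [smul_smul]
      congr 1
      field_simp
    have r1 := k.radial_eq τ ρ₀ e ω hω1 nw
    have r2 := k.radial_eq τ ρ₀ e ω hω1 nw'
    rw [← hw_eq] at r1
    rw [← hw'_eq] at r2
    have h3 : ‖w‖ - τ * ρ₀ * k.η (‖w‖ / ρ₀) (inner ℝ ω e)
        = ‖w'‖ - τ * ρ₀ * k.η (‖w'‖ / ρ₀) (inner ℝ ω e) := by
      rw [← r1, ← r2, mul_comm ‖w‖, mul_comm ‖w'‖]
      exact hn
    have h4 : ‖w‖ = ‖w'‖ := (hmono _ (hc ω hω1)).injective h3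
    rw [hw_eq, hw'_eq, h4]
  · intro v
    by_cases hv : v = 0
    · refine ⟨0, ?_⟩
      rw [hv]
      simp [phi]
    have nv : 0 < ‖v‖ := norm_pos_iff.mpr hv
    set ω := ‖v‖⁻¹ • v with hω
    have hω1 : ‖ω‖ = 1 := by
      rw [hω, norm_smul, norm_inv, norm_norm, inv_mul_cancel₀ nv.ne']
    have hv_eq : v = ‖v‖ • ω := by
      rw [hω, smul_smul, mul_inv_cancel₀ nv.ne', one_smul]
    set c : ℝ := inner ℝ ω e with hcdef
    have hc1 : |c| ≤ 1 := hc ω hω1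
    set R : ℝ → ℝ := fun s : ℝ => s - τ * ρ₀ * k.η (s / ρ₀) c with hR
    have hRc : Continuous R :=
      continuous_iff_continuousAt.mpr fun x => (k.hasDerivAt_R hρ c x (τ := τ)).continuousAt
    have hR0 : R 0 = 0 := hzero c
    obtain ⟨r, hr0, hr⟩ : ∃ r ∈ Icc (0 : ℝ) (‖v‖ + τ * ρ₀ * k.M), R r = ‖v‖ := by
      have hb : (0 : ℝ) ≤ ‖v‖ + τ * ρ₀ * k.M := by
        have := k.M_pos
        positivity
      have hup : ‖v‖ ≤ R (‖v‖ + τ * ρ₀ * k.M) := by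
        have h1 := k.η_le ((‖v‖ + τ * ρ₀ * k.M) / ρ₀) c hc1
        have h2 : τ * ρ₀ * k.η ((‖v‖ + τ * ρ₀ * k.M) / ρ₀) c ≤ τ * ρ₀ * k.M :=
          mul_le_mul_of_nonneg_left h1 (by positivity)
        rw [hR]
        dsimp only
        linarith
      have := intermediate_value_Icc hb hRc.continuousOn
      obtain ⟨r, h1, h2⟩ := this (show ‖v‖ ∈ Icc (R 0) (R (‖v‖ + τ * ρ₀ * k.M)) by
        rw [hR0]
        exact ⟨nv.le, hup⟩)
      exact ⟨r, h1, h2⟩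
    have hrpos : 0 < r := by
      rcases hr0.1.eq_or_lt with h | h
      · rw [← h, hR0] at hr
        exact absurd hr nv.ne
      · exact h
    refine ⟨r • ω, ?_⟩
    have h5 := k.radial_eq τ ρ₀ e ω hω1 hrpos
    unfold phi
    rw [smul_smul, mul_comm, h5]
    have h6 : r - τ * ρ₀ * k.η (r / ρ₀) (inner ℝ ω e) = ‖v‖ := hr
    rw [h6, ← hv_eq]

end Ker

end Vale.Agent.Lib.P219
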