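import Mathlib.Analysis.Calculus.InverseFunctionTheorem.ContDiff
import Vale.Agent.Lib.P219.A.PhiBij
import Vale.Agent.Lib.P219.A.Vol
import Vale.Agent.Lib.P219.A.Change

/-! # P219 Part A: the transported function -/

namespace Vale.Agent.Lib.P219

open MeasureTheory Set Filter Topology

/-- the inverse of a `C^1` bijection with injective derivatives is `C^1` -/
private theorem comp_inverse_contDiff {V : Type*} [NormedAddCommGroup V] [NormedSpace ℝ V]
    [FiniteDimensional ℝ V] {f g : V → V} (hf : ContDiff ℝ 1 f)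
    (hd : ∀ x, Function.Injective (fderiv ℝ f x)) (hgf : ∀ x, g (f x) = x)
    (hfg : ∀ y, f (g y) = y) : ContDiff ℝ 1 g := by
  have : CompleteSpace V := FiniteDimensional.complete ℝ V
  rw [contDiff_iff_contDiffAt]
  intro y
  set x := g y with hx
  have hxy : f x = y := hfg y
  let A : V ≃L[ℝ] V :=
    (LinearEquiv.ofInjectiveEndo (fderiv ℝ f x).toLinearMap (hd x)).toContinuousLinearEquiv
  have hA : HasFDerivAt f (A : V →L[ℝ] V) x := by
    have h1 : HasFDerivAt f (fderiv ℝ f x) x :=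
      (hf.differentiable (by norm_num)).differentiableAt.hasFDerivAt
    have h2 : (A : V →L[ℝ] V) = fderiv ℝ f x := by
      ext b
      rfl
    rw [h2]
    exact h1
  have hc : ContDiffAt ℝ 1 f x := hf.contDiffAt
  have h3 : ContDiffAt ℝ 1 (hc.localInverse hA one_ne_zero) (f x) :=
    hc.to_localInverse hA one_ne_zero
  have h4 : ∀ᶠ z in 𝓝 (f x), f (hc.localInverse hA one_ne_zero z) = z :=
    (hc.hasStrictFDerivAt' hA one_ne_zero).eventually_right_inverse
  rw [hxy] at h3 h4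
  refine h3.congr_of_eventuallyEq (h4.mono fun z hz => ?_)
  have h5 := congrArg g hz
  rw [hgf] at h5
  exact h5.symm

namespace HData

variable {n : ℕ} (H : HData n) (k : Ker n)

private theorem comp_hasFDerivAt_Ex (x w : Ev n) :
    HasFDerivAt (H.Ex x) ((H.L (H.Ex x w)).comp (H.P x w)) w := H.exp_deriv x w

private theorem comp_contDiff_Ex (x : Ev n) : ContDiff ℝ 1 (H.Ex x) := by
  rw [contDiff_one_iff_fderiv]
  refine ⟨fun w => (comp_hasFDerivAt_Ex H x w).differentiableAt, ?_⟩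
  have h1 : fderiv ℝ (H.Ex x) = fun w => (H.L (H.Ex x w)).comp (H.P x w) := by
    funext w
    exact (comp_hasFDerivAt_Ex H x w).fderiv
  rw [h1]
  have hE : Continuous (fun w => H.Ex x w) :=
    H.Ex_cont.comp (continuous_const.prodMk continuous_id)
  exact (H.L_cont.comp hE).clm_comp (H.P_cont.comp (continuous_const.prodMk continuous_id))

private theorem comp_injective_fderiv_Ex (x w : Ev n) :
    Function.Injective (fderiv ℝ (H.Ex x) w) := by
  rw [(comp_hasFDerivAt_Ex H x w).fderiv, injective_iff_map_eq_zero]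
  intro ξ hξ
  have h1 : H.P x w ξ = 0 := by
    have h2 := congrArg (H.Li (H.Ex x w)) hξ
    rw [ContinuousLinearMap.comp_apply, H.Li_L, map_zero] at h2
    exact h2
  have h3 := H.norm_le_P x w ξ
  rw [h1, norm_zero] at h3
  exact norm_le_zero_iff.1 h3

/-- `v = u ∘ Φ⁻¹`, `Φ = Ex x ∘ phi ∘ (Ex x)⁻¹` -/
theorem exists_comp (hn : 1 ≤ n) {K : Set (Ev n)} (hK : IsClosed K) (hc : H.Conv K) {x : Ev n}
    (hx : x ∈ K) {e : Ev n} (he : ‖e‖ = 1) {τ ρ₀ : ℝ} (hτ : 0 ≤ τ) (hτ' : τ ≤ k.τ₀)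
    (hρ : 0 < ρ₀) {u : Ev n → ℝ} (hu : ContDiff ℝ 1 u) (hs : tsupport u ⊆ K)
    (h0 : ∀ y, 0 ≤ u y) (h1 : ∀ y, u y ≤ 1) :
    ∃ v : Ev n → ℝ, ContDiff ℝ 1 v ∧ (∀ w, v (H.Ex x (k.phi τ ρ₀ e w)) = u (H.Ex x w)) ∧
      tsupport v ⊆ K ∧ (∀ y, 0 ≤ v y) ∧ (∀ y, v y ≤ 1) := by
  have hEbij : Function.Bijective (H.Ex x) := H.exp_bij x
  have hpbij := k.phi_bijective hτ hτ' hρ he
  have hFbij : Function.Bijective (fun w => H.Ex x (k.phi τ ρ₀ e w)) := hEbij.comp hpbij
  let eq := Equiv.ofBijective _ hFbij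
  have hEc := comp_contDiff_Ex H x
  have hpc := k.phi_contDiff (τ := τ) hρ he
  have hFc : ContDiff ℝ 1 (fun w => H.Ex x (k.phi τ ρ₀ e w)) := hEc.comp hpc
  have hgc : ContDiff ℝ 1 (fun y => eq.symm y) := by
    refine comp_inverse_contDiff hFc (fun w => ?_) (fun w => eq.symm_apply_apply w)
      (fun y => eq.apply_symm_apply y)
    have hd1 : DifferentiableAt ℝ (H.Ex x) (k.phi τ ρ₀ e w) :=
      (comp_hasFDerivAt_Ex H x _).differentiableAt
    have hd2 : DifferentiableAt ℝ (k.phi τ ρ₀ e) w :=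
      (hpc.differentiable (by norm_num)).differentiableAt
    have h2 : fderiv ℝ (fun w => H.Ex x (k.phi τ ρ₀ e w)) w =
        (fderiv ℝ (H.Ex x) (k.phi τ ρ₀ e w)).comp (fderiv ℝ (k.phi τ ρ₀ e) w) :=
      fderiv_comp w hd1 hd2
    rw [h2]
    refine (comp_injective_fderiv_Ex H x _).comp ?_
    have hdet := k.det_fderiv_phi_ne_zero hn hτ hτ' hρ he w
    intro a b hab
    have hdet' : LinearMap.det (fderiv ℝ (k.phi τ ρ₀ e) w).toLinearMap ≠ 0 := hdet
    exact (LinearMap.equivOfDetNeZero _ hdet').injective hab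
  refine ⟨fun y => u (H.Ex x (eq.symm y)), hu.comp (hEc.comp hgc), fun w => ?_, ?_,
    fun y => h0 _, fun y => h1 _⟩
  · have : eq.symm (H.Ex x (k.phi τ ρ₀ e w)) = w := eq.symm_apply_apply w
    show u (H.Ex x (eq.symm (H.Ex x (k.phi τ ρ₀ e w)))) = u (H.Ex x w)
    rw [this]
  · refine closure_minimal (fun y hy => ?_) hK
    have hy' : u (H.Ex x (eq.symm y)) ≠ 0 := hy
    have hmem : H.Ex x (eq.symm y) ∈ K := hs (subset_tsupport u hy')
    have hmu := k.mu_mem hτ hτ' hρ he (eq.symm y)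
    have h3 := hc x hx (eq.symm y) hmem (k.mu τ ρ₀ e (eq.symm y))
      ⟨by linarith [hmu.1], hmu.2.1⟩
    have h4 : H.Ex x (k.phi τ ρ₀ e (eq.symm y)) = y := eq.apply_symm_apply y
    rw [← h4]
    exact h3

/-- change of variables by `Φ` -/
theorem integral_comp (hn : 1 ≤ n) (x : Ev n) {e : Ev n} (he : ‖e‖ = 1) {τ ρ₀ : ℝ} (hτ : 0 ≤ τ)
    (hτ' : τ ≤ k.τ₀) (hρ : 0 < ρ₀) (G : Ev n → ℝ) :
    ∫ y, G y ∂H.vol = ∫ w, G (H.Ex x (k.phi τ ρ₀ e w)) * (H.th x (k.phi τ ρ₀ e w)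
      * |(fderiv ℝ (k.phi τ ρ₀ e) w).det|) := by
  have hpbij := k.phi_bijective hτ hτ' hρ he
  have hpc := k.phi_contDiff (τ := τ) hρ he
  have h1 := integral_image_eq_integral_abs_det_fderiv_smul (volume : Measure (Ev n))
    (f := k.phi τ ρ₀ e) (f' := fun w => fderiv ℝ (k.phi τ ρ₀ e) w) MeasurableSet.univ
    (fun w _ => (hpc.differentiable (by norm_num)).differentiableAt.hasFDerivAt.hasFDerivWithinAt)
    hpbij.injective.injOn (fun w => H.th x w * G (H.Ex x w))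
  rw [image_univ, hpbij.surjective.range_eq, Measure.restrict_univ] at h1
  rw [H.integral_exp x G, h1]
  refine integral_congr_ae (Eventually.of_forall fun w => ?_)
  simp only [smul_eq_mul]
  ring

theorem lintegral_comp (hn : 1 ≤ n) (x : Ev n) {e : Ev n} (he : ‖e‖ = 1) {τ ρ₀ : ℝ} (hτ : 0 ≤ τ)
    (hτ' : τ ≤ k.τ₀) (hρ : 0 < ρ₀) (G : Ev n → ENNReal) :
    ∫⁻ y, G y ∂H.vol = ∫⁻ w, G (H.Ex x (k.phi τ ρ₀ e w)) * ENNReal.ofReal
      (H.th x (k.phi τ ρ₀ e w) * |(fderiv ℝ (k.phi τ ρ₀ e) w).det|) := by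
  have hpbij := k.phi_bijective hτ hτ' hρ he
  have hpc := k.phi_contDiff (τ := τ) hρ he
  have h1 := lintegral_image_eq_lintegral_abs_det_fderiv_mul (volume : Measure (Ev n))
    (f := k.phi τ ρ₀ e) (f' := fun w => fderiv ℝ (k.phi τ ρ₀ e) w) MeasurableSet.univ
    (fun w _ => (hpc.differentiable (by norm_num)).differentiableAt.hasFDerivAt.hasFDerivWithinAt)
    hpbij.injective.injOn (fun w => G (H.Ex x w) * ENNReal.ofReal (H.th x w))
  rw [image_univ, hpbij.surjective.range_eq, Measure.restrict_univ] at h1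
  rw [H.lintegral_exp x G, h1]
  refine lintegral_congr fun w => ?_
  rw [ENNReal.ofReal_mul (le_trans zero_le_one (H.one_le_th x _))]
  ring

end HData

end Vale.Agent.Lib.P219
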