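import Mathlib.Analysis.Normed.Group.BallSphere
import Mathlib.MeasureTheory.Measure.Haar.Unique
import Mathlib.MeasureTheory.Measure.RegularityCompacts
import Mathlib.Topology.UniformSpace.Uniformizable
import Vale.Agent.Lib.P219.Defs

/-! # P219 Part A: polar coordinates -/

namespace Vale.Agent.Lib.P219

open MeasureTheory Set Filter Topology
open scoped ENNReal

private theorem polar_nontrivial {n : ℕ} (hn : 1 ≤ n) : Nontrivial (Ev n) := by
  have : Nonempty (Fin n) := ⟨⟨0, by omega⟩⟩
  infer_instance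

private theorem polar_finrank (n : ℕ) : Module.finrank ℝ (Ev n) = n := finrank_euclideanSpace_fin

theorem lintegral_polar {n : ℕ} (hn : 1 ≤ n) (f : Ev n → ℝ≥0∞) (hf : Measurable f) :
    ∫⁻ w, f w = ∫⁻ ω : Metric.sphere (0 : Ev n) 1, (∫⁻ t in Ioi (0 : ℝ),
      f (t • (ω : Ev n)) * ENNReal.ofReal (t ^ (n - 1))) ∂(volume : Measure (Ev n)).toSphere := by
  have := polar_nontrivial hn
  have h0 : ∫⁻ w, f w = ∫⁻ w : ({(0 : Ev n)}ᶜ : Set (Ev n)), f (w : Ev n)
      ∂(volume : Measure (Ev n)).comap (↑) := by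
    rw [lintegral_subtype_comap (measurableSet_singleton _).compl, restrict_compl_singleton]
  have hmp := (volume : Measure (Ev n)).measurePreserving_homeomorphUnitSphereProd
  have hg : Measurable fun p : Metric.sphere (0 : Ev n) 1 × Ioi (0 : ℝ) =>
      f ((p.2 : ℝ) • (p.1 : Ev n)) := by
    apply hf.comp
    fun_prop
  have h1 : ∫⁻ w : ({(0 : Ev n)}ᶜ : Set (Ev n)), f (w : Ev n)
      ∂(volume : Measure (Ev n)).comap (↑)
      = ∫⁻ p : Metric.sphere (0 : Ev n) 1 × Ioi (0 : ℝ), f ((p.2 : ℝ) • (p.1 : Ev n))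
        ∂((volume : Measure (Ev n)).toSphere.prod
          (Measure.volumeIoiPow (Module.finrank ℝ (Ev n) - 1))) := by
    rw [← hmp.lintegral_comp hg]
    apply lintegral_congr
    intro w
    congr 1
    have := (homeomorphUnitSphereProd (Ev n)).symm_apply_apply w
    conv_lhs => rw [← this]
    rfl
  rw [h0, h1, lintegral_prod _ hg.aemeasurable, polar_finrank]
  apply lintegral_congr
  intro ω
  have hgω : Measurable fun t : Ioi (0 : ℝ) => f ((t : ℝ) • (ω : Ev n)) := by
    apply hf.comp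
    fun_prop
  have hd : Measurable fun r : Ioi (0 : ℝ) => ENNReal.ofReal (r.1 ^ (n - 1)) := by fun_prop
  unfold Measure.volumeIoiPow
  rw [lintegral_withDensity_eq_lintegral_mul _ hd hgω,
    ← lintegral_subtype_comap measurableSet_Ioi
      (fun t : ℝ => f (t • (ω : Ev n)) * ENNReal.ofReal (t ^ (n - 1)))]
  apply lintegral_congr
  intro t
  rw [Pi.mul_apply, mul_comm]

theorem integral_polar {n : ℕ} (hn : 1 ≤ n) (f : Ev n → ℝ) (hf : Integrable f) :
    ∫ w, f w = ∫ ω : Metric.sphere (0 : Ev n) 1, (∫ t in Ioi (0 : ℝ),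
      t ^ (n - 1) * f (t • (ω : Ev n))) ∂(volume : Measure (Ev n)).toSphere := by
  have := polar_nontrivial hn
  have h0 : ∫ w, f w = ∫ w : ({(0 : Ev n)}ᶜ : Set (Ev n)), f (w : Ev n)
      ∂(volume : Measure (Ev n)).comap (↑) := by
    rw [integral_subtype_comap (measurableSet_singleton _).compl f, restrict_compl_singleton]
  have hmp := (volume : Measure (Ev n)).measurePreserving_homeomorphUnitSphereProd
  have hcomp : ∀ w : ({(0 : Ev n)}ᶜ : Set (Ev n)),
      f (w : Ev n) = (fun p : Metric.sphere (0 : Ev n) 1 × Ioi (0 : ℝ) =>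
      f ((p.2 : ℝ) • (p.1 : Ev n))) (homeomorphUnitSphereProd (Ev n) w) := by
    intro w
    have := (homeomorphUnitSphereProd (Ev n)).symm_apply_apply w
    conv_lhs => rw [← this]
    rfl
  have h1 : ∫ w : ({(0 : Ev n)}ᶜ : Set (Ev n)), f (w : Ev n)
      ∂(volume : Measure (Ev n)).comap (↑)
      = ∫ p : Metric.sphere (0 : Ev n) 1 × Ioi (0 : ℝ), f ((p.2 : ℝ) • (p.1 : Ev n))
        ∂((volume : Measure (Ev n)).toSphere.prod
          (Measure.volumeIoiPow (Module.finrank ℝ (Ev n) - 1))) := by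
    rw [← hmp.integral_comp (Homeomorph.measurableEmbedding _)]
    apply integral_congr_ae
    exact Eventually.of_forall hcomp
  have h2 : Integrable (fun p : Metric.sphere (0 : Ev n) 1 × Ioi (0 : ℝ) =>
      f ((p.2 : ℝ) • (p.1 : Ev n))) ((volume : Measure (Ev n)).toSphere.prod
          (Measure.volumeIoiPow (Module.finrank ℝ (Ev n) - 1))) := by
    rw [← hmp.integrable_comp_emb (Homeomorph.measurableEmbedding _)]
    have h3 : Integrable (fun w : ({(0 : Ev n)}ᶜ : Set (Ev n)) => f (w : Ev n))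
        ((volume : Measure (Ev n)).comap (↑)) := by
      have h4 := (integrableOn_iff_comap_subtypeVal (f := f) (μ := (volume : Measure (Ev n)))
        (measurableSet_singleton (0 : Ev n)).compl).1 hf.integrableOn
      exact h4
    exact h3.congr (Eventually.of_forall hcomp)
  rw [h0, h1, integral_prod _ h2, polar_finrank]
  apply integral_congr_ae
  refine Eventually.of_forall fun ω => ?_
  simp only [Measure.volumeIoiPow, ENNReal.ofReal]
  rw [integral_withDensity_eq_integral_smul (by fun_prop),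
    ← integral_subtype_comap measurableSet_Ioi
      (fun t : ℝ => t ^ (n - 1) * f (t • (ω : Ev n)))]
  apply integral_congr_ae
  refine Eventually.of_forall fun t => ?_
  show Real.toNNReal ((t : ℝ) ^ (n - 1)) • f ((t : ℝ) • (ω : Ev n)) = _
  rw [NNReal.smul_def, Real.coe_toNNReal _ (pow_nonneg (le_of_lt t.2) _), smul_eq_mul]

/-- total mass of the sphere -/
theorem toSphere_univ_eq (n : ℕ) :
    (volume : Measure (Ev n)).toSphere univ = ENNReal.ofReal (n * om n) := by
  have h : (volume (Metric.ball (0 : Ev n) 1)) ≠ ⊤ := measure_ball_lt_top.ne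
  rw [Measure.toSphere_apply_univ, polar_finrank, om, ENNReal.ofReal_mul (Nat.cast_nonneg n),
    ENNReal.ofReal_natCast, ENNReal.ofReal_toReal h]

theorem isFiniteMeasure_toSphere (n : ℕ) :
    IsFiniteMeasure (volume : Measure (Ev n)).toSphere := by
  infer_instance

open scoped Pointwise in
private theorem polar_map_neg (n : ℕ) :
    ((volume : Measure (Ev n)).toSphere).map (fun ω : Metric.sphere (0 : Ev n) 1 => -ω)
      = (volume : Measure (Ev n)).toSphere := by
  have hm : Measurable fun ω : Metric.sphere (0 : Ev n) 1 => -ω := continuous_neg.measurable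
  ext s hs
  rw [Measure.map_apply hm hs, Measure.toSphere_apply' _ (hm hs), Measure.toSphere_apply' _ hs]
  congr 1
  have h : Ioo (0 : ℝ) 1 • ((↑) '' ((fun ω : Metric.sphere (0 : Ev n) 1 => -ω) ⁻¹' s) : Set (Ev n))
      = (fun x : Ev n => -x) ⁻¹' (Ioo (0 : ℝ) 1 • ((↑) '' s : Set (Ev n))) := by
    ext x
    simp only [Set.mem_smul, Set.mem_preimage, Set.mem_image]
    constructor
    · rintro ⟨t, ht, _, ⟨ω, hω, rfl⟩, rfl⟩
      exact ⟨t, ht, _, ⟨-ω, hω, rfl⟩, by rw [coe_neg_sphere, smul_neg]⟩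
    · rintro ⟨t, ht, _, ⟨ω, hω, rfl⟩, hx⟩
      refine ⟨t, ht, _, ⟨-ω, by rwa [neg_neg], rfl⟩, ?_⟩
      rw [coe_neg_sphere, smul_neg, hx, neg_neg]
  rw [h]
  exact (Measure.measurePreserving_neg (volume : Measure (Ev n))).measure_preimage_emb
    (MeasurableEquiv.neg (Ev n)).measurableEmbedding _

/-- antipodal symmetry of the sphere measure -/
theorem lintegral_sphere_neg {n : ℕ} (f : Ev n → ℝ≥0∞) (hf : Measurable f) :
    ∫⁻ ω : Metric.sphere (0 : Ev n) 1, f (-(ω : Ev n)) ∂(volume : Measure (Ev n)).toSphere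
      = ∫⁻ ω : Metric.sphere (0 : Ev n) 1, f (ω : Ev n) ∂(volume : Measure (Ev n)).toSphere := by
  have hm : Measurable fun ω : Metric.sphere (0 : Ev n) 1 => -ω := continuous_neg.measurable
  have h := lintegral_map (μ := (volume : Measure (Ev n)).toSphere)
    (f := fun ω : Metric.sphere (0 : Ev n) 1 => f (ω : Ev n)) (hf.comp measurable_subtype_coe) hm
  rw [polar_map_neg n] at h
  rw [h]
  rfl

end Vale.Agent.Lib.P219
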