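import Vale.Agent.Lib.P219.A.FVBasic
import Vale.Agent.Lib.P219.A.Polar

/-! # P219 Part A: from pairs to the sphere bundle -/

namespace Vale.Agent.Lib.P219

open MeasureTheory Set Filter Topology
open scoped ENNReal

namespace HData

variable {n : ℕ} (H : HData n) (k : Ker n)

theorem cs_abs_le (u : Ev n → ℝ) (v : Ev n × Ev n) (hv : ‖v.2‖ = 1) : |H.cs u v| ≤ 1 := by
  unfold cs
  rw [abs_div, abs_norm]
  have h := abs_real_inner_le_norm (H.gr u v.1) v.2
  rw [hv, mul_one] at h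
  exact div_le_one_of_le₀ h (norm_nonneg _)

private theorem fl_meas : Measurable (fun p : (Ev n × Ev n) × ℝ => H.fl p.2 p.1) :=
  (H.fl_cont.comp (continuous_snd.prodMk continuous_fst)).measurable

private theorem meas3 {α : Type*} [MeasurableSpace α] {F : ℝ → ℝ → ℝ → ℝ}
    (hF : Measurable (fun p : ℝ × ℝ × ℝ => F p.1 p.2.1 p.2.2)) {a b c : α → ℝ}
    (ha : Measurable a) (hb : Measurable b) (hc : Measurable c) :
    Measurable (fun x => F (a x) (b x) (c x)) :=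
  hF.comp (ha.prodMk (hb.prodMk hc))

theorem Lk_measurable {u : Ev n → ℝ} (hu : ContDiff ℝ 1 u) (ρ₀ : ℝ) :
    Measurable (H.Lk k u ρ₀) := by
  have hfl := fl_meas H
  have hgr : Measurable (fun x => ‖H.gr u x‖) := (H.gr_cont hu).norm.measurable
  have hcs := H.cs_measurable hu
  have h1 : Measurable (fun p : (Ev n × Ev n) × ℝ => ‖H.gr u p.1.1‖) :=
    hgr.comp (measurable_fst.comp measurable_fst)
  have h2 : Measurable (fun p : (Ev n × Ev n) × ℝ => ‖H.gr u (H.fl p.2 p.1).1‖) :=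
    hgr.comp (measurable_fst.comp hfl)
  have h3 : Measurable (fun p : (Ev n × Ev n) × ℝ =>
      k.B (p.2 / ρ₀) (-(H.cs u (H.fl p.2 p.1))) (H.cs u p.1)) :=
    meas3 k.B_measurable (measurable_snd.div_const ρ₀) (hcs.comp hfl).neg
      (hcs.comp measurable_fst)
  have h4 : Measurable (fun p : (Ev n × Ev n) × ℝ => p.2 ^ (n - 1)) :=
    measurable_snd.pow_const _
  have h5 : Measurable (fun p : (Ev n × Ev n) × ℝ =>
      ENNReal.ofReal (‖H.gr u p.1.1‖ * ‖H.gr u (H.fl p.2 p.1).1‖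
        * k.B (p.2 / ρ₀) (-(H.cs u (H.fl p.2 p.1))) (H.cs u p.1) * p.2 ^ (n - 1))) :=
    (((h1.mul h2).mul h3).mul h4).ennreal_ofReal
  exact h5.lintegral_prod_right'

private theorem cy_smul (u : Ev n → ℝ) (x ω : Ev n) (hω : ‖ω‖ = 1) {t : ℝ} (ht : 0 < t) :
    H.cy u x (t • ω) = -(H.cs u (H.fl t (x, ω))) := by
  unfold cy cs
  rw [H.Ex_smul, H.ve_smul, norm_smul, hω, mul_one, Real.norm_of_nonneg ht.le,
    real_inner_smul_right, neg_div]
  congr 1
  rw [mul_comm t, mul_div_mul_right _ _ ht.ne']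

private theorem cx_smul (u : Ev n → ℝ) (x ω : Ev n) (hω : ‖ω‖ = 1) {t : ℝ} (ht : 0 < t) :
    H.cx u x (t • ω) = H.cs u (x, ω) := by
  unfold cx cs
  rw [norm_smul, hω, mul_one, Real.norm_of_nonneg ht.le, real_inner_smul_right]
  rw [mul_comm t, mul_div_mul_right _ _ ht.ne']

/-- the integrand of `Pair` in the inner variable -/
private noncomputable def pairF (u : Ev n → ℝ) (ρ₀ : ℝ) (x w : Ev n) : ℝ≥0∞ :=
  ENNReal.ofReal (‖H.gr u x‖ * ‖H.gr u (H.Ex x w)‖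
      * k.B (‖w‖ / ρ₀) (H.cy u x w) (H.cx u x w) * H.th x w)

private theorem hEx_meas (x : Ev n) : Measurable (fun w => H.Ex x w) :=
  (H.Ex_cont.comp (continuous_const.prodMk continuous_id)).measurable

private theorem hth_meas (x : Ev n) : Measurable (fun w => H.th x w) :=
  (H.th_cont.comp (continuous_const.prodMk continuous_id)).measurable

private theorem slice_meas {F : Ev n → Ev n → ℝ} (hF : Measurable (fun p : Ev n × Ev n => F p.1 p.2))
    (x : Ev n) : Measurable (F x) :=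
  hF.comp measurable_prodMk_left

private theorem pairF_meas {u : Ev n → ℝ} (hu : ContDiff ℝ 1 u) (ρ₀ : ℝ) (x : Ev n) :
    Measurable (pairF H k u ρ₀ x) := by
  have hgr : Measurable (fun x => ‖H.gr u x‖) := (H.gr_cont hu).norm.measurable
  have hgr' : Measurable (fun w => ‖H.gr u (H.Ex x w)‖) := hgr.comp (hEx_meas H x)
  have hcy : Measurable (H.cy u x) := slice_meas (H.cy_measurable hu) x
  have hcx : Measurable (H.cx u x) := slice_meas (H.cx_measurable hu) x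
  have hr : Measurable (fun w : Ev n => ‖w‖ / ρ₀) := measurable_norm.div_const ρ₀
  have hB : Measurable (fun w : Ev n => k.B (‖w‖ / ρ₀) (H.cy u x w) (H.cx u x w)) :=
    meas3 k.B_measurable hr hcy hcx
  have hg : Measurable (fun w => ‖H.gr u x‖ * ‖H.gr u (H.Ex x w)‖) := hgr'.const_mul _
  unfold pairF
  exact ((hg.mul hB).mul (hth_meas H x)).ennreal_ofReal

private theorem pairF_ge (u : Ev n → ℝ) {ρ₀ : ℝ} (hρ : 0 < ρ₀) (x ω : Ev n) (hω : ‖ω‖ = 1)
    {t : ℝ} (ht' : 0 < t) :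
    ENNReal.ofReal (‖H.gr u x‖ * ‖H.gr u (H.fl t (x, ω)).1‖
      * k.B (t / ρ₀) (-(H.cs u (H.fl t (x, ω)))) (H.cs u (x, ω)) * t ^ (n - 1)) ≤
    pairF H k u ρ₀ x (t • ω) * ENNReal.ofReal (t ^ (n - 1)) := by
  have e1 : ‖t • ω‖ = t := by
    rw [norm_smul, hω, mul_one, Real.norm_of_nonneg ht'.le]
  unfold pairF
  rw [e1, H.Ex_smul, cy_smul H u x ω hω ht', cx_smul H u x ω hω ht',
    ← ENNReal.ofReal_mul' (by positivity)]
  apply ENNReal.ofReal_le_ofReal
  have hc1 : |H.cs u (x, ω)| ≤ 1 := H.cs_abs_le u _ hω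
  have hc2 : |-(H.cs u (H.fl t (x, ω)))| ≤ 1 := by
    rw [abs_neg]
    apply H.cs_abs_le
    rw [H.fl_norm]
    exact hω
  have hB0 := k.B_nonneg' (t / ρ₀) (-(H.cs u (H.fl t (x, ω)))) (H.cs u (x, ω))
    (by positivity) hc2 hc1
  have hth1 := H.one_le_th x (t • ω)
  have hA : 0 ≤ ‖H.gr u x‖ * ‖H.gr u (H.fl t (x, ω)).1‖ *
      k.B (t / ρ₀) (-(H.cs u (H.fl t (x, ω)))) (H.cs u (x, ω)) :=
    mul_nonneg (by positivity) hB0
  apply mul_le_mul_of_nonneg_right _ (by positivity)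
  exact le_mul_of_one_le_right hA hth1

/-- polar coordinates and `th ≥ 1`, `B ≥ 0` -/
theorem SM_Lk_le (hn : 1 ≤ n) {u : Ev n → ℝ} (hu : ContDiff ℝ 1 u) {ρ₀ : ℝ} (hρ : 0 < ρ₀) :
    H.SM (H.Lk k u ρ₀) ≤ H.Pair k.B u ρ₀ := by
  have h1 : H.Pair k.B u ρ₀ = ∫⁻ x, (∫⁻ w, pairF H k u ρ₀ x w) ∂H.vol := rfl
  rw [h1]
  unfold SM
  apply lintegral_mono
  intro x
  show _ ≤ ∫⁻ w, pairF H k u ρ₀ x w
  rw [lintegral_polar hn _ (pairF_meas H k hu ρ₀ x)]
  apply lintegral_mono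
  intro ω
  have hω : ‖(ω : Ev n)‖ = 1 := by simp
  show H.Lk k u ρ₀ (x, (ω : Ev n)) ≤ _
  unfold Lk
  apply setLIntegral_mono' measurableSet_Ioi
  intro t ht
  exact pairF_ge H k u hρ x ω hω ht

end HData

end Vale.Agent.Lib.P219
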