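import Vale.Agent.Lib.P219.A.FVBasic
import Vale.Agent.Lib.P219.A.Lower1
import Vale.Agent.Lib.P219.LL.Main

/-! # P219 Part A: the Line Lemma along geodesics -/

namespace Vale.Agent.Lib.P219

open MeasureTheory Set Filter Topology
open scoped ENNReal

namespace HData

variable {n : ℕ} (H : HData n) (k : Ker n)

private theorem lower2_hasDerivAt {u : Ev n → ℝ} (hu : ContDiff ℝ 1 u) (v : Ev n × Ev n) (t : ℝ) :
    HasDerivAt (fun s => u (H.fl s v).1)
      (fderiv ℝ u (H.fl t v).1 (H.L (H.fl t v).1 (H.fl t v).2)) t := by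
  have h1 : HasFDerivAt u (fderiv ℝ u (H.fl t v).1) (H.fl t v).1 :=
    (hu.differentiable (by norm_num) _).hasFDerivAt
  exact h1.comp_hasDerivAt t (H.fl_deriv t v)

private theorem lower2_deriv {u : Ev n → ℝ} (hu : ContDiff ℝ 1 u) (v : Ev n × Ev n) (t : ℝ) :
    deriv (fun s => u (H.fl s v).1) t
      = inner ℝ (H.gr u (H.fl t v).1) (H.fl t v).2 := by
  rw [(lower2_hasDerivAt H hu v t).deriv]
  unfold HData.gr
  rw [InnerProductSpace.toDual_symm_apply]
  rfl

private theorem lower2_inner (u : Ev n → ℝ) (v : Ev n × Ev n) :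
    inner ℝ (H.gr u v.1) v.2 = ‖H.gr u v.1‖ * H.cs u v := by
  unfold HData.cs
  by_cases h : ‖H.gr u v.1‖ = 0
  · have : H.gr u v.1 = 0 := norm_eq_zero.1 h
    rw [this]
    simp
  · field_simp

/-- `u` along a unit speed geodesic is a good function -/
theorem good_line {K : Set (Ev n)} (hK : IsCompact K) {u : Ev n → ℝ} (hu : ContDiff ℝ 1 u)
    (hs : tsupport u ⊆ K) (h0 : ∀ y, 0 ≤ u y) (h1 : ∀ y, u y ≤ 1) (v : Ev n × Ev n)
    (hv : ‖v.2‖ = 1) : LL.Good (fun s => u (H.fl s v).1) := by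
  have hflc : Continuous (fun t : ℝ => H.fl t v) :=
    H.fl_cont.comp (continuous_id.prodMk continuous_const)
  refine ⟨?_, ?_, fun t => h0 _, fun t => h1 _⟩
  · rw [contDiff_one_iff_deriv]
    refine ⟨fun t => (lower2_hasDerivAt H hu v t).differentiableAt, ?_⟩
    have h2 : deriv (fun s => u (H.fl s v).1)
        = fun t => fderiv ℝ u (H.fl t v).1 (H.L (H.fl t v).1 (H.fl t v).2) := by
      funext t
      exact (lower2_hasDerivAt H hu v t).deriv
    rw [h2]
    have h3 : Continuous (fderiv ℝ u) := hu.continuous_fderiv (by norm_num)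
    have h4 : Continuous (fun t : ℝ => (H.fl t v).1) := continuous_fst.comp hflc
    have h5 : Continuous (fun t : ℝ => (H.fl t v).2) := continuous_snd.comp hflc
    exact (h3.comp h4).clm_apply ((H.L_cont.comp h4).clm_apply h5)
  · obtain ⟨R, hR⟩ := H.exp_proper K hK
    have key : ∀ s s' : ℝ, u (H.fl s v).1 ≠ 0 → u (H.fl s' v).1 ≠ 0 → |s' - s| ≤ R := by
      intro s s' h h'
      have m1 : (H.fl s v).1 ∈ K := hs (subset_tsupport u h)
      have m2 : (H.fl s' v).1 ∈ K := hs (subset_tsupport u h')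
      have e1 : (H.fl 1 ((H.fl s v).1, (s' - s) • (H.fl s v).2)).1 = (H.fl s' v).1 := by
        have := H.Ex_smul (s' - s) (H.fl s v).1 (H.fl s v).2
        unfold HData.Ex at this
        rw [this]
        have h6 : ((H.fl s v).1, (H.fl s v).2) = H.fl s v := rfl
        rw [h6, ← H.fl_add, sub_add_cancel]
      have h7 := hR _ m1 ((s' - s) • (H.fl s v).2) (by rw [e1]; exact m2)
      rw [norm_smul, H.fl_norm, hv, mul_one, Real.norm_eq_abs] at h7
      exact h7
    by_cases hex : ∃ s, u (H.fl s v).1 ≠ 0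
    · obtain ⟨s₀, hs₀⟩ := hex
      refine HasCompactSupport.of_support_subset_isCompact
        (isCompact_Icc : IsCompact (Icc (s₀ - R) (s₀ + R))) ?_
      intro s hs'
      have := abs_le.1 (key s₀ s hs₀ hs')
      exact ⟨by linarith [this.1], by linarith [this.2]⟩
    · push Not at hex
      refine HasCompactSupport.of_support_subset_isCompact isCompact_empty ?_
      intro s hs'
      exact absurd (hex s) hs'

private theorem lower2_shift (F : ℝ → ℝ≥0∞) (a : ℝ) :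
    ∫⁻ b in Ioi a, F b = ∫⁻ t in Ioi (0 : ℝ), F (a + t) := by
  rw [← lintegral_indicator measurableSet_Ioi, ← lintegral_indicator measurableSet_Ioi,
    ← lintegral_add_left_eq_self _ a]
  refine lintegral_congr fun t => ?_
  by_cases ht : 0 < t
  · rw [indicator_of_mem (show a + t ∈ Ioi a by simpa using ht),
      indicator_of_mem (show t ∈ Ioi (0:ℝ) from ht)]
  · rw [indicator_of_notMem (show a + t ∉ Ioi a by simpa using ht),
      indicator_of_notMem (show t ∉ Ioi (0:ℝ) from ht)]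

private theorem lower2_B (r c c' : ℝ) (hr : 0 < r) (hc : 0 < c) (hc1 : c ≤ 1) (hc' : 0 < c')
    (hc1' : c' ≤ 1) :
    c * c' * (k.d * r - k.f c - k.f c') ≤ k.B r c c' * r ^ (n - 1) :=
  k.B_lower r c c' hr hc hc1 hc' hc1'

private theorem lower2_point {ρ₀ : ℝ} (hρ : 0 < ρ₀) (t p q c c' : ℝ) (ht : 0 < t)
    (hp : 0 ≤ p) (hq : 0 ≤ q) (hc : |c| ≤ 1) (hc' : |c'| ≤ 1) :
    ENNReal.ofReal (p * c) * ENNReal.ofReal (-(q * -c'))
      * (ENNReal.ofReal (ρ₀ ^ (n - 1) * (k.d / ρ₀) * t)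
        - (ENNReal.ofReal (ρ₀ ^ (n - 1) * k.f |c|) + ENNReal.ofReal (ρ₀ ^ (n - 1) * k.f |(-c')|)))
      ≤ ENNReal.ofReal (p * q * k.B (t / ρ₀) c' c * t ^ (n - 1)) := by
  by_cases h1 : p * c ≤ 0
  · rw [ENNReal.ofReal_of_nonpos h1, zero_mul, zero_mul]
    exact zero_le
  by_cases h2 : -(q * -c') ≤ 0
  · rw [ENNReal.ofReal_of_nonpos h2, mul_zero, zero_mul]
    exact zero_le
  push Not at h1 h2
  have h2' : 0 < q * c' := by linarith
  have hc0 : 0 < c := by
    by_contra h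
    push Not at h
    nlinarith
  have hc0' : 0 < c' := by
    by_contra h
    push Not at h
    nlinarith
  have hP : (0 : ℝ) < ρ₀ ^ (n - 1) := pow_pos hρ _
  have e1 : -(q * -c') = q * c' := by ring
  rw [e1, abs_neg, abs_of_pos hc0, abs_of_pos hc0',
    ← ENNReal.ofReal_add (mul_nonneg hP.le (k.f_nonneg _)) (mul_nonneg hP.le (k.f_nonneg _)),
    ← ENNReal.ofReal_sub _ (add_nonneg (mul_nonneg hP.le (k.f_nonneg _))
      (mul_nonneg hP.le (k.f_nonneg _))),
    ← ENNReal.ofReal_mul h1.le, ← ENNReal.ofReal_mul (mul_nonneg h1.le h2'.le)]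
  refine ENNReal.ofReal_le_ofReal ?_
  have hB := lower2_B k (t / ρ₀) c' c (div_pos ht hρ) hc0' ((le_abs_self _).trans hc') hc0
    ((le_abs_self _).trans hc)
  have hm : 0 ≤ p * q * ρ₀ ^ (n - 1) := mul_nonneg (mul_nonneg hp hq) hP.le
  have h3 := mul_le_mul_of_nonneg_left hB hm
  have e2 : p * q * ρ₀ ^ (n - 1) * (k.B (t / ρ₀) c' c * (t / ρ₀) ^ (n - 1))
      = p * q * k.B (t / ρ₀) c' c * t ^ (n - 1) := by
    rw [div_pow]
    field_simp
  rw [e2] at h3
  refine le_trans (le_of_eq ?_) h3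
  field_simp
  ring

/-- the Line Lemma on a geodesic -/
theorem line_ineq (hn : 1 ≤ n) {K : Set (Ev n)} (hK : IsCompact K) {u : Ev n → ℝ}
    (hu : ContDiff ℝ 1 u) (hs : tsupport u ⊆ K) (h0 : ∀ y, 0 ≤ u y) (h1 : ∀ y, u y ≤ 1)
    {ρ₀ : ℝ} (hρ : 0 < ρ₀) (v : Ev n × Ev n) (hv : ‖v.2‖ = 1) :
    ENNReal.ofReal (ρ₀ ^ (n - 1) * (k.d / ρ₀)) * ∫⁻ s : ℝ, ENNReal.ofReal (u (H.fl s v).1 ^ 2)
      ≤ (∫⁻ s : ℝ, H.Lk k u ρ₀ (H.fl s v))
        + ∫⁻ s : ℝ, ENNReal.ofReal (ρ₀ ^ (n - 1) * (‖H.gr u (H.fl s v).1‖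
          * (|H.cs u (H.fl s v)| * k.f |H.cs u (H.fl s v)|))) := by
  have hflc : Continuous (fun t : ℝ => H.fl t v) :=
    H.fl_cont.comp (continuous_id.prodMk continuous_const)
  have hP : (0 : ℝ) < ρ₀ ^ (n - 1) := pow_pos hρ _
  have hd : 0 ≤ ρ₀ ^ (n - 1) * (k.d / ρ₀) := mul_nonneg hP.le (div_nonneg k.d_pos.le hρ.le)
  have hcs : Measurable (fun s : ℝ => H.cs u (H.fl s v)) :=
    (H.cs_measurable hu).comp hflc.measurable
  have hφ : Measurable (fun s : ℝ =>
      ENNReal.ofReal (ρ₀ ^ (n - 1) * k.f |H.cs u (H.fl s v)|)) :=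
    ((k.f_cont.measurable.comp (continuous_abs.measurable.comp hcs)).const_mul _).ennreal_ofReal
  have hcsle : ∀ s, |H.cs u (H.fl s v)| ≤ 1 := fun s =>
    H.cs_abs_le u _ (by rw [H.fl_norm, hv])
  have main := LL.line_lemma (H.good_line hK hu hs h0 h1 v hv) hd hφ
  refine main.trans (add_le_add ?_ (le_of_eq ?_))
  · refine lintegral_mono fun a => ?_
    rw [lower2_shift]
    unfold HData.Lk
    refine lintegral_mono_ae ?_
    rw [ae_restrict_iff' measurableSet_Ioi]
    refine Eventually.of_forall fun t ht => ?_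
    have ht' : 0 < t := ht
    rw [lower2_deriv H hu v a, lower2_deriv H hu v (a + t), lower2_inner H u (H.fl a v),
      lower2_inner H u (H.fl (a + t) v)]
    have e3 : H.fl (a + t) v = H.fl t (H.fl a v) := by rw [add_comm, H.fl_add]
    rw [e3]
    have h9 := lower2_point k hρ t ‖H.gr u (H.fl a v).1‖ ‖H.gr u (H.fl t (H.fl a v)).1‖
      (H.cs u (H.fl a v)) (-(H.cs u (H.fl t (H.fl a v)))) ht' (norm_nonneg _) (norm_nonneg _)
      (hcsle a) (by rw [abs_neg, ← e3]; exact hcsle (a + t))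
    rw [neg_neg] at h9
    have e4 : a + t - a = t := by ring
    rw [e4]
    exact h9
  · refine lintegral_congr fun t => ?_
    rw [lower2_deriv H hu v t, lower2_inner H u (H.fl t v),
      ← ENNReal.ofReal_mul (abs_nonneg _), abs_mul, abs_norm]
    congr 1
    ring

end HData

end Vale.Agent.Lib.P219
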