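import Vale.Agent.Lib.P219.A.FlowSwap

/-! # P219 Part A: unfolding the sphere bundle into geodesics -/

namespace Vale.Agent.Lib.P219

open MeasureTheory Set Filter Topology
open scoped ENNReal

namespace HData

variable {n : ℕ} (H : HData n)

private lemma weight_meas_comp {Φ : Ev n × Ev n → ℝ≥0∞} (hΦ : Measurable Φ) :
    Measurable (fun p : (Ev n × Ev n) × ℝ => Φ (H.fl p.2 p.1)) := by
  have hc : Continuous (fun p : (Ev n × Ev n) × ℝ => H.fl p.2 p.1) :=
    H.fl_cont.comp (continuous_snd.prodMk continuous_fst)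
  exact hΦ.comp hc.measurable

private lemma weight_meas_comp_neg {Φ : Ev n × Ev n → ℝ≥0∞} (hΦ : Measurable Φ) :
    Measurable (fun p : (Ev n × Ev n) × ℝ => Φ (H.fl (-p.2) p.1)) := by
  have hc : Continuous (fun p : (Ev n × Ev n) × ℝ => H.fl (-p.2) p.1) :=
    H.fl_cont.comp (continuous_snd.neg.prodMk continuous_fst)
  exact hΦ.comp hc.measurable

/-- a weight whose integral along every unit speed geodesic meeting `K` is one -/
theorem exists_weight_one {K : Set (Ev n)} (hK : IsCompact K) :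
    ∃ W : Ev n × Ev n → ℝ≥0∞, Measurable W ∧
      ∀ v : Ev n × Ev n, v.1 ∈ K → ‖v.2‖ = 1 → ∫⁻ s : ℝ, W (H.fl s v) = 1 := by
  obtain ⟨χ, hχ1, -, hχc, hχI⟩ := exists_continuous_one_zero_of_isCompact hK isClosed_empty
    (disjoint_empty K)
  have hgc : Continuous (fun v : Ev n × Ev n => ENNReal.ofReal (χ v.1)) :=
    ENNReal.continuous_ofReal.comp (χ.continuous.comp continuous_fst)
  set g : Ev n × Ev n → ℝ≥0∞ := fun v => ENNReal.ofReal (χ v.1) with hg
  have hgm : Measurable g := hgc.measurable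
  set L : Ev n × Ev n → ℝ≥0∞ := fun v => ∫⁻ s : ℝ, g (H.fl s v) with hL
  have hLm : Measurable L := (H.weight_meas_comp hgm).lintegral_prod_right'
  have hinv : ∀ s v, L (H.fl s v) = L v := by
    intro s v
    have h1 : ∀ t, g (H.fl t (H.fl s v)) = g (H.fl (t + s) v) := fun t => by rw [H.fl_add]
    show ∫⁻ t : ℝ, g (H.fl t (H.fl s v)) = ∫⁻ t : ℝ, g (H.fl t v)
    rw [lintegral_congr h1]
    exact lintegral_add_right_eq_self (fun t => g (H.fl t v)) s
  refine ⟨fun v => g v / L v, hgm.div hLm, fun v hv hv1 => ?_⟩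
  have h1 : ∀ s, g (H.fl s v) / L (H.fl s v) = g (H.fl s v) * (L v)⁻¹ := fun s => by
    rw [hinv, div_eq_mul_inv]
  have hflc : Continuous (fun s : ℝ => H.fl s v) :=
    H.fl_cont.comp (continuous_id.prodMk continuous_const)
  have hmeas : Measurable (fun s : ℝ => g (H.fl s v)) := hgm.comp hflc.measurable
  rw [lintegral_congr h1, lintegral_mul_const _ hmeas]
  have hpos : L v ≠ 0 := by
    have h2 : 0 < ∫⁻ s : ℝ, g (H.fl s v) := by
      rw [lintegral_pos_iff_support hmeas]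
      have ho : IsOpen (Function.support (fun s : ℝ => g (H.fl s v))) :=
        isOpen_ne.preimage (hgc.comp hflc)
      refine ho.measure_pos volume ⟨0, ?_⟩
      show g (H.fl 0 v) ≠ 0
      rw [H.fl_zero, hg]
      show ENNReal.ofReal (χ v.1) ≠ 0
      rw [hχ1 hv]
      simp
    exact h2.ne'
  have hfin : L v ≠ ∞ := by
    obtain ⟨R, hR⟩ := H.exp_proper (tsupport χ) hχc
    have hvC : v.1 ∈ tsupport χ := by
      apply subset_tsupport
      show χ v.1 ≠ 0
      rw [hχ1 hv]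
      exact one_ne_zero
    have hle : ∀ s : ℝ, g (H.fl s v) ≤ (Icc (-R) R).indicator (fun _ => (1 : ℝ≥0∞)) s := by
      intro s
      by_cases hs : s ∈ Icc (-R) R
      · rw [indicator_of_mem hs]
        show ENNReal.ofReal (χ (H.fl s v).1) ≤ 1
        exact ENNReal.ofReal_le_one.2 (hχI _).2
      · rw [indicator_of_notMem hs]
        have hnot : (H.fl s v).1 ∉ tsupport χ := by
          intro hin
          apply hs
          have h3 := hR v.1 hvC (s • v.2) (by
            show H.Ex v.1 (s • v.2) ∈ tsupport χ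
            rw [H.Ex_smul]
            exact hin)
          rw [norm_smul, hv1, mul_one, Real.norm_eq_abs] at h3
          exact abs_le.1 h3
        show ENNReal.ofReal (χ (H.fl s v).1) ≤ 0
        rw [image_eq_zero_of_notMem_tsupport hnot, ENNReal.ofReal_zero]
    have h4 : L v ≤ ∫⁻ s : ℝ, (Icc (-R) R).indicator (fun _ => (1 : ℝ≥0∞)) s :=
      lintegral_mono hle
    rw [lintegral_indicator measurableSet_Icc, lintegral_one, Measure.restrict_apply_univ,
      Real.volume_Icc] at h4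
    exact (h4.trans_lt ENNReal.ofReal_lt_top).ne
  exact ENNReal.mul_inv_cancel hpos hfin

private lemma weight_SM_add (Φ₁ Φ₂ : Ev n × Ev n → ℝ≥0∞) (h₁ : Measurable Φ₁) :
    H.SM (fun v => Φ₁ v + Φ₂ v) = H.SM Φ₁ + H.SM Φ₂ := by
  have := isFiniteMeasure_toSphere n
  unfold SM
  have hj : Measurable (fun p : Ev n × Metric.sphere (0 : Ev n) 1 => (p.1, (p.2 : Ev n))) :=
    measurable_fst.prodMk (measurable_subtype_coe.comp measurable_snd)
  have hi : ∀ x, ∫⁻ ω : Metric.sphere (0 : Ev n) 1, (Φ₁ (x, (ω : Ev n)) + Φ₂ (x, (ω : Ev n)))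
      ∂(volume : Measure (Ev n)).toSphere
      = (∫⁻ ω : Metric.sphere (0 : Ev n) 1, Φ₁ (x, (ω : Ev n))
          ∂(volume : Measure (Ev n)).toSphere)
        + ∫⁻ ω : Metric.sphere (0 : Ev n) 1, Φ₂ (x, (ω : Ev n))
          ∂(volume : Measure (Ev n)).toSphere := fun x =>
    lintegral_add_left ((h₁.comp hj).comp measurable_prodMk_left) _
  rw [lintegral_congr hi]
  exact lintegral_add_left (h₁.comp hj).lintegral_prod_right' _

private lemma weight_split (g : ℝ → ℝ≥0∞) :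
    ∫⁻ s : ℝ, g s = (∫⁻ s in Ioi (0 : ℝ), g s) + ∫⁻ s in Ioi (0 : ℝ), g (-s) := by
  have h1 : ∫⁻ s in Ioi (0 : ℝ), g (-s) = ∫⁻ s in Iio (0 : ℝ), g s := by
    have hmp : MeasurePreserving (fun x : ℝ => -x) volume volume := Measure.measurePreserving_neg _
    have h := hmp.setLIntegral_comp_preimage_emb (Homeomorph.neg ℝ).measurableEmbedding g
      (Iio (0 : ℝ))
    rw [← h]
    congr 1
    congr 1
    ext x
    simp
  rw [h1]
  have h2 : ∫⁻ s : ℝ, g s = (∫⁻ s in Ioi (0 : ℝ), g s) + ∫⁻ s in (Ioi (0 : ℝ))ᶜ, g s :=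
    (lintegral_add_compl g measurableSet_Ioi).symm
  rw [h2, compl_Ioi, setLIntegral_congr Iio_ae_eq_Iic]

theorem SM_weight (hn : 1 ≤ n) {K : Set (Ev n)} (W : Ev n × Ev n → ℝ≥0∞)
    (hW : Measurable W)
    (hW1 : ∀ v : Ev n × Ev n, v.1 ∈ K → ‖v.2‖ = 1 → ∫⁻ s : ℝ, W (H.fl s v) = 1)
    (Φ : Ev n × Ev n → ℝ≥0∞) (hΦ : Measurable Φ) (h0 : ∀ v : Ev n × Ev n, v.1 ∉ K → Φ v = 0) :
    H.SM (fun v => W v * ∫⁻ s : ℝ, Φ (H.fl s v)) = H.SM Φ := by
  have e1 : (fun v => W v * ∫⁻ s : ℝ, Φ (H.fl s v))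
      = fun v => W v * (∫⁻ s in Ioi (0 : ℝ), Φ (H.fl s v))
        + W v * ∫⁻ s in Ioi (0 : ℝ), Φ (H.fl (-s) v) := by
    funext v
    rw [weight_split (fun s => Φ (H.fl s v)), mul_add]
  have m1 : Measurable (fun v => W v * (∫⁻ s in Ioi (0 : ℝ), Φ (H.fl s v))) :=
    hW.mul (H.weight_meas_comp hΦ).lintegral_prod_right'
  have m2 : Measurable (fun v => Φ v * (∫⁻ s in Ioi (0 : ℝ), W (H.fl (-s) v))) :=
    hΦ.mul (H.weight_meas_comp_neg hW).lintegral_prod_right'
  rw [e1, H.weight_SM_add _ _ m1, H.flow_swap hn W Φ hW hΦ, ← H.flow_swap hn Φ W hΦ hW,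
    ← H.weight_SM_add _ _ m2]
  unfold SM
  refine lintegral_congr fun x => lintegral_congr fun ω => ?_
  show Φ (x, (ω : Ev n)) * (∫⁻ s in Ioi (0 : ℝ), W (H.fl (-s) (x, (ω : Ev n))))
    + Φ (x, (ω : Ev n)) * (∫⁻ s in Ioi (0 : ℝ), W (H.fl s (x, (ω : Ev n))))
    = Φ (x, (ω : Ev n))
  by_cases hx : x ∈ K
  · rw [← mul_add, add_comm, ← weight_split (fun s => W (H.fl s (x, (ω : Ev n)))),
      hW1 (x, (ω : Ev n)) hx (norm_eq_of_mem_sphere ω), mul_one]
  · rw [h0 (x, (ω : Ev n)) hx, zero_mul, zero_mul, add_zero]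

end HData

end Vale.Agent.Lib.P219
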