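import Vale.Agent.Lib.P219.A.Lower1
import Vale.Agent.Lib.P219.A.Lower2
import Vale.Agent.Lib.P219.A.Weight

/-! # P219 Part A: the lower bound for the pair functional -/

namespace Vale.Agent.Lib.P219

open MeasureTheory Set Filter Topology
open scoped ENNReal

namespace HData

variable {n : ℕ} (H : HData n) (k : Ker n)

/-- functions of the base point only -/
theorem SM_base {u : Ev n → ℝ} (hu : Continuous u) (hs : HasCompactSupport u) :
    H.SM (fun v => ENNReal.ofReal (u v.1 ^ 2))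
      = ENNReal.ofReal (n * om n * ∫ x, u x ^ 2 ∂H.vol) := by
  have hm : Measurable (fun x => ENNReal.ofReal (u x ^ 2)) :=
    (ENNReal.continuous_ofReal.comp (hu.pow 2)).measurable
  have hs2 : HasCompactSupport (fun x => u x ^ 2) := by
    apply HasCompactSupport.intro hs
    intro x hx
    rw [image_eq_zero_of_notMem_tsupport hx]
    norm_num
  have hi : Integrable (fun x => u x ^ 2) H.vol := H.integrable_of_continuous (hu.pow 2) hs2
  have hom : 0 ≤ (n : ℝ) * om n := mul_nonneg (Nat.cast_nonneg n) ENNReal.toReal_nonneg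
  have h1 : ∀ x : Ev n, ∫⁻ _ : Metric.sphere (0 : Ev n) 1, ENNReal.ofReal (u x ^ 2)
      ∂(volume : Measure (Ev n)).toSphere
      = ENNReal.ofReal (u x ^ 2) * ENNReal.ofReal (n * om n) := fun x => by
    rw [lintegral_const, toSphere_univ_eq]
  unfold SM
  rw [lintegral_congr h1, lintegral_mul_const _ hm, ENNReal.ofReal_mul hom, mul_comm,
    ofReal_integral_eq_lintegral_ofReal hi (Filter.Eventually.of_forall fun x => sq_nonneg _)]

private theorem Lower3_inner (u : Ev n → ℝ) {ρ₀ : ℝ} (hρ : 0 < ρ₀) (x : Ev n) :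
    ∫⁻ ω : Metric.sphere (0 : Ev n) 1, ENNReal.ofReal (ρ₀ ^ (n - 1) * (‖H.gr u x‖
      * (|H.cs u (x, (ω : Ev n))| * k.f |H.cs u (x, (ω : Ev n))|)))
      ∂(volume : Measure (Ev n)).toSphere
      ≤ ENNReal.ofReal (ρ₀ ^ (n - 1) * ‖H.gr u x‖) * ENNReal.ofReal k.K' := by
  have := isFiniteMeasure_toSphere n
  have hc : 0 ≤ ρ₀ ^ (n - 1) * ‖H.gr u x‖ := mul_nonneg (pow_pos hρ _).le (norm_nonneg _)
  by_cases hg : H.gr u x = 0
  · have h0 : ∀ ω : Metric.sphere (0 : Ev n) 1, ENNReal.ofReal (ρ₀ ^ (n - 1) * (‖H.gr u x‖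
      * (|H.cs u (x, (ω : Ev n))| * k.f |H.cs u (x, (ω : Ev n))|))) = 0 := by
      intro ω
      rw [hg, norm_zero, zero_mul, mul_zero, ENNReal.ofReal_zero]
    rw [lintegral_congr h0, lintegral_zero]
    exact bot_le
  · have hg' : ‖H.gr u x‖ ≠ 0 := norm_ne_zero_iff.2 hg
    set e : Ev n := ‖H.gr u x‖⁻¹ • H.gr u x with he
    have he1 : ‖e‖ = 1 := by
      rw [he, norm_smul, norm_inv, norm_norm, inv_mul_cancel₀ hg']
    have hcs : ∀ ω : Metric.sphere (0 : Ev n) 1,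
        H.cs u (x, (ω : Ev n)) = inner ℝ (ω : Ev n) e := by
      intro ω
      rw [he, inner_smul_right, real_inner_comm]
      unfold HData.cs
      rw [div_eq_inv_mul]
    have hcont : Continuous (fun ω : Metric.sphere (0 : Ev n) 1 =>
        |inner ℝ (ω : Ev n) e| * k.f |inner ℝ (ω : Ev n) e|) := by
      have h1 : Continuous (fun ω : Metric.sphere (0 : Ev n) 1 => |inner ℝ (ω : Ev n) e|) :=
        (continuous_subtype_val.inner continuous_const).abs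
      exact h1.mul (k.f_cont.comp h1)
    have hint : Integrable (fun ω : Metric.sphere (0 : Ev n) 1 =>
        |inner ℝ (ω : Ev n) e| * k.f |inner ℝ (ω : Ev n) e|)
        (volume : Measure (Ev n)).toSphere :=
      hcont.integrable_of_hasCompactSupport (HasCompactSupport.of_compactSpace _)
    have h1 : ∀ ω : Metric.sphere (0 : Ev n) 1, ENNReal.ofReal (ρ₀ ^ (n - 1) * (‖H.gr u x‖
      * (|H.cs u (x, (ω : Ev n))| * k.f |H.cs u (x, (ω : Ev n))|)))
      = ENNReal.ofReal (ρ₀ ^ (n - 1) * ‖H.gr u x‖) *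
        ENNReal.ofReal (|inner ℝ (ω : Ev n) e| * k.f |inner ℝ (ω : Ev n) e|) := by
      intro ω
      rw [← ENNReal.ofReal_mul hc, hcs ω, mul_assoc]
    rw [lintegral_congr h1, lintegral_const_mul' _ _ ENNReal.ofReal_ne_top]
    refine mul_le_mul' le_rfl ?_
    rw [← ofReal_integral_eq_lintegral_ofReal hint (Filter.Eventually.of_forall fun ω =>
      mul_nonneg (abs_nonneg _) (k.f_nonneg _))]
    exact ENNReal.ofReal_le_ofReal (k.K'_bound e he1)

theorem SM_boundary {u : Ev n → ℝ} (hu : ContDiff ℝ 1 u) (hs : HasCompactSupport u) {ρ₀ : ℝ}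
    (hρ : 0 < ρ₀) :
    H.SM (fun v => ENNReal.ofReal (ρ₀ ^ (n - 1) * (‖H.gr u v.1‖
      * (|H.cs u v| * k.f |H.cs u v|)))) ≤ ENNReal.ofReal (ρ₀ ^ (n - 1) * (k.K' * H.A u)) := by
  have hgc : Continuous (fun x => ‖H.gr u x‖) := (H.gr_cont hu).norm
  have hgs : HasCompactSupport (fun x => ‖H.gr u x‖) := (H.gr_hasCompactSupport hs).norm
  have hgi : Integrable (fun x => ‖H.gr u x‖) H.vol := H.integrable_of_continuous hgc hgs
  have hp : 0 ≤ ρ₀ ^ (n - 1) := (pow_pos hρ _).le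
  have h1 : H.SM (fun v => ENNReal.ofReal (ρ₀ ^ (n - 1) * (‖H.gr u v.1‖
      * (|H.cs u v| * k.f |H.cs u v|))))
      ≤ ∫⁻ x, ENNReal.ofReal (ρ₀ ^ (n - 1) * ‖H.gr u x‖) * ENNReal.ofReal k.K' ∂H.vol := by
    unfold SM
    exact lintegral_mono fun x => H.Lower3_inner k u hρ x
  refine h1.trans (le_of_eq ?_)
  rw [lintegral_mul_const' _ _ ENNReal.ofReal_ne_top,
    ← ofReal_integral_eq_lintegral_ofReal (hgi.const_mul _)
      (Filter.Eventually.of_forall fun x => mul_nonneg hp (norm_nonneg _)),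
    integral_const_mul]
  have hA : ∫ x, ‖H.gr u x‖ ∂H.vol = H.A u := rfl
  rw [hA, ← ENNReal.ofReal_mul (mul_nonneg hp (H.A_nonneg u))]
  congr 1
  ring

private theorem Lower3_add (Φ₁ Φ₂ : Ev n × Ev n → ℝ≥0∞) (h₁ : Measurable Φ₁) :
    H.SM (fun v => Φ₁ v + Φ₂ v) = H.SM Φ₁ + H.SM Φ₂ := by
  have := isFiniteMeasure_toSphere n
  unfold SM
  have hj : Measurable (fun p : Ev n × Metric.sphere (0 : Ev n) 1 => (p.1, (p.2 : Ev n))) :=
    measurable_fst.prodMk (measurable_subtype_coe.comp measurable_snd)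
  have hi : ∀ x, ∫⁻ ω : Metric.sphere (0 : Ev n) 1, (Φ₁ (x, (ω : Ev n)) + Φ₂ (x, (ω : Ev n)))
      ∂(volume : Measure (Ev n)).toSphere
      = (∫⁻ ω : Metric.sphere (0 : Ev n) 1, Φ₁ (x, (ω : Ev n))
          ∂(volume : Measure (Ev n)).toSphere)
        + ∫⁻ ω : Metric.sphere (0 : Ev n) 1, Φ₂ (x, (ω : Ev n))
          ∂(volume : Measure (Ev n)).toSphere := fun x =>
    lintegral_add_left ((h₁.comp hj).comp measurable_prodMk_left) _
  rw [lintegral_congr hi]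
  exact lintegral_add_left (h₁.comp hj).lintegral_prod_right' _

private theorem Lower3_meas {Φ : Ev n × Ev n → ℝ≥0∞} (hΦ : Measurable Φ) :
    Measurable (fun v : Ev n × Ev n => ∫⁻ s : ℝ, Φ (H.fl s v)) := by
  have hc : Continuous (fun p : (Ev n × Ev n) × ℝ => H.fl p.2 p.1) :=
    H.fl_cont.comp (continuous_snd.prodMk continuous_fst)
  have hm : Measurable (fun p : (Ev n × Ev n) × ℝ => Φ (H.fl p.2 p.1)) := hΦ.comp hc.measurable
  exact hm.lintegral_prod_right'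

private theorem Lower3_const (c : ℝ≥0∞) (hc : c ≠ ∞) (Φ : Ev n × Ev n → ℝ≥0∞) :
    c * H.SM Φ = H.SM (fun v => c * Φ v) := by
  unfold SM
  rw [← lintegral_const_mul' _ _ hc]
  refine lintegral_congr fun x => ?_
  rw [← lintegral_const_mul' _ _ hc]

private theorem Lower3_mono {Φ₁ Φ₂ : Ev n × Ev n → ℝ≥0∞}
    (h : ∀ v : Ev n × Ev n, ‖v.2‖ = 1 → Φ₁ v ≤ Φ₂ v) : H.SM Φ₁ ≤ H.SM Φ₂ := by
  unfold SM
  exact lintegral_mono fun x => lintegral_mono fun ω =>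
    h (x, (ω : Ev n)) (norm_eq_of_mem_sphere ω)

/-- lower bound -/
theorem pair_lower (hn : 2 ≤ n) {K : Set (Ev n)} (hK : IsCompact K) {u : Ev n → ℝ}
    (hu : ContDiff ℝ 1 u) (hs : tsupport u ⊆ K) (h0 : ∀ y, 0 ≤ u y) (h1 : ∀ y, u y ≤ 1)
    {ρ₀ : ℝ} (hρ : 0 < ρ₀) :
    ENNReal.ofReal (ρ₀ ^ (n - 1) * (k.d / ρ₀) * (n * om n * ∫ x, u x ^ 2 ∂H.vol))
      ≤ H.Pair k.B u ρ₀ + ENNReal.ofReal (ρ₀ ^ (n - 1) * (k.K' * H.A u)) := by
  have hn1 : 1 ≤ n := by omega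
  have hsc : HasCompactSupport u := hK.of_isClosed_subset (isClosed_tsupport u) hs
  have hp : 0 ≤ ρ₀ ^ (n - 1) * (k.d / ρ₀) :=
    mul_nonneg (pow_pos hρ _).le (div_pos k.d_pos hρ).le
  obtain ⟨W, hW, hW1⟩ := H.exists_weight_one hK
  -- the three functions
  set Φ₁ : Ev n × Ev n → ℝ≥0∞ := fun v => ENNReal.ofReal (u v.1 ^ 2) with hΦ₁
  set Φ₃ : Ev n × Ev n → ℝ≥0∞ := fun v => ENNReal.ofReal (ρ₀ ^ (n - 1) * (‖H.gr u v.1‖
      * (|H.cs u v| * k.f |H.cs u v|))) with hΦ₃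
  have m₁ : Measurable Φ₁ :=
    (ENNReal.continuous_ofReal.comp ((hu.continuous.comp continuous_fst).pow 2)).measurable
  have m₂ : Measurable (H.Lk k u ρ₀) := H.Lk_measurable k hu ρ₀
  have m₃ : Measurable Φ₃ := by
    have hcs : Measurable (fun v => |H.cs u v|) := (H.cs_measurable hu).abs
    have hg : Measurable (fun v : Ev n × Ev n => ‖H.gr u v.1‖) :=
      ((H.gr_cont hu).norm.comp continuous_fst).measurable
    exact ((hg.mul (hcs.mul (k.f_cont.measurable.comp hcs))).const_mul _).ennreal_ofReal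
  have z₁ : ∀ v : Ev n × Ev n, v.1 ∉ K → Φ₁ v = 0 := by
    intro v hv
    show ENNReal.ofReal (u v.1 ^ 2) = 0
    rw [image_eq_zero_of_notMem_tsupport (fun h => hv (hs h))]
    norm_num
  have z₂ : ∀ v : Ev n × Ev n, v.1 ∉ K → H.Lk k u ρ₀ v = 0 := by
    intro v hv
    unfold HData.Lk
    rw [H.gr_zero_of_not_mem (fun h => hv (hs h))]
    simp
  have z₃ : ∀ v : Ev n × Ev n, v.1 ∉ K → Φ₃ v = 0 := by
    intro v hv
    show ENNReal.ofReal (ρ₀ ^ (n - 1) * (‖H.gr u v.1‖ * (|H.cs u v| * k.f |H.cs u v|))) = 0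
    rw [H.gr_zero_of_not_mem (fun h => hv (hs h)), norm_zero, zero_mul, mul_zero,
      ENNReal.ofReal_zero]
  have w₁ := H.SM_weight hn1 W hW hW1 Φ₁ m₁ z₁
  have w₂ := H.SM_weight hn1 W hW hW1 (H.Lk k u ρ₀) m₂ z₂
  have w₃ := H.SM_weight hn1 W hW hW1 Φ₃ m₃ z₃
  have hL : ENNReal.ofReal (ρ₀ ^ (n - 1) * (k.d / ρ₀) * (n * om n * ∫ x, u x ^ 2 ∂H.vol))
      = ENNReal.ofReal (ρ₀ ^ (n - 1) * (k.d / ρ₀)) * H.SM Φ₁ := by
    rw [ENNReal.ofReal_mul hp, H.SM_base hu.continuous hsc]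
  rw [hL, ← w₁, H.Lower3_const _ ENNReal.ofReal_ne_top]
  have hmono : H.SM (fun v => ENNReal.ofReal (ρ₀ ^ (n - 1) * (k.d / ρ₀))
        * (W v * ∫⁻ s : ℝ, Φ₁ (H.fl s v)))
      ≤ H.SM (fun v => W v * (∫⁻ s : ℝ, H.Lk k u ρ₀ (H.fl s v))
        + W v * ∫⁻ s : ℝ, Φ₃ (H.fl s v)) := by
    refine H.Lower3_mono fun v hv => ?_
    rw [mul_left_comm, ← mul_add]
    exact mul_le_mul' le_rfl (H.line_ineq k hn1 hK hu hs h0 h1 hρ v hv)
  refine hmono.trans ?_
  rw [H.Lower3_add (fun v => W v * ∫⁻ s : ℝ, H.Lk k u ρ₀ (H.fl s v))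
    (fun v => W v * ∫⁻ s : ℝ, Φ₃ (H.fl s v)) (hW.mul (H.Lower3_meas m₂)), w₂, w₃]
  exact add_le_add (H.SM_Lk_le k hn1 hu hρ) (H.SM_boundary k hu hsc hρ)

end HData

end Vale.Agent.Lib.P219
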