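import Vale.Agent.Lib.P219.A.Change
import Vale.Agent.Lib.P219.A.Vol

/-! # P219 Part A: exchange of the two points -/

namespace Vale.Agent.Lib.P219

open MeasureTheory Set Filter Topology
open scoped ENNReal

namespace HData

variable {n : ℕ} (H : HData n)

private theorem swap_bij : Function.Bijective (fun p : Ev n × Ev n => (p.1, H.Ex p.1 p.2)) := by
  constructor
  · rintro ⟨x, w⟩ ⟨x', w'⟩ h
    simp only [Prod.mk.injEq] at h
    obtain ⟨rfl, h2⟩ := h
    exact Prod.ext rfl ((H.exp_bij x).1 h2)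
  · rintro ⟨x, y⟩
    obtain ⟨w, hw⟩ := (H.exp_bij x).2 y
    exact ⟨(x, w), Prod.ext rfl hw⟩

private theorem swap_cont : Continuous (fun p : Ev n × Ev n => (p.1, H.Ex p.1 p.2)) :=
  continuous_fst.prodMk H.Ex_cont

/-- The inverse of `(x, w) ↦ (x, Ex x w)` is measurable. -/
theorem exists_log : ∃ lg : Ev n × Ev n → Ev n, Measurable lg ∧
    (∀ x w, lg (x, H.Ex x w) = w) ∧ (∀ x y, H.Ex x (lg (x, y)) = y) ∧
    (∀ x y, lg (y, x) = -(H.ve x (lg (x, y)))) := by
  have hemb : MeasurableEmbedding (fun p : Ev n × Ev n => (p.1, H.Ex p.1 p.2)) :=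
    H.swap_cont.measurableEmbedding H.swap_bij.1
  set e : Ev n × Ev n ≃ Ev n × Ev n := Equiv.ofBijective _ H.swap_bij with he
  have he1 : ∀ x w, e (x, w) = (x, H.Ex x w) := fun x w => rfl
  have hmeas : Measurable e.symm := by
    intro S hS
    have h1 : e.symm ⁻¹' S = (fun p : Ev n × Ev n => (p.1, H.Ex p.1 p.2)) '' S := by
      rw [← Equiv.image_eq_preimage_symm]
      rfl
    rw [h1]
    exact hemb.measurableSet_image.mpr hS
  have hA : ∀ x w, (e.symm (x, H.Ex x w)).2 = w := by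
    intro x w
    rw [← he1, Equiv.symm_apply_apply]
  have hB : ∀ x y, H.Ex x (e.symm (x, y)).2 = y := by
    intro x y
    have h1 : e (e.symm (x, y)) = (x, y) := Equiv.apply_symm_apply e (x, y)
    have h2 : ((e.symm (x, y)).1, H.Ex (e.symm (x, y)).1 (e.symm (x, y)).2) = (x, y) := h1
    have h3 := congrArg Prod.fst h2
    have h4 := congrArg Prod.snd h2
    simp only at h3 h4
    rw [h3] at h4
    exact h4
  refine ⟨fun p => (e.symm p).2, measurable_snd.comp hmeas, hA, hB, ?_⟩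
  intro x y
  have h1 := H.Ex_reverse x (e.symm (x, y)).2
  have h2 := hA y (-(H.ve x (e.symm (x, y)).2))
  rw [hB x y] at h1
  rw [h1] at h2
  exact h2

/-- exchange of the two points of a pair -/
theorem swap (F : Ev n × Ev n → ℝ≥0∞) (hF : Measurable F) :
    ∫⁻ x, (∫⁻ w, F (x, w) * ENNReal.ofReal (H.th x w)) ∂H.vol
      = ∫⁻ x, (∫⁻ w, F (H.Ex x w, -(H.ve x w)) * ENNReal.ofReal (H.th x w)) ∂H.vol := by
  obtain ⟨lg, hlg, h1, h2, h3⟩ := H.exists_log
  have hs : SFinite H.vol := H.vol_sFinite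
  have hL : ∀ x, (∫⁻ w, F (x, w) * ENNReal.ofReal (H.th x w)) = ∫⁻ y, F (x, lg (x, y)) ∂H.vol := by
    intro x
    rw [H.lintegral_exp x]
    refine lintegral_congr fun w => ?_
    rw [h1]
  have hR : ∀ x, (∫⁻ w, F (H.Ex x w, -(H.ve x w)) * ENNReal.ofReal (H.th x w))
      = ∫⁻ y, F (y, lg (y, x)) ∂H.vol := by
    intro x
    rw [H.lintegral_exp x]
    refine lintegral_congr fun w => ?_
    rw [h3 x (H.Ex x w), h1]
  simp only [hL, hR]
  rw [lintegral_lintegral_swap]
  exact (hF.comp (measurable_fst.prodMk hlg)).aemeasurable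

end HData

end Vale.Agent.Lib.P219
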