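import Vale.Agent.Lib.P219.A.FVBasic
import Vale.Agent.Lib.P219.A.Swap

/-! # P219 Part A: the pair inequality -/

namespace Vale.Agent.Lib.P219

open MeasureTheory Set Filter Topology
open scoped ENNReal

namespace HData

variable {n : ℕ} (H : HData n) (k : Ker n)

private theorem pr_abs_cy (u : Ev n → ℝ) (x w : Ev n) : |H.cy u x w| ≤ 1 := by
  unfold cy
  have h := abs_real_inner_div_norm_mul_norm_le_one (H.gr u (H.Ex x w)) (H.ve x w)
  rw [H.norm_ve] at h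
  rwa [neg_div, abs_neg]

private theorem pr_abs_cx (u : Ev n → ℝ) (x w : Ev n) : |H.cx u x w| ≤ 1 := by
  unfold cx
  exact abs_real_inner_div_norm_mul_norm_le_one (H.gr u x) w

private theorem pr_abs_e (w e : Ev n) (he : ‖e‖ = 1) : |inner ℝ w e / ‖w‖| ≤ 1 := by
  have h := abs_real_inner_div_norm_mul_norm_le_one w e
  rwa [he, mul_one] at h

private theorem pr_meas1 {F : ℝ → ℝ → ℝ → ℝ}
    (hF : Measurable (fun p : ℝ × ℝ × ℝ => F p.1 p.2.1 p.2.2)) {u : Ev n → ℝ}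
    (hu : ContDiff ℝ 1 u) (ρ₀ : ℝ) :
    Measurable (fun p : Ev n × Ev n => ENNReal.ofReal (‖H.gr u p.1‖ * ‖H.gr u (H.Ex p.1 p.2)‖
      * F (‖p.2‖ / ρ₀) (H.cy u p.1 p.2) (H.cx u p.1 p.2))) := by
  have h1 : Measurable (fun p : Ev n × Ev n => ‖H.gr u p.1‖) :=
    ((H.gr_cont hu).comp continuous_fst).norm.measurable
  have h2 : Measurable (fun p : Ev n × Ev n => ‖H.gr u (H.Ex p.1 p.2)‖) :=
    ((H.gr_cont hu).comp H.Ex_cont).norm.measurable
  have h3 : Measurable (fun p : Ev n × Ev n => ‖p.2‖ / ρ₀) :=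
    (continuous_snd.norm.measurable).div_const ρ₀
  have h4 : Measurable (fun p : Ev n × Ev n =>
      F (‖p.2‖ / ρ₀) (H.cy u p.1 p.2) (H.cx u p.1 p.2)) :=
    hF.comp (h3.prodMk ((H.cy_measurable hu).prodMk (H.cx_measurable hu)))
  exact ((h1.mul h2).mul h4).ennreal_ofReal

private theorem pr_meas2 {F : ℝ → ℝ → ℝ → ℝ}
    (hF : Measurable (fun p : ℝ × ℝ × ℝ => F p.1 p.2.1 p.2.2)) {u : Ev n → ℝ}
    (hu : ContDiff ℝ 1 u) (ρ₀ : ℝ) :
    Measurable (fun p : Ev n × Ev n => ENNReal.ofReal (‖H.gr u p.1‖ * ‖H.gr u (H.Ex p.1 p.2)‖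
      * F (‖p.2‖ / ρ₀) (H.cy u p.1 p.2) (H.cx u p.1 p.2) * H.th p.1 p.2)) := by
  have h : (fun p : Ev n × Ev n => ENNReal.ofReal (‖H.gr u p.1‖ * ‖H.gr u (H.Ex p.1 p.2)‖
      * F (‖p.2‖ / ρ₀) (H.cy u p.1 p.2) (H.cx u p.1 p.2) * H.th p.1 p.2)) =
      fun p => ENNReal.ofReal (‖H.gr u p.1‖ * ‖H.gr u (H.Ex p.1 p.2)‖
      * F (‖p.2‖ / ρ₀) (H.cy u p.1 p.2) (H.cx u p.1 p.2)) * ENNReal.ofReal (H.th p.1 p.2) := by
    funext p
    exact ENNReal.ofReal_mul' (zero_le_one.trans (H.one_le_th p.1 p.2))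
  rw [h]
  exact (H.pr_meas1 hF hu ρ₀).mul H.th_cont.measurable.ennreal_ofReal

private theorem pr_meas3 {F : ℝ → ℝ → ℝ → ℝ}
    (hF : Measurable (fun p : ℝ × ℝ × ℝ => F p.1 p.2.1 p.2.2)) {u : Ev n → ℝ}
    (hu : ContDiff ℝ 1 u) (ρ₀ : ℝ) (x : Ev n) :
    Measurable (fun w : Ev n => ENNReal.ofReal (‖H.gr u x‖ * ‖H.gr u (H.Ex x w)‖
      * F (‖w‖ / ρ₀) (H.cy u x w) (H.cx u x w) * H.th x w)) :=
  Measurable.comp (g := fun p : Ev n × Ev n => ENNReal.ofReal (‖H.gr u p.1‖ *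
      ‖H.gr u (H.Ex p.1 p.2)‖ * F (‖p.2‖ / ρ₀) (H.cy u p.1 p.2) (H.cx u p.1 p.2) * H.th p.1 p.2))
    (f := fun w : Ev n => (x, w)) (H.pr_meas2 hF hu ρ₀) (measurable_const.prodMk measurable_id)

private theorem pr_meas4 {F : ℝ → ℝ → ℝ → ℝ}
    (hF : Measurable (fun p : ℝ × ℝ × ℝ => F p.1 p.2.1 p.2.2)) {u : Ev n → ℝ}
    (hu : ContDiff ℝ 1 u) (ρ₀ : ℝ) :
    Measurable (fun x : Ev n => ∫⁻ w : Ev n, ENNReal.ofReal (‖H.gr u x‖ * ‖H.gr u (H.Ex x w)‖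
      * F (‖w‖ / ρ₀) (H.cy u x w) (H.cx u x w) * H.th x w)) :=
  Measurable.lintegral_prod_right' (f := fun p : Ev n × Ev n => ENNReal.ofReal (‖H.gr u p.1‖ *
      ‖H.gr u (H.Ex p.1 p.2)‖ * F (‖p.2‖ / ρ₀) (H.cy u p.1 p.2) (H.cx u p.1 p.2) * H.th p.1 p.2))
    (H.pr_meas2 hF hu ρ₀)

/-- exchange of the two points in the pair functional -/
theorem Pair_swap {F : ℝ → ℝ → ℝ → ℝ}
    (hF : Measurable (fun p : ℝ × ℝ × ℝ => F p.1 p.2.1 p.2.2)) {u : Ev n → ℝ}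
    (hu : ContDiff ℝ 1 u) (ρ₀ : ℝ) :
    H.Pair F u ρ₀ = H.Pair (fun r c c' => F r c' c) u ρ₀ := by
  have key := H.swap (fun p : Ev n × Ev n =>
    ENNReal.ofReal (‖H.gr u p.1‖ * ‖H.gr u (H.Ex p.1 p.2)‖
      * F (‖p.2‖ / ρ₀) (H.cy u p.1 p.2) (H.cx u p.1 p.2))) (H.pr_meas1 hF hu ρ₀)
  have e1 : ∀ (a : ℝ) (x w : Ev n),
      ENNReal.ofReal (a * H.th x w) = ENNReal.ofReal a * ENNReal.ofReal (H.th x w) :=
    fun a x w => ENNReal.ofReal_mul' (zero_le_one.trans (H.one_le_th x w))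
  unfold Pair
  simp only [e1]
  rw [key]
  refine lintegral_congr fun x => lintegral_congr fun w => ?_
  simp only
  congr 2
  have c1 : H.cy u (H.Ex x w) (-(H.ve x w)) = H.cx u x w := by
    unfold cy cx
    rw [H.Ex_reverse, H.ve_reverse, norm_neg, H.norm_ve, inner_neg_right, neg_neg]
  have c2 : H.cx u (H.Ex x w) (-(H.ve x w)) = H.cy u x w := by
    unfold cy cx
    rw [norm_neg, H.norm_ve, inner_neg_right]
  rw [c1, c2, H.Ex_reverse, norm_neg, H.norm_ve]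
  ring

private theorem pr_A {u : Ev n → ℝ} (hu : ContDiff ℝ 1 u) (hs : HasCompactSupport u) :
    ∫⁻ x, ENNReal.ofReal ‖H.gr u x‖ ∂H.vol = ENNReal.ofReal (H.A u) := by
  unfold A
  rw [ofReal_integral_eq_lintegral_ofReal]
  · exact H.integrable_of_continuous (H.gr_cont hu).norm (H.gr_hasCompactSupport hs).norm
  · exact Filter.Eventually.of_forall fun x => norm_nonneg _

private theorem pr_A_exp {u : Ev n → ℝ} (hu : ContDiff ℝ 1 u) (hs : HasCompactSupport u)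
    (x : Ev n) :
    ∫⁻ w, ENNReal.ofReal ‖H.gr u (H.Ex x w)‖ * ENNReal.ofReal (H.th x w)
      = ENNReal.ofReal (H.A u) := by
  rw [← H.pr_A hu hs, H.lintegral_exp x]

/-- constants -/
theorem Pair_const {u : Ev n → ℝ} (hu : ContDiff ℝ 1 u) (hs : HasCompactSupport u) (ρ₀ : ℝ)
    {C : ℝ} (hC : 0 ≤ C) :
    H.Pair (fun _ _ _ => C) u ρ₀ = ENNReal.ofReal (C * H.A u ^ 2) := by
  unfold Pair
  have e1 : ∀ x w : Ev n, ENNReal.ofReal (‖H.gr u x‖ * ‖H.gr u (H.Ex x w)‖ * C * H.th x w)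
      = (ENNReal.ofReal ‖H.gr u x‖ * ENNReal.ofReal C) *
        (ENNReal.ofReal ‖H.gr u (H.Ex x w)‖ * ENNReal.ofReal (H.th x w)) := by
    intro x w
    rw [ENNReal.ofReal_mul' (zero_le_one.trans (H.one_le_th x w)), ENNReal.ofReal_mul' hC,
      ENNReal.ofReal_mul (norm_nonneg _)]
    ring
  have e2 : ∀ x : Ev n, ∫⁻ w, ENNReal.ofReal (‖H.gr u x‖ * ‖H.gr u (H.Ex x w)‖ * C * H.th x w)
      = ENNReal.ofReal ‖H.gr u x‖ * (ENNReal.ofReal C * ENNReal.ofReal (H.A u)) := by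
    intro x
    simp only [e1]
    rw [lintegral_const_mul' _ _ (ENNReal.mul_ne_top ENNReal.ofReal_ne_top ENNReal.ofReal_ne_top),
      H.pr_A_exp hu hs x, mul_assoc]
  simp only [e2]
  rw [lintegral_mul_const' _ _ (ENNReal.mul_ne_top ENNReal.ofReal_ne_top ENNReal.ofReal_ne_top),
    H.pr_A hu hs, ENNReal.ofReal_mul hC, ENNReal.ofReal_pow (H.A_nonneg u)]
  ring

/-- integration of the one-point inequality against `‖gr u x‖` -/
theorem Pair_le_of_FV {F : ℝ → ℝ → ℝ → ℝ}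
    (hF : Measurable (fun p : ℝ × ℝ × ℝ => F p.1 p.2.1 p.2.2)) {C : ℝ}
    (hC : ∀ r c c', |c| ≤ 1 → |c'| ≤ 1 → |F r c c'| ≤ C)
    (h0 : ∀ r c c', |c| ≤ 1 → |c'| ≤ 1 → 0 ≤ F r c c') {u : Ev n → ℝ} (hu : ContDiff ℝ 1 u)
    {K : Set (Ev n)} (hK : IsCompact K) (hs : tsupport u ⊆ K) (ρ₀ : ℝ) {E : ℝ}
    (hE : ∀ x ∈ K, ∀ e : Ev n, ‖e‖ = 1 → H.FV F u ρ₀ x e ≤ E) :
    H.Pair F u ρ₀ ≤ ENNReal.ofReal (E * H.A u) := by
  have hcs : HasCompactSupport u := hK.of_isClosed_subset (isClosed_tsupport u) hs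
  have key : ∀ x : Ev n, ∫⁻ w, ENNReal.ofReal (‖H.gr u x‖ * ‖H.gr u (H.Ex x w)‖
      * F (‖w‖ / ρ₀) (H.cy u x w) (H.cx u x w) * H.th x w)
      ≤ ENNReal.ofReal ‖H.gr u x‖ * ENNReal.ofReal E := by
    intro x
    rcases eq_or_ne (H.gr u x) 0 with hx | hx
    · simp [hx]
    · have hn : 0 < ‖H.gr u x‖ := norm_pos_iff.2 hx
      have hxK : x ∈ K := by
        by_contra hcon
        exact hx (H.gr_zero_of_not_mem fun h => hcon (hs h))
      set e : Ev n := ‖H.gr u x‖⁻¹ • H.gr u x with he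
      have he1 : ‖e‖ = 1 := by
        rw [he, norm_smul, norm_inv, norm_norm, inv_mul_cancel₀ hn.ne']
      have hcx : ∀ w : Ev n, H.cx u x w = inner ℝ w e / ‖w‖ := by
        intro w
        unfold cx
        rw [he, inner_smul_right, real_inner_comm]
        rw [mul_comm ‖H.gr u x‖ ‖w‖, ← div_div, div_right_comm]
        congr 1
        rw [div_eq_inv_mul]
      have e1 : ∀ w : Ev n, ENNReal.ofReal (‖H.gr u x‖ * ‖H.gr u (H.Ex x w)‖
          * F (‖w‖ / ρ₀) (H.cy u x w) (H.cx u x w) * H.th x w)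
          = ENNReal.ofReal ‖H.gr u x‖ * ENNReal.ofReal (‖H.gr u (H.Ex x w)‖
          * F (‖w‖ / ρ₀) (H.cy u x w) (inner ℝ w e / ‖w‖) * H.th x w) := by
        intro w
        rw [hcx w, ← ENNReal.ofReal_mul hn.le]
        congr 1
        ring
      simp only [e1]
      rw [lintegral_const_mul' _ _ ENNReal.ofReal_ne_top]
      refine mul_le_mul_right ?_ _
      have h2 := H.FV_integrable hF hC hu hcs ρ₀ x he1.le
      rw [← ofReal_integral_eq_lintegral_ofReal h2]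
      · exact ENNReal.ofReal_le_ofReal (hE x hxK e he1)
      · refine Filter.Eventually.of_forall fun w => ?_
        exact mul_nonneg (mul_nonneg (norm_nonneg _)
          (h0 _ _ _ (H.pr_abs_cy u x w) (pr_abs_e w e he1)))
          (zero_le_one.trans (H.one_le_th x w))
  unfold Pair
  refine (lintegral_mono key).trans ?_
  rw [lintegral_mul_const' _ _ ENNReal.ofReal_ne_top, H.pr_A hu hcs, mul_comm E,
    ENNReal.ofReal_mul (H.A_nonneg u)]

private theorem pr_add {F G : ℝ → ℝ → ℝ → ℝ}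
    (hF : Measurable (fun p : ℝ × ℝ × ℝ => F p.1 p.2.1 p.2.2))
    {ρ₀ : ℝ} (hρ : 0 < ρ₀)
    (hF0 : ∀ r c c', 0 ≤ r → |c| ≤ 1 → |c'| ≤ 1 → 0 ≤ F r c c')
    (hG0 : ∀ r c c', 0 ≤ r → |c| ≤ 1 → |c'| ≤ 1 → 0 ≤ G r c c')
    {u : Ev n → ℝ} (hu : ContDiff ℝ 1 u) :
    H.Pair (fun r c c' => F r c c' + G r c c') u ρ₀ = H.Pair F u ρ₀ + H.Pair G u ρ₀ := by
  unfold Pair
  have e1 : ∀ x w : Ev n, ENNReal.ofReal (‖H.gr u x‖ * ‖H.gr u (H.Ex x w)‖
      * (F (‖w‖ / ρ₀) (H.cy u x w) (H.cx u x w) + G (‖w‖ / ρ₀) (H.cy u x w) (H.cx u x w))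
      * H.th x w)
      = ENNReal.ofReal (‖H.gr u x‖ * ‖H.gr u (H.Ex x w)‖
        * F (‖w‖ / ρ₀) (H.cy u x w) (H.cx u x w) * H.th x w)
      + ENNReal.ofReal (‖H.gr u x‖ * ‖H.gr u (H.Ex x w)‖
        * G (‖w‖ / ρ₀) (H.cy u x w) (H.cx u x w) * H.th x w) := by
    intro x w
    have hr : 0 ≤ ‖w‖ / ρ₀ := div_nonneg (norm_nonneg _) hρ.le
    have ht : 0 ≤ H.th x w := zero_le_one.trans (H.one_le_th x w)
    have h1 := hF0 _ _ _ hr (H.pr_abs_cy u x w) (H.pr_abs_cx u x w)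
    have h2 := hG0 _ _ _ hr (H.pr_abs_cy u x w) (H.pr_abs_cx u x w)
    rw [← ENNReal.ofReal_add (by positivity) (by positivity)]
    congr 1
    ring
  rw [← lintegral_add_left (H.pr_meas4 hF hu ρ₀)]
  refine lintegral_congr fun x => ?_
  rw [← lintegral_add_left (H.pr_meas3 hF hu ρ₀ x)]
  exact lintegral_congr fun w => e1 x w

theorem pair_upper {u : Ev n → ℝ} (hu : ContDiff ℝ 1 u)
    {K : Set (Ev n)} (hK : IsCompact K) (hs : tsupport u ⊆ K) {ρ₀ : ℝ} (hρ : 0 < ρ₀) {ε : ℝ}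
    (hε : 0 ≤ ε)
    (hE : ∀ x ∈ K, ∀ e : Ev n, ‖e‖ = 1 → H.FV k.g u ρ₀ x e ≤ ε * H.A u) :
    H.Pair k.B u ρ₀ ≤ ENNReal.ofReal ((k.a + ε) * H.A u ^ 2) := by
  have hcs : HasCompactSupport u := hK.of_isClosed_subset (isClosed_tsupport u) hs
  obtain ⟨C0, hC0, hb⟩ := k.g_bounded
  have ha := k.a_pos
  set C : ℝ := C0 + k.a with hCdef
  have hCpos : 0 < C := by linarith
  have hAn := H.A_nonneg u
  have hg : ∀ r c c', |c| ≤ 1 → |c'| ≤ 1 → |k.g r c c'| ≤ C0 :=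
    fun r c c' h1 h2 => (hb r c c' h1 h2).1
  have hF0 : ∀ r c c', |c| ≤ 1 → |c'| ≤ 1 → 0 ≤ k.g r c c' + C := by
    intro r c c' h1 h2
    have := (abs_le.1 (hg r c c' h1 h2)).1
    linarith
  have hFC : ∀ r c c', |c| ≤ 1 → |c'| ≤ 1 → |k.g r c c' + C| ≤ C0 + C := by
    intro r c c' h1 h2
    have h3 := abs_le.1 (hg r c c' h1 h2)
    rw [abs_le]
    constructor <;> linarith [h3.1, h3.2]
  have hmF : Measurable (fun p : ℝ × ℝ × ℝ => k.g p.1 p.2.1 p.2.2 + C) :=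
    k.g_measurable.add_const C
  -- the one point functional of `g + C`
  have hFV : ∀ x ∈ K, ∀ e : Ev n, ‖e‖ = 1 →
      H.FV (fun r c c' => k.g r c c' + C) u ρ₀ x e ≤ (ε + C) * H.A u := by
    intro x hx e he
    have h1 := H.FV_integrable k.g_measurable hg hu hcs ρ₀ x he.le
    have h2 : Integrable (fun w => C * (‖H.gr u (H.Ex x w)‖ * H.th x w)) := by
      have h3 : Integrable (fun y => ‖H.gr u y‖) H.vol :=
        H.integrable_of_continuous (H.gr_cont hu).norm (H.gr_hasCompactSupport hcs).norm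
      have h4 := (H.integrable_exp_iff x _).1 h3
      refine (h4.const_mul C).congr (Filter.Eventually.of_forall fun w => ?_)
      simp only
      ring
    have h5 : H.FV (fun r c c' => k.g r c c' + C) u ρ₀ x e
        = H.FV k.g u ρ₀ x e + C * H.A u := by
      rw [H.A_eq_exp u x, ← integral_const_mul]
      unfold FV
      rw [← integral_add h1 h2]
      refine integral_congr_ae (Filter.Eventually.of_forall fun w => ?_)
      simp only
      ring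
    rw [h5]
    have := hE x hx e he
    linarith
  have hup := H.Pair_le_of_FV (F := fun r c c' => k.g r c c' + C) hmF hFC hF0 hu hK hs ρ₀ hFV
  have hsw := H.Pair_swap (F := fun r c c' => k.g r c c' + C) hmF hu ρ₀
  have hmFt : Measurable (fun p : ℝ × ℝ × ℝ => k.g p.1 p.2.2 p.2.1 + C) :=
    hmF.comp (measurable_fst.prodMk
      ((measurable_snd.comp measurable_snd).prodMk (measurable_fst.comp measurable_snd)))
  have hsum := H.pr_add (F := fun r c c' => k.g r c c' + C)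
    (G := fun r c c' => k.g r c' c + C) hmF hρ
    (fun r c c' _ h1 h2 => hF0 r c c' h1 h2) (fun r c c' _ h1 h2 => hF0 r c' c h2 h1) hu
  have hB0 : ∀ r c c', 0 ≤ r → |c| ≤ 1 → |c'| ≤ 1 → 0 ≤ k.B r c c' := k.B_nonneg'
  have hmB := k.B_measurable
  have hCa : 0 ≤ C - k.a := by linarith
  have hb1 := H.pr_add (F := k.B) (G := fun _ _ _ => C - k.a) hmB hρ hB0
    (fun _ _ _ _ _ _ => hCa) hu
  have hmB2 : Measurable (fun p : ℝ × ℝ × ℝ => k.B p.1 p.2.1 p.2.2 + (C - k.a)) :=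
    hmB.add_const _
  have hb2 := H.pr_add (F := fun r c c' => k.B r c c' + (C - k.a))
    (G := fun r c c' => k.B r c c' + (C - k.a)) hmB2 hρ
    (fun r c c' h1 h2 h3 => add_nonneg (hB0 r c c' h1 h2 h3) hCa)
    (fun r c c' h1 h2 h3 => add_nonneg (hB0 r c c' h1 h2 h3) hCa) hu
  have hfun : (fun r c c' => (k.g r c c' + C) + (k.g r c' c + C))
      = fun r c c' => (k.B r c c' + (C - k.a)) + (k.B r c c' + (C - k.a)) := by
    funext r c c'
    unfold Ker.B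
    ring
  rw [hfun, hb2, hb1, ← hsw] at hsum
  have hle : (H.Pair k.B u ρ₀ + H.Pair (fun _ _ _ => C - k.a) u ρ₀)
      + (H.Pair k.B u ρ₀ + H.Pair (fun _ _ _ => C - k.a) u ρ₀)
      ≤ ENNReal.ofReal ((ε + C) * H.A u * H.A u) + ENNReal.ofReal ((ε + C) * H.A u * H.A u) := by
    rw [hsum]
    exact add_le_add hup hup
  rw [H.Pair_const hu hcs ρ₀ hCa, ← two_mul, ← two_mul] at hle
  have hle2 : H.Pair k.B u ρ₀ + ENNReal.ofReal ((C - k.a) * H.A u ^ 2)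
      ≤ ENNReal.ofReal ((ε + C) * H.A u * H.A u) :=
    (ENNReal.mul_le_mul_iff_right two_ne_zero ENNReal.ofNat_ne_top).1 hle
  have hsplit : ENNReal.ofReal ((ε + C) * H.A u * H.A u)
      = ENNReal.ofReal ((k.a + ε) * H.A u ^ 2) + ENNReal.ofReal ((C - k.a) * H.A u ^ 2) := by
    rw [← ENNReal.ofReal_add (by positivity) (by positivity)]
    congr 1
    ring
  rw [hsplit] at hle2
  exact (ENNReal.add_le_add_iff_right ENNReal.ofReal_ne_top).1 hle2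

end HData

end Vale.Agent.Lib.P219
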