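import Vale.Agent.Lib.P219.A.FirstVar
import Vale.Agent.Lib.P219.A.Pair
import Vale.Agent.Lib.P219.A.Lower3

/-! # P219 Part A: conclusion for one regularised certificate -/

namespace Vale.Agent.Lib.P219

open MeasureTheory Set Filter Topology
open scoped ENNReal

namespace HData

variable {n : ℕ} (H : HData n) (k : Ker n)

private theorem concl_K'_nonneg (hn : 2 ≤ n) : 0 ≤ k.K' := by
  have he : ‖(EuclideanSpace.single (⟨0, by omega⟩ : Fin n) (1 : ℝ) : Ev n)‖ = 1 := by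
    rw [EuclideanSpace.norm_single, norm_one]
  refine le_trans ?_ (k.K'_bound _ he)
  exact integral_nonneg fun ω => mul_nonneg (abs_nonneg _) (k.f_nonneg _)

private theorem concl_sq {K : Set (Ev n)} (hK : IsCompact K) {h : ℝ} {u : Ev n → ℝ}
    (hu : H.Adm K h u) : (1 - h) * H.V u ≤ ∫ x, u x ^ 2 ∂H.vol := by
  have hs : HasCompactSupport u := hK.of_isClosed_subset (isClosed_tsupport u) hu.supp
  have hi : Integrable u H.vol := H.integrable_of_continuous hu.smooth.continuous hs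
  have hs2 : HasCompactSupport (fun x => u x ^ 2) := by
    refine HasCompactSupport.intro hs fun x hx => ?_
    rw [image_eq_zero_of_notMem_tsupport hx]
    norm_num
  have hi2 : Integrable (fun x => u x ^ 2) H.vol :=
    H.integrable_of_continuous (hu.smooth.continuous.pow 2) hs2
  have h1 : ∫ x, u x * (1 - u x) ∂H.vol = H.V u - ∫ x, u x ^ 2 ∂H.vol := by
    unfold V
    rw [← integral_sub hi hi2]
    refine integral_congr_ae (Filter.Eventually.of_forall fun x => ?_)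
    show u x * (1 - u x) = u x - u x ^ 2
    ring
  have h2 := hu.layer
  rw [h1] at h2
  linarith

/-- numerical inequality for one near-minimiser -/
theorem near_ineq (hn : 2 ≤ n) {K : Set (Ev n)} (hK : IsCompact K) {h : ℝ} {u : Ev n → ℝ}
    (hu : H.Adm K h u) (hA : 0 < H.A u) {ε : ℝ} (hε : 0 ≤ ε)
    (hE : ∀ x ∈ K, ∀ e : Ev n, ‖e‖ = 1 →
      H.FV k.g u (n * H.V u / H.A u) x e ≤ ε * H.A u) :
    (n * H.V u / H.A u) ^ (n - 1) * (k.d * om n * (1 - h) - k.K') ≤ (k.a + ε) * H.A u := by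
  have hV : 0 < H.V u := hu.mass_pos
  have hn0 : (0 : ℝ) < n := by
    have : 0 < n := by omega
    exact_mod_cast this
  have hρ : 0 < n * H.V u / H.A u := by positivity
  obtain ⟨ρ, hρdef⟩ : ∃ ρ, ρ = n * H.V u / H.A u := ⟨_, rfl⟩
  rw [← hρdef] at hE hρ ⊢
  have hL := H.pair_lower k hn hK hu.smooth hu.supp hu.nonneg hu.le_one hρ
  have hU := H.pair_upper k hu.smooth hK hu.supp hρ hε hE
  have hK' : 0 ≤ k.K' := concl_K'_nonneg k hn
  have hP : 0 ≤ ρ ^ (n - 1) := by positivity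
  have h1 : ρ ^ (n - 1) * (k.d / ρ) * (n * om n * ∫ x, u x ^ 2 ∂H.vol)
      ≤ (k.a + ε) * H.A u ^ 2 + ρ ^ (n - 1) * (k.K' * H.A u) := by
    have h2 := hL.trans (add_le_add_left hU _)
    have ha := k.a_pos
    have h3 : 0 ≤ (k.a + ε) * H.A u ^ 2 := by positivity
    have h4 : 0 ≤ ρ ^ (n - 1) * (k.K' * H.A u) := by positivity
    rw [← ENNReal.ofReal_add h3 h4] at h2
    exact (ENNReal.ofReal_le_ofReal_iff (by positivity)).1 h2
  have hom : 0 ≤ om n := ENNReal.toReal_nonneg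
  have hd := k.d_pos
  have h5 : ρ ^ (n - 1) * (k.d / ρ) * (n * om n * ((1 - h) * H.V u))
      ≤ ρ ^ (n - 1) * (k.d / ρ) * (n * om n * ∫ x, u x ^ 2 ∂H.vol) := by
    refine mul_le_mul_of_nonneg_left ?_ (by positivity)
    exact mul_le_mul_of_nonneg_left (concl_sq H hK hu) (by positivity)
  have h6 : ρ * H.A u = n * H.V u := by
    rw [hρdef]
    exact div_mul_cancel₀ _ hA.ne'
  have h7 : ρ ^ (n - 1) * (k.d / ρ) * (n * om n * ((1 - h) * H.V u))
      = (ρ ^ (n - 1) * (k.d * om n * (1 - h))) * H.A u := by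
    have h8 : k.d / ρ * (n * H.V u) = k.d * H.A u := by
      rw [← h6]
      field_simp
    calc ρ ^ (n - 1) * (k.d / ρ) * (n * om n * ((1 - h) * H.V u))
        = ρ ^ (n - 1) * (k.d / ρ * (n * H.V u)) * om n * (1 - h) := by ring
      _ = (ρ ^ (n - 1) * (k.d * om n * (1 - h))) * H.A u := by rw [h8]; ring
  rw [h7] at h5
  have h9 := h5.trans h1
  refine le_of_mul_le_mul_right ?_ hA
  calc ρ ^ (n - 1) * (k.d * om n * (1 - h) - k.K') * H.A u
      = (ρ ^ (n - 1) * (k.d * om n * (1 - h))) * H.A u - ρ ^ (n - 1) * (k.K' * H.A u) := by ring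
    _ ≤ (k.a + ε) * H.A u ^ 2 := by linarith
    _ = (k.a + ε) * H.A u * H.A u := by ring

private theorem concl_main_eps (hn : 2 ≤ n) {K : Set (Ev n)} (hK : IsCompact K) (hc : H.Conv K)
    {c₀ : ℝ} (hN : H.Near K c₀) {ε : ℝ} (hε : 0 < ε) :
    (n : ℝ) ^ (n - 1) * (k.d * om n * (1 - ε) - k.K') ≤ (k.a + ε) * ((1 + ε) * c₀) ^ n := by
  obtain ⟨hc₀, hN⟩ := hN
  obtain ⟨ε₁, hε₁, hFV⟩ := H.first_var k hn hK hc hc₀ hε
  obtain ⟨ε₂, hε₂⟩ : ∃ ε₂, ε₂ = min (min ε₁ ε) (1 / 2) := ⟨_, rfl⟩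
  have e0 : 0 < ε₂ := by rw [hε₂]; positivity
  have e1 : ε₂ ≤ ε₁ := by rw [hε₂]; exact (min_le_left _ _).trans (min_le_left _ _)
  have e2 : ε₂ ≤ ε := by rw [hε₂]; exact (min_le_left _ _).trans (min_le_right _ _)
  have e3 : ε₂ ≤ 1 / 2 := by rw [hε₂]; exact min_le_right _ _
  obtain ⟨h₀, hh₀, hlow, hup⟩ := hN ε₂ e0
  obtain ⟨h, hh⟩ : ∃ h, h = min (h₀ / 4) ε := ⟨_, rfl⟩
  have f0 : 0 < h := by rw [hh]; positivity
  have f1 : h ≤ h₀ / 4 := by rw [hh]; exact min_le_left _ _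
  have f2 : h ≤ ε := by rw [hh]; exact min_le_right _ _
  obtain ⟨u, hu, hAu⟩ := hup h f0
  have hV : 0 < H.V u := hu.mass_pos
  have hVp : ∀ v : Ev n → ℝ, 0 < H.V v → 0 < (H.V v) ^ (((n : ℝ) - 1) / n) :=
    fun v hv => Real.rpow_pos_of_pos hv _
  have hA : 0 < H.A u := by
    have h1 := hlow u (hu.mono H (by linarith))
    have h2 : 0 < (1 - ε₂) * c₀ * (H.V u) ^ (((n : ℝ) - 1) / n) := by
      have h3 : 0 < 1 - ε₂ := by linarith
      have h4 := hVp u hV
      positivity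
    linarith
  have hE := hFV h u hu (hAu.trans (by
      have h4 := (hVp u hV).le
      refine mul_le_mul_of_nonneg_right ?_ h4
      refine mul_le_mul_of_nonneg_right ?_ hc₀.le
      linarith)) (fun v hv => by
      have h1 := hlow v (hv.mono H (by linarith))
      refine le_trans ?_ h1
      have h4 := (hVp v hv.mass_pos).le
      refine mul_le_mul_of_nonneg_right ?_ h4
      refine mul_le_mul_of_nonneg_right ?_ hc₀.le
      linarith)
  have hmain := H.near_ineq k hn hK hu hA hε.le hE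
  have hom : 0 ≤ om n := ENNReal.toReal_nonneg
  have hd := k.d_pos
  have ha := k.a_pos
  have hn0 : (0 : ℝ) < n := by
    have : 0 < n := by omega
    exact_mod_cast this
  -- the power inequality
  have hpow : H.A u ^ n ≤ ((1 + ε) * c₀) ^ n * H.V u ^ (n - 1) := by
    have h1 : H.A u ≤ (1 + ε) * c₀ * (H.V u) ^ (((n : ℝ) - 1) / n) := by
      refine hAu.trans ?_
      have h4 := (hVp u hV).le
      refine mul_le_mul_of_nonneg_right ?_ h4
      refine mul_le_mul_of_nonneg_right ?_ hc₀.le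
      linarith
    have h2 : ((H.V u) ^ (((n : ℝ) - 1) / n)) ^ n = H.V u ^ (n - 1) := by
      rw [← Real.rpow_natCast, ← Real.rpow_mul hV.le, div_mul_cancel₀ _ hn0.ne',
        ← Real.rpow_natCast]
      congr 1
      have : 1 ≤ n := by omega
      push_cast [Nat.cast_sub this]
      ring
    calc H.A u ^ n ≤ ((1 + ε) * c₀ * (H.V u) ^ (((n : ℝ) - 1) / n)) ^ n :=
          pow_le_pow_left₀ hA.le h1 n
      _ = _ := by rw [mul_pow, h2]
  obtain ⟨X, hX⟩ : ∃ X, X = k.d * om n * (1 - h) - k.K' := ⟨_, rfl⟩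
  rw [← hX] at hmain
  have hX1 : k.d * om n * (1 - ε) - k.K' ≤ X := by
    rw [hX]
    have h1 : k.d * om n * (1 - ε) ≤ k.d * om n * (1 - h) :=
      mul_le_mul_of_nonneg_left (by linarith) (by positivity)
    linarith
  have hX2 : (n : ℝ) ^ (n - 1) * X * H.V u ^ (n - 1) ≤ (k.a + ε) * H.A u ^ n := by
    have hAp : 0 < H.A u ^ (n - 1) := by positivity
    have h2 := mul_le_mul_of_nonneg_right hmain hAp.le
    have h3 : (n * H.V u / H.A u) ^ (n - 1) * X * H.A u ^ (n - 1)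
        = (n : ℝ) ^ (n - 1) * X * H.V u ^ (n - 1) := by
      rw [div_pow, mul_pow]
      field_simp
    have h4 : (k.a + ε) * H.A u * H.A u ^ (n - 1) = (k.a + ε) * H.A u ^ n := by
      have h5 : H.A u ^ n = H.A u * H.A u ^ (n - 1) := by
        rw [← pow_succ']
        congr 1
        omega
      rw [h5]
      ring
    rw [h3, h4] at h2
    exact h2
  have hVpow : 0 < H.V u ^ (n - 1) := by positivity
  refine le_of_mul_le_mul_right ?_ hVpow
  calc (n : ℝ) ^ (n - 1) * (k.d * om n * (1 - ε) - k.K') * H.V u ^ (n - 1)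
      ≤ (n : ℝ) ^ (n - 1) * X * H.V u ^ (n - 1) := by
        refine mul_le_mul_of_nonneg_right ?_ hVpow.le
        exact mul_le_mul_of_nonneg_left hX1 (by positivity)
    _ ≤ (k.a + ε) * H.A u ^ n := hX2
    _ ≤ (k.a + ε) * (((1 + ε) * c₀) ^ n * H.V u ^ (n - 1)) :=
        mul_le_mul_of_nonneg_left hpow (by positivity)
    _ = _ := by ring

theorem main_k (hn : 2 ≤ n) {K : Set (Ev n)} (hK : IsCompact K) (hc : H.Conv K) {c₀ : ℝ}
    (hN : H.Near K c₀) :
    (n : ℝ) ^ (n - 1) * (k.d * om n - k.K') ≤ k.a * c₀ ^ n := by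
  have h1 : Tendsto (fun ε : ℝ => (n : ℝ) ^ (n - 1) * (k.d * om n * (1 - ε) - k.K')) (𝓝[>] 0)
      (𝓝 ((n : ℝ) ^ (n - 1) * (k.d * om n - k.K'))) := by
    have h : Continuous (fun ε : ℝ => (n : ℝ) ^ (n - 1) * (k.d * om n * (1 - ε) - k.K')) := by
      fun_prop
    have h2 := (h.tendsto 0).mono_left (nhdsWithin_le_nhds (s := Ioi 0))
    simpa using h2
  have h2 : Tendsto (fun ε : ℝ => (k.a + ε) * ((1 + ε) * c₀) ^ n) (𝓝[>] 0)
      (𝓝 (k.a * c₀ ^ n)) := by
    have h : Continuous (fun ε : ℝ => (k.a + ε) * ((1 + ε) * c₀) ^ n) := by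
      fun_prop
    have h2 := (h.tendsto 0).mono_left (nhdsWithin_le_nhds (s := Ioi 0))
    simpa using h2
  refine le_of_tendsto_of_tendsto h1 h2 ?_
  filter_upwards [self_mem_nhdsWithin] with ε hε
  exact concl_main_eps H k hn hK hc hN hε

end HData

end Vale.Agent.Lib.P219
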