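import Vale.Agent.Lib.P219.A.Comp

/-! # P219 Part A: the layer integral of the transported function -/

namespace Vale.Agent.Lib.P219

open MeasureTheory Set Filter Topology

namespace HData

variable {n : ℕ} (H : HData n) (k : Ker n)

/-- the Jacobian of the contraction is at most 2 -/
theorem layer_le (hn : 1 ≤ n) (x : Ev n) {e : Ev n} (he : ‖e‖ = 1) {τ ρ₀ : ℝ} (hτ : 0 ≤ τ)
    (hτ' : τ ≤ k.τ₀) (hρ : 0 < ρ₀) (G : ℝ → ℝ) (hG : Continuous G) (hG0 : ∀ s, 0 ≤ s → s ≤ 1 → 0 ≤ G s)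
    (hG1 : G 0 = 0) {u v : Ev n → ℝ} (hu : ContDiff ℝ 1 u) (hus : HasCompactSupport u)
    (h0 : ∀ y, 0 ≤ u y) (h1 : ∀ y, u y ≤ 1) (hv : ContDiff ℝ 1 v)
    (huv : ∀ w, v (H.Ex x (k.phi τ ρ₀ e w)) = u (H.Ex x w)) :
    ∫ y, G (v y) ∂H.vol ≤ 2 * ∫ y, G (u y) ∂H.vol := by
  rw [H.integral_comp k hn x he hτ hτ' hρ (fun y => G (v y)), H.integral_exp x (fun y => G (u y)),
    ← integral_const_mul]
  have hGu : ∀ y, 0 ≤ G (u y) := fun y => hG0 _ (h0 y) (h1 y)
  have hint : Integrable (fun w => H.th x w * G (u (H.Ex x w))) := by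
    refine (H.integrable_exp_iff x (fun y => G (u y))).mp ?_
    exact H.integrable_of_continuous (hG.comp hu.continuous) (hus.comp_left hG1)
  have : Nonempty (Fin n) := ⟨⟨0, hn⟩⟩
  have : Nontrivial (Ev n) := inferInstance
  refine integral_mono_of_nonneg ?_ (hint.const_mul 2) ?_
  · refine Filter.Eventually.of_forall fun w => ?_
    simp only [huv]
    exact mul_nonneg (hGu _) (mul_nonneg (abs_nonneg _) (abs_nonneg _))
  · have hae : ∀ᵐ w : Ev n, w ≠ 0 := by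
      exact compl_mem_ae_iff.mpr (measure_singleton 0)
    filter_upwards [hae] with w hw
    simp only [huv]
    have nw : 0 < ‖w‖ := norm_pos_iff.mpr hw
    have hcos : |(inner ℝ w e : ℝ) / ‖w‖| ≤ 1 := by
      rw [abs_div, abs_norm, div_le_one nw]
      have := abs_real_inner_le_norm w e
      rwa [he, mul_one] at this
    obtain ⟨m1, m2, -⟩ := k.mu_mem hτ hτ' hρ he w
    obtain ⟨r1, r2⟩ := k.rho_deriv_mem hτ hτ' (‖w‖ / ρ₀) _ hcos
    have hdet : |(fderiv ℝ (k.phi τ ρ₀ e) w).det| ≤ 2 := by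
      rw [k.det_fderiv_phi hn hρ he w hw, abs_mul, abs_pow]
      have a1 : |1 - τ * k.ηr (‖w‖ / ρ₀) (inner ℝ w e / ‖w‖)| ≤ 2 := by
        rw [abs_le]; constructor <;> linarith
      have a2 : |k.mu τ ρ₀ e w| ^ (n - 1) ≤ 1 :=
        pow_le_one₀ (abs_nonneg _) (by rw [abs_le]; constructor <;> linarith)
      calc _ ≤ 2 * 1 := mul_le_mul a1 a2 (by positivity) (by norm_num)
        _ = 2 := by norm_num
    have hth : H.th x (k.phi τ ρ₀ e w) ≤ H.th x w := by
      have h := H.th_mono x w (s := k.mu τ ρ₀ e w) (t := 1) (by linarith) m2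
      rw [one_smul] at h
      exact h
    have hth0 : 0 ≤ H.th x (k.phi τ ρ₀ e w) := abs_nonneg _
    have key : H.th x (k.phi τ ρ₀ e w) * |(fderiv ℝ (k.phi τ ρ₀ e) w).det| ≤ H.th x w * 2 :=
      mul_le_mul hth hdet (abs_nonneg _) (hth0.trans hth)
    calc G (u (H.Ex x w)) * (H.th x (k.phi τ ρ₀ e w) * |(fderiv ℝ (k.phi τ ρ₀ e) w).det|)
        ≤ G (u (H.Ex x w)) * (H.th x w * 2) := mul_le_mul_of_nonneg_left key (hGu _)
      _ = 2 * (H.th x w * G (u (H.Ex x w))) := by ring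

end HData

end Vale.Agent.Lib.P219
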