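import Vale.Agent.Lib.P219.A.Phi
import Vale.Agent.Lib.P219.A.Basic

/-! # P219 Part A: uniform modulus of the Jacobian along the contraction -/

namespace Vale.Agent.Lib.P219

open MeasureTheory Set Filter Topology

namespace HData

variable {n : ℕ} (H : HData n) (k : Ker n)

theorem modulus {K : Set (Ev n)} (hK : IsCompact K) {om : ℝ} (hom : 0 < om) :
    ∃ τ₁ > 0, τ₁ ≤ k.τ₀ ∧ ∀ τ, 0 ≤ τ → τ ≤ τ₁ → ∀ ρ₀ > 0, ∀ x ∈ K, ∀ e : Ev n, ‖e‖ = 1 →
      ∀ w, H.Ex x w ∈ K →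
      (1 - om) * H.th x w ≤ H.th x (k.phi τ ρ₀ e w) * k.mu τ ρ₀ e w ^ (n - 1) := by
  obtain ⟨R0, hR0⟩ := H.exp_proper K hK
  set R : ℝ := max R0 1 with hR
  have hR1 : 1 ≤ R := le_max_right _ _
  have hRpos : 0 < R := lt_of_lt_of_le one_pos hR1
  have hcomp : IsCompact (K ×ˢ Metric.closedBall (0 : Ev n) R) :=
    hK.prod (isCompact_closedBall 0 R)
  have huc : UniformContinuousOn (fun p : Ev n × Ev n => H.th p.1 p.2)
      (K ×ˢ Metric.closedBall (0 : Ev n) R) :=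
    hcomp.uniformContinuousOn_of_continuous H.th_cont.continuousOn
  obtain ⟨δ', hδ', huc'⟩ := Metric.uniformContinuousOn_iff.1 huc (om / 2) (half_pos hom)
  set C : ℝ := k.M / k.δ with hC
  have hCpos : 0 < C := div_pos k.M_pos k.δ_pos
  have hn1 : (0 : ℝ) < (n : ℝ) + 1 := by positivity
  refine ⟨min k.τ₀ (min (δ' / (2 * C * R)) (om / (2 * (n + 1) * C))), ?_, min_le_left _ _, ?_⟩
  · exact lt_min k.τ₀_pos (lt_min (by positivity) (by positivity))
  intro τ hτ0 hτ ρ₀ hρ x hx e he w hw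
  have hτ1 : τ ≤ k.τ₀ := hτ.trans (min_le_left _ _)
  have hτ2 : τ ≤ δ' / (2 * C * R) := hτ.trans ((min_le_right _ _).trans (min_le_left _ _))
  have hτ3 : τ ≤ om / (2 * (n + 1) * C) := hτ.trans ((min_le_right _ _).trans (min_le_right _ _))
  obtain ⟨hm1, hm2, hm3⟩ := k.mu_mem hτ0 hτ1 hρ he w
  set μ := k.mu τ ρ₀ e w with hμ
  have hwR : ‖w‖ ≤ R := (hR0 x hx w hw).trans (le_max_left _ _)
  have hth : 1 ≤ H.th x w := H.one_le_th x w
  have hthp : 1 ≤ H.th x (k.phi τ ρ₀ e w) := H.one_le_th x _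
  have hphi : k.phi τ ρ₀ e w = μ • w := rfl
  have hclose : |H.th x w - H.th x (k.phi τ ρ₀ e w)| < om / 2 := by
    have h1 : (x, w) ∈ K ×ˢ Metric.closedBall (0 : Ev n) R :=
      ⟨hx, mem_closedBall_zero_iff.2 hwR⟩
    have h2 : (x, k.phi τ ρ₀ e w) ∈ K ×ˢ Metric.closedBall (0 : Ev n) R := by
      refine ⟨hx, mem_closedBall_zero_iff.2 ?_⟩
      rw [hphi, norm_smul, Real.norm_of_nonneg (by linarith)]
      calc μ * ‖w‖ ≤ 1 * ‖w‖ := mul_le_mul_of_nonneg_right hm2 (norm_nonneg _)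
        _ = ‖w‖ := one_mul _
        _ ≤ R := hwR
    have h3 : dist (x, w) (x, k.phi τ ρ₀ e w) < δ' := by
      rw [Prod.dist_eq, dist_self, max_eq_right dist_nonneg, dist_eq_norm, hphi]
      have h4 : w - μ • w = (1 - μ) • w := by rw [sub_smul, one_smul]
      rw [h4, norm_smul, Real.norm_of_nonneg (by linarith)]
      have h5 : (1 - μ) * ‖w‖ ≤ τ * C * R := by
        apply mul_le_mul hm3 hwR (norm_nonneg _)
        positivity
      have h6 : τ * C * R ≤ δ' / 2 := by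
        have h7 := mul_le_mul_of_nonneg_right hτ2 (show (0 : ℝ) ≤ C * R by positivity)
        have h8 : δ' / (2 * C * R) * (C * R) = δ' / 2 := by
          field_simp
        rw [h8] at h7
        linarith
      linarith
    have h9 := huc' _ h1 _ h2 h3
    rwa [Real.dist_eq] at h9
  have hpow : 1 - om / 2 ≤ μ ^ (n - 1) := by
    have h1 : 1 + ((n - 1 : ℕ) : ℝ) * (μ - 1) ≤ (1 + (μ - 1)) ^ (n - 1) :=
      one_add_mul_le_pow (by linarith) (n - 1)
    have h2 : (1 : ℝ) + (μ - 1) = μ := by ring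
    rw [h2] at h1
    refine le_trans ?_ h1
    have h3 : ((n - 1 : ℕ) : ℝ) ≤ (n : ℝ) + 1 := by
      have : ((n - 1 : ℕ) : ℝ) ≤ (n : ℝ) := Nat.cast_le.2 (Nat.sub_le n 1)
      linarith
    have h4 : ((n - 1 : ℕ) : ℝ) * (1 - μ) ≤ ((n : ℝ) + 1) * (τ * C) := by
      apply mul_le_mul h3 hm3 (by linarith) (by positivity)
    have h5 : ((n : ℝ) + 1) * (τ * C) ≤ om / 2 := by
      have h7 := mul_le_mul_of_nonneg_right hτ3 (show (0 : ℝ) ≤ ((n : ℝ) + 1) * C by positivity)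
      have h8 : om / (2 * ((n : ℝ) + 1) * C) * (((n : ℝ) + 1) * C) = om / 2 := by
        field_simp
      rw [h8] at h7
      linarith
    linarith
  have hpow0 : 0 ≤ μ ^ (n - 1) := pow_nonneg (by linarith) _
  rcases le_or_gt 1 om with hom1 | hom1
  · have h1 : (1 - om) * H.th x w ≤ 0 :=
      mul_nonpos_of_nonpos_of_nonneg (by linarith) (by linarith)
    exact h1.trans (mul_nonneg (by linarith) hpow0)
  · have h1 : (1 - om / 2) * H.th x w ≤ H.th x (k.phi τ ρ₀ e w) := by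
      have h2 := (abs_lt.1 hclose).2
      nlinarith
    have h3 : (1 - om / 2) * H.th x w * (1 - om / 2) ≤
        H.th x (k.phi τ ρ₀ e w) * μ ^ (n - 1) :=
      mul_le_mul h1 hpow (by linarith) (by linarith)
    refine le_trans ?_ h3
    nlinarith [mul_nonneg (sq_nonneg om) (by linarith : (0 : ℝ) ≤ H.th x w)]

end HData

end Vale.Agent.Lib.P219
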