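import Mathlib.Algebra.Order.Star.Real
import Mathlib.Analysis.SpecialFunctions.Log.Deriv
import Mathlib.Analysis.SpecialFunctions.Pow.Real

/-! # P219 Part A: an elementary inequality -/

namespace Vale.Agent.Lib.P219

private theorem log_one_sub_ge_aux {z : ℝ} (hz : |z| ≤ 1 / 2) :
    -z - z ^ 2 ≤ Real.log (1 - z) := by
  have hz1 : |z| < 1 := by linarith
  have h := Real.abs_log_sub_add_sum_range_le hz1 4
  simp only [Finset.sum_range_succ, Finset.sum_range_zero] at h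
  norm_num at h
  have h2 : |z| ^ 5 / (1 - |z|) ≤ 2 * |z| ^ 5 := by
    rw [div_le_iff₀ (by linarith)]
    nlinarith [pow_nonneg (abs_nonneg z) 5]
  have h3 := (abs_le.mp (h.trans h2)).1
  have ha := abs_nonneg z
  have h5 : |z| ^ 5 ≤ 1 / 8 * z ^ 2 := by
    have e1 : |z| ^ 3 ≤ (1 / 2) ^ 3 := pow_le_pow_left₀ ha hz 3
    have e2 : |z| ^ 5 = |z| ^ 3 * |z| ^ 2 := by ring
    rw [e2, sq_abs]
    nlinarith [sq_nonneg z]
  have h4 : z ^ 4 ≤ 1 / 4 * z ^ 2 := by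
    have e1 : z ^ 2 ≤ (1 / 2) ^ 2 := by
      rw [← sq_abs]
      exact pow_le_pow_left₀ ha hz 2
    nlinarith [sq_nonneg z]
  have h33 : z ^ 3 ≤ 1 / 2 * z ^ 2 := by
    have e1 : z ≤ 1 / 2 := (le_abs_self z).trans hz
    nlinarith [sq_nonneg z]
  nlinarith [sq_nonneg z]

theorem one_sub_rpow_ge {α z : ℝ} (h0 : 0 ≤ α) (h1 : α ≤ 1) (hz : |z| ≤ 1 / 2) :
    1 - α * z - z ^ 2 ≤ (1 - z) ^ α := by
  have hz2 := (abs_le.mp hz).2
  have hpos : 0 < 1 - z := by linarith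
  rw [Real.rpow_def_of_pos hpos]
  have h3 := Real.add_one_le_exp (Real.log (1 - z) * α)
  have h4 := log_one_sub_ge_aux hz
  have h5 : (-z - z ^ 2) * α ≤ Real.log (1 - z) * α := mul_le_mul_of_nonneg_right h4 h0
  nlinarith [sq_nonneg z]

end Vale.Agent.Lib.P219
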