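import Mathlib.Algebra.Order.Star.Real
import Mathlib.MeasureTheory.Integral.IntegralEqImproper

/-! # P219 Part A: the one-dimensional volume estimate -/

namespace Vale.Agent.Lib.P219

open MeasureTheory Set Filter Topology

private theorem Vol1D_F_deriv (s ρ : ℝ → ℝ) (hs : Continuous s) (hρ : ContDiff ℝ 1 ρ) (t : ℝ) :
    HasDerivAt (fun t => (∫ r in (0 : ℝ)..t, s r) - ∫ r in (0 : ℝ)..(ρ t), s r)
      (s t - deriv ρ t * s (ρ t)) t := by
  have h1 : ∀ u : ℝ, HasDerivAt (fun t => ∫ r in (0 : ℝ)..t, s r) (s u) u := fun u =>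
    intervalIntegral.integral_hasDerivAt_right (hs.intervalIntegrable _ _)
      hs.stronglyMeasurable.stronglyMeasurableAtFilter hs.continuousAt
  have h2 : HasDerivAt ρ (deriv ρ t) t := (hρ.differentiable (by norm_num) t).hasDerivAt
  have h3 := (h1 (ρ t)).comp t h2
  have h4 := (h1 t).sub h3
  rw [mul_comm (s (ρ t))] at h4
  exact h4

private theorem Vol1D_cs_mul {f g : ℝ → ℝ} (hfs : HasCompactSupport f) :
    HasCompactSupport (fun t => f t * g t) := hfs.mul_right

/-- integration by parts -/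
theorem vol1d_eq (s f ρ : ℝ → ℝ) (hs : Continuous s) (hf : ContDiff ℝ 1 f)
    (hfs : HasCompactSupport f) (hρ : ContDiff ℝ 1 ρ) (hρ0 : ρ 0 = 0) :
    ∫ t in Ioi (0 : ℝ), f t * (s t - deriv ρ t * s (ρ t))
      = ∫ t in Ioi (0 : ℝ), -(deriv f t) * ((∫ r in (0 : ℝ)..t, s r) - ∫ r in (0 : ℝ)..(ρ t), s r) := by
  set F : ℝ → ℝ := fun t => (∫ r in (0 : ℝ)..t, s r) - ∫ r in (0 : ℝ)..(ρ t), s r with hF
  have hFd : ∀ t, HasDerivAt F (s t - deriv ρ t * s (ρ t)) t := Vol1D_F_deriv s ρ hs hρ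
  have hFc : Continuous F := continuous_iff_continuousAt.2 fun t => (hFd t).continuousAt
  have hF0 : F 0 = 0 := by simp [hF, hρ0]
  have hρc : Continuous ρ := hρ.continuous
  have hρ'c : Continuous (deriv ρ) := hρ.continuous_deriv (le_refl _)
  have hf'c : Continuous (deriv f) := hf.continuous_deriv (le_refl _)
  have hfd : ∀ t, HasDerivAt f (deriv f t) t := fun t =>
    (hf.differentiable (by norm_num) t).hasDerivAt
  have hi1 : Integrable (fun t => f t * (s t - deriv ρ t * s (ρ t))) :=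
    (hf.continuous.mul (hs.sub (hρ'c.mul (hs.comp hρc)))).integrable_of_hasCompactSupport
      (Vol1D_cs_mul hfs)
  have hi2 : Integrable (fun t => deriv f t * F t) :=
    (hf'c.mul hFc).integrable_of_hasCompactSupport (Vol1D_cs_mul hfs.deriv)
  have hg : ∀ t ∈ Ioi (0 : ℝ), HasDerivAt (fun t => f t * F t)
      (deriv f t * F t + f t * (s t - deriv ρ t * s (ρ t))) t := fun t _ => (hfd t).mul (hFd t)
  have hcs : HasCompactSupport (fun t => f t * F t) := Vol1D_cs_mul hfs
  have hlim : Tendsto (fun t => f t * F t) atTop (𝓝 0) :=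
    hcs.is_zero_at_infty.mono_left atTop_le_cocompact
  have key := integral_Ioi_of_hasDerivAt_of_tendsto
    (hf.continuous.mul hFc).continuousWithinAt hg (hi2.add hi1).integrableOn hlim
  rw [Pi.mul_apply, hF0, mul_zero, sub_zero,
    integral_add hi2.integrableOn hi1.integrableOn] at key
  have e : ∫ t in Ioi (0 : ℝ), -(deriv f t) * F t = -∫ t in Ioi (0 : ℝ), deriv f t * F t := by
    rw [← integral_neg]
    refine integral_congr_ae (Eventually.of_forall fun t => ?_)
    simp only [neg_mul]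
  rw [e]
  linarith

theorem vol1d (s f ρ : ℝ → ℝ) (hs : Continuous s) (hf : ContDiff ℝ 1 f)
    (hfs : HasCompactSupport f) (hρ : ContDiff ℝ 1 ρ) (hρ0 : ρ 0 = 0)
    (hρt : ∀ t, 0 ≤ t → 0 ≤ ρ t ∧ ρ t ≤ t) (hmono : ∀ a b, 0 ≤ a → a ≤ b → s a ≤ s b)
    (hs0 : ∀ t, 0 ≤ t → 0 ≤ s t) (om : ℝ)
    (hom : ∀ t, 0 ≤ t → deriv f t ≠ 0 → (1 - om) * s t ≤ s (ρ t)) :
    ∫ t in Ioi (0 : ℝ), f t * (s t - deriv ρ t * s (ρ t))
      ≤ (∫ t in Ioi (0 : ℝ), -(deriv f t) * ((t - ρ t) * s t))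
        + om * ∫ t in Ioi (0 : ℝ), |deriv f t| * ((t - ρ t) * s t) := by
  rw [vol1d_eq s f ρ hs hf hfs hρ hρ0]
  have hFc : Continuous (fun t => (∫ r in (0 : ℝ)..t, s r) - ∫ r in (0 : ℝ)..(ρ t), s r) :=
    continuous_iff_continuousAt.2 fun t => (Vol1D_F_deriv s ρ hs hρ t).continuousAt
  have hρc : Continuous ρ := hρ.continuous
  have hf'c : Continuous (deriv f) := hf.continuous_deriv (le_refl _)
  have hi0 : Integrable (fun t => -(deriv f t) *
      ((∫ r in (0 : ℝ)..t, s r) - ∫ r in (0 : ℝ)..(ρ t), s r)) :=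
    (hf'c.neg.mul hFc).integrable_of_hasCompactSupport (Vol1D_cs_mul hfs.deriv.neg)
  have hc1 : Continuous (fun t => (t - ρ t) * s t) := (continuous_id.sub hρc).mul hs
  have hi1 : Integrable (fun t => -(deriv f t) * ((t - ρ t) * s t)) :=
    (hf'c.neg.mul hc1).integrable_of_hasCompactSupport (Vol1D_cs_mul hfs.deriv.neg)
  have habs : HasCompactSupport (fun t => |deriv f t|) := hfs.deriv.norm
  have hi2 : Integrable (fun t => |deriv f t| * ((t - ρ t) * s t)) :=
    (hf'c.abs.mul hc1).integrable_of_hasCompactSupport (Vol1D_cs_mul habs)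
  rw [← integral_const_mul, ← integral_add hi1.integrableOn (hi2.const_mul om).integrableOn]
  refine setIntegral_mono_on hi0.integrableOn (hi1.add (hi2.const_mul om)).integrableOn
    measurableSet_Ioi fun t ht => ?_
  have ht0 : 0 ≤ t := (le_of_lt ht)
  obtain ⟨hr0, hrt⟩ := hρt t ht0
  have hii : ∀ a b : ℝ, IntervalIntegrable s volume a b := fun a b => hs.intervalIntegrable a b
  have hG : (∫ r in (0 : ℝ)..t, s r) - ∫ r in (0 : ℝ)..(ρ t), s r = ∫ r in (ρ t)..t, s r := by
    rw [sub_eq_iff_eq_add, add_comm]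
    exact (intervalIntegral.integral_add_adjacent_intervals (hii _ _) (hii _ _)).symm
  rw [hG]
  have hup : ∫ r in (ρ t)..t, s r ≤ (t - ρ t) * s t := by
    have h1 : ∫ r in (ρ t)..t, s r ≤ ∫ _r in (ρ t)..t, s t :=
      intervalIntegral.integral_mono_on hrt (hii _ _) intervalIntegrable_const fun r hr =>
        hmono r t (hr0.trans hr.1) hr.2
    rwa [intervalIntegral.integral_const, smul_eq_mul] at h1
  have hlo : (t - ρ t) * s (ρ t) ≤ ∫ r in (ρ t)..t, s r := by
    have h1 : ∫ _r in (ρ t)..t, s (ρ t) ≤ ∫ r in (ρ t)..t, s r :=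
      intervalIntegral.integral_mono_on hrt intervalIntegrable_const (hii _ _) fun r hr =>
        hmono (ρ t) r hr0 hr.1
    rwa [intervalIntegral.integral_const, smul_eq_mul] at h1
  have hd : 0 ≤ t - ρ t := sub_nonneg.2 hrt
  show -deriv f t * (∫ r in (ρ t)..t, s r) ≤
    -deriv f t * ((t - ρ t) * s t) + om * (|deriv f t| * ((t - ρ t) * s t))
  rcases lt_trichotomy (deriv f t) 0 with h | h | h
  · have h1 := hom t ht0 h.ne
    have h2 := hmono (ρ t) t hr0 hrt
    have h3 : 0 ≤ om * s t := by nlinarith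
    have h4 : 0 ≤ om * (|deriv f t| * ((t - ρ t) * s t)) := by
      have : 0 ≤ |deriv f t| * (t - ρ t) * (om * s t) :=
        mul_nonneg (mul_nonneg (abs_nonneg _) hd) h3
      calc (0 : ℝ) ≤ |deriv f t| * (t - ρ t) * (om * s t) := this
        _ = _ := by ring
    have h5 := mul_le_mul_of_nonneg_left hup (neg_nonneg.2 h.le)
    linarith
  · simp [h]
  · have h1 := hom t ht0 h.ne'
    rw [abs_of_pos h]
    have h2 : (t - ρ t) * ((1 - om) * s t) ≤ ∫ r in (ρ t)..t, s r :=
      (mul_le_mul_of_nonneg_left h1 hd).trans hlo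
    have h3 := mul_le_mul_of_nonneg_left h2 h.le
    calc -deriv f t * (∫ r in (ρ t)..t, s r) = -(deriv f t * ∫ r in (ρ t)..t, s r) := by ring
      _ ≤ -(deriv f t * ((t - ρ t) * ((1 - om) * s t))) := neg_le_neg h3
      _ = _ := by ring

end Vale.Agent.Lib.P219
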