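import Mathlib.Order.CompletePartialOrder
import Vale.Agent.Lib.P219.A.Comp
import Vale.Agent.Lib.P219.A.FVBasic
import Vale.Agent.Lib.P219.A.Vol1D
import Vale.Agent.Lib.P219.A.Polar

/-! # P219 Part A: volume of the transported function -/

namespace Vale.Agent.Lib.P219

open MeasureTheory Set Filter Topology

namespace HData

variable {n : ℕ} (H : HData n) (k : Ker n)

/-- `u` along a ray -/
private theorem volInt_f {K : Set (Ev n)} (x : Ev n) {R : ℝ}
    (hR : ∀ w, H.Ex x w ∈ K → ‖w‖ ≤ R) {u : Ev n → ℝ} (hu : ContDiff ℝ 1 u)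
    (hs : tsupport u ⊆ K) (ω : Ev n) (hω : ‖ω‖ = 1) :
    (∀ t, HasDerivAt (fun s : ℝ => u (H.Ex x (s • ω)))
      (inner ℝ (H.gr u (H.Ex x (t • ω))) (H.fl t (x, ω)).2) t) ∧
    ContDiff ℝ 1 (fun s : ℝ => u (H.Ex x (s • ω))) ∧
    HasCompactSupport (fun s : ℝ => u (H.Ex x (s • ω))) ∧
    HasCompactSupport (fun s : ℝ => H.gr u (H.Ex x (s • ω))) := by
  have h1 : ∀ t, HasDerivAt (fun s : ℝ => u (H.Ex x (s • ω)))
      (inner ℝ (H.gr u (H.Ex x (t • ω))) (H.fl t (x, ω)).2) t := by
    intro t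
    have h := H.hasDerivAt_comp_fl hu t (x, ω)
    simp only [Ex_smul]
    exact h
  have hcomp : ∀ (t : ℝ), t ∉ Icc (-R) R → H.Ex x (t • ω) ∉ tsupport u := by
    intro t ht hmem
    apply ht
    have h2 := hR _ (hs hmem)
    rw [norm_smul, hω, mul_one, Real.norm_eq_abs] at h2
    exact abs_le.1 h2
  refine ⟨h1, ?_, ?_, ?_⟩
  · rw [contDiff_one_iff_deriv]
    refine ⟨fun t => (h1 t).differentiableAt, ?_⟩
    have h3 : deriv (fun s : ℝ => u (H.Ex x (s • ω))) =
        fun t => inner ℝ (H.gr u (H.Ex x (t • ω))) (H.fl t (x, ω)).2 :=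
      funext fun t => (h1 t).deriv
    rw [h3]
    have h4 : Continuous (fun t : ℝ => H.Ex x (t • ω)) :=
      H.Ex_cont.comp (continuous_const.prodMk (continuous_id.smul continuous_const))
    have h5 : Continuous (fun t : ℝ => (H.fl t (x, ω)).2) :=
      continuous_snd.comp (H.fl_cont.comp (continuous_id.prodMk continuous_const))
    exact ((H.gr_cont hu).comp h4).inner h5
  · refine HasCompactSupport.intro isCompact_Icc (fun t ht => ?_) (K := Icc (-R) R)
    exact image_eq_zero_of_notMem_tsupport (hcomp t ht)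
  · refine HasCompactSupport.intro isCompact_Icc (fun t ht => ?_) (K := Icc (-R) R)
    exact H.gr_zero_of_not_mem (hcomp t ht)

private theorem volInt_Ex_cont (x : Ev n) : Continuous (fun w => H.Ex x w) :=
  H.Ex_cont.comp (continuous_const.prodMk continuous_id)

private theorem volInt_th_cont (x : Ev n) : Continuous (fun w => H.th x w) :=
  H.th_cont.comp (continuous_const.prodMk continuous_id)

theorem vol_int (hn : 2 ≤ n) {K : Set (Ev n)} (hK : IsCompact K) (x e : Ev n) (hx : x ∈ K)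
    (he : ‖e‖ = 1) (τ ρ₀ : ℝ) (hτ : 0 ≤ τ) (hτ' : τ ≤ k.τ₀) (hρ : 0 < ρ₀) (u v : Ev n → ℝ)
    (hu : ContDiff ℝ 1 u) (hs : tsupport u ⊆ K) (hv : ContDiff ℝ 1 v)
    (huv : ∀ w, v (H.Ex x (k.phi τ ρ₀ e w)) = u (H.Ex x w)) (om : ℝ) (hom0 : 0 ≤ om)
    (hom : ∀ w, H.Ex x w ∈ K →
      (1 - om) * H.th x w ≤ H.th x (k.phi τ ρ₀ e w) * k.mu τ ρ₀ e w ^ (n - 1)) :
    H.V u - H.V v ≤ τ * ρ₀ * (H.FV (fun r c c' => c * k.η r c') u ρ₀ x e
      + om * k.M * H.A u) := by
  have hn1 : 1 ≤ n := by omega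
  obtain ⟨R, hR'⟩ := H.exp_proper K hK
  have hR : ∀ w, H.Ex x w ∈ K → ‖w‖ ≤ R := fun w hw => hR' x hx w hw
  have hus : HasCompactSupport u := hK.of_isClosed_subset (isClosed_tsupport u) hs
  -- compact support in exponential coordinates
  have hout : ∀ w, w ∉ Metric.closedBall (0 : Ev n) R → H.Ex x w ∉ tsupport u := by
    intro w hw hmem
    apply hw
    rw [mem_closedBall_zero_iff]
    exact hR w (hs hmem)
  have hcs : ∀ (F : Ev n → ℝ), Integrable (fun w => u (H.Ex x w) * F w) ∨ ¬ Continuous F := by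
    intro F
    by_cases hF : Continuous F
    · left
      refine ((hu.continuous.comp (volInt_Ex_cont H x)).mul hF).integrable_of_hasCompactSupport ?_
      refine HasCompactSupport.intro (isCompact_closedBall (0 : Ev n) R) fun w hw => ?_
      have h0 := image_eq_zero_of_notMem_tsupport (hout w hw)
      show u (H.Ex x w) * F w = 0
      rw [h0, zero_mul]
    · right
      exact hF
  have hphi : Continuous (k.phi τ ρ₀ e) := (k.phi_contDiff hρ he).continuous
  have hdet : Continuous (fun w => |(fderiv ℝ (k.phi τ ρ₀ e) w).det|) :=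
    (ContinuousLinearMap.continuous_det.comp
      ((k.phi_contDiff hρ he).continuous_fderiv (by norm_num))).abs
  have hthphi : Continuous (fun w => H.th x (k.phi τ ρ₀ e w)) := (volInt_th_cont H x).comp hphi
  have hI1 : Integrable (fun w => u (H.Ex x w) * H.th x w) :=
    (hcs _).resolve_right (fun h => h (volInt_th_cont H x))
  have hI2 : Integrable (fun w => u (H.Ex x w) * (H.th x (k.phi τ ρ₀ e w) *
      |(fderiv ℝ (k.phi τ ρ₀ e) w).det|)) :=
    (hcs _).resolve_right (fun h => h (hthphi.mul hdet))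
  have hIA : Integrable (fun w => ‖H.gr u (H.Ex x w)‖ * H.th x w) := by
    refine (((H.gr_cont hu).comp (volInt_Ex_cont H x)).norm.mul
      (volInt_th_cont H x)).integrable_of_hasCompactSupport ?_
    refine HasCompactSupport.intro (isCompact_closedBall (0 : Ev n) R) fun w hw => ?_
    have h0 := H.gr_zero_of_not_mem (hout w hw)
    show ‖H.gr u (H.Ex x w)‖ * H.th x w = 0
    rw [h0, norm_zero, zero_mul]
  have hFm : Measurable (fun p : ℝ × ℝ × ℝ => (fun r c c' => c * k.η r c') p.1 p.2.1 p.2.2) := by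
    refine Measurable.mul (measurable_fst.comp measurable_snd) ?_
    exact k.η_cont.measurable.comp
      (measurable_fst.prodMk (measurable_snd.comp measurable_snd))
  have hFC : ∀ r c c', |c| ≤ 1 → |c'| ≤ 1 →
      |(fun r c c' => c * k.η r c') r c c'| ≤ k.M := by
    intro r c c' hc hc'
    dsimp only
    rw [abs_mul, abs_of_nonneg (k.η_nonneg r c' hc')]
    calc |c| * k.η r c' ≤ 1 * k.M :=
          mul_le_mul hc (k.η_le r c' hc') (k.η_nonneg r c' hc') zero_le_one
      _ = k.M := one_mul _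
  have hIF := H.FV_integrable hFm hFC hu hus ρ₀ x (he.le)
  -- `V u - V v`
  have hV : H.V u - H.V v = ∫ w, (u (H.Ex x w) * H.th x w - u (H.Ex x w) *
      (H.th x (k.phi τ ρ₀ e w) * |(fderiv ℝ (k.phi τ ρ₀ e) w).det|)) := by
    rw [integral_sub hI1 hI2]
    unfold V
    rw [H.integral_comp k hn1 x he hτ hτ' hρ v, H.integral_exp x u]
    congr 1
    · refine integral_congr_ae (Eventually.of_forall fun w => ?_)
      exact mul_comm _ _
    · refine integral_congr_ae (Eventually.of_forall fun w => ?_)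
      simp only [huv]
  rw [hV, H.A_eq_exp u x]
  unfold FV
  -- the function whose integral is nonnegative
  set Φ : Ev n → ℝ := fun w => τ * ρ₀ * (‖H.gr u (H.Ex x w)‖ *
      (H.cy u x w * k.η (‖w‖ / ρ₀) (inner ℝ w e / ‖w‖)) * H.th x w)
      + τ * ρ₀ * om * k.M * (‖H.gr u (H.Ex x w)‖ * H.th x w)
      - (u (H.Ex x w) * H.th x w - u (H.Ex x w) *
      (H.th x (k.phi τ ρ₀ e w) * |(fderiv ℝ (k.phi τ ρ₀ e) w).det|)) with hΦ
  have hIΦ : Integrable Φ :=
    ((hIF.const_mul (τ * ρ₀)).add (hIA.const_mul (τ * ρ₀ * om * k.M))).sub (hI1.sub hI2)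
  have hsum : ∫ w, Φ w = τ * ρ₀ * (∫ w, ‖H.gr u (H.Ex x w)‖ *
      (H.cy u x w * k.η (‖w‖ / ρ₀) (inner ℝ w e / ‖w‖)) * H.th x w)
      + τ * ρ₀ * om * k.M * (∫ w, ‖H.gr u (H.Ex x w)‖ * H.th x w)
      - ∫ w, (u (H.Ex x w) * H.th x w - u (H.Ex x w) *
      (H.th x (k.phi τ ρ₀ e w) * |(fderiv ℝ (k.phi τ ρ₀ e) w).det|)) := by
    rw [← integral_const_mul, ← integral_const_mul, ← integral_add, ← integral_sub]
    · exact (hIF.const_mul (τ * ρ₀)).add (hIA.const_mul (τ * ρ₀ * om * k.M))
    · exact hI1.sub hI2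
    · exact hIF.const_mul (τ * ρ₀)
    · exact hIA.const_mul (τ * ρ₀ * om * k.M)
  have hkey : 0 ≤ ∫ w, Φ w := by
    rw [integral_polar hn1 Φ hIΦ]
    refine integral_nonneg fun ω' => ?_
    obtain ⟨ω, hω0⟩ := ω'
    have hω : ‖ω‖ = 1 := by simpa using hω0
    show 0 ≤ ∫ t in Ioi (0 : ℝ), t ^ (n - 1) * Φ (t • ω)
    obtain ⟨hfd, hfC, hfs, hgs⟩ := volInt_f H x hR hu hs ω hω
    set f : ℝ → ℝ := fun s => u (H.Ex x (s • ω)) with hf
    set s : ℝ → ℝ := fun t => H.th x (t • ω) * t ^ (n - 1) with hsdef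
    set ρ : ℝ → ℝ := fun t => t * k.mu τ ρ₀ e (t • ω) with hρdef
    set c' : ℝ := inner ℝ ω e with hc'
    have hc'1 : |c'| ≤ 1 := by
      have := abs_real_inner_le_norm ω e
      rwa [hω, he, one_mul] at this
    have hsm : Continuous (fun t : ℝ => t • ω) := continuous_id.smul continuous_const
    have hsc : Continuous s :=
      ((volInt_th_cont H x).comp hsm).mul (continuous_id.pow _)
    have hρinner : ∀ t, ρ t = inner ℝ (k.phi τ ρ₀ e (t • ω)) ω := by
      intro t
      unfold Ker.phi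
      rw [real_inner_smul_left, real_inner_smul_left, real_inner_self_eq_norm_sq, hω]
      simp only [hρdef]
      ring
    have hρC : ContDiff ℝ 1 ρ := by
      have h1 : ρ = fun t => inner ℝ (k.phi τ ρ₀ e (t • ω)) ω := funext hρinner
      rw [h1]
      exact ((k.phi_contDiff hρ he).comp (contDiff_id.smul contDiff_const)).inner ℝ
        contDiff_const
    have hρ0 : ρ 0 = 0 := by simp [hρdef]
    have hphiω : ∀ t : ℝ, k.phi τ ρ₀ e (t • ω) = ρ t • ω := by
      intro t
      unfold Ker.phi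
      rw [smul_smul]
      simp only [hρdef]
      rw [mul_comm]
    have hmu := fun t : ℝ => k.mu_mem hτ hτ' hρ he (t • ω)
    have hρt : ∀ t, 0 ≤ t → 0 ≤ ρ t ∧ ρ t ≤ t := by
      intro t ht
      have h1 := hmu t
      constructor
      · exact mul_nonneg ht (by linarith [h1.1])
      · calc t * k.mu τ ρ₀ e (t • ω) ≤ t * 1 := mul_le_mul_of_nonneg_left h1.2.1 ht
          _ = t := mul_one t
    have hth0 : ∀ w, 0 ≤ H.th x w := fun w => zero_le_one.trans (H.one_le_th x w)
    have hmono : ∀ a b, 0 ≤ a → a ≤ b → s a ≤ s b := by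
      intro a b ha hab
      exact mul_le_mul (H.th_mono x ω ha hab) (pow_le_pow_left₀ ha hab _) (pow_nonneg ha _)
        (hth0 _)
    have hs0 : ∀ t, 0 ≤ t → 0 ≤ s t := fun t ht => mul_nonneg (hth0 _) (pow_nonneg ht _)
    have hfderiv : ∀ t, deriv f t =
        inner ℝ (H.gr u (H.Ex x (t • ω))) (H.fl t (x, ω)).2 := fun t => (hfd t).deriv
    have hom1 : ∀ t, 0 ≤ t → deriv f t ≠ 0 → (1 - om) * s t ≤ s (ρ t) := by
      intro t ht hne
      have hmem : H.Ex x (t • ω) ∈ K := by
        by_contra hnot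
        apply hne
        rw [hfderiv, H.gr_zero_of_not_mem (fun h => hnot (hs h)), inner_zero_left]
      have h1 := hom (t • ω) hmem
      rw [hphiω] at h1
      have h2 := mul_le_mul_of_nonneg_right h1 (pow_nonneg ht (n - 1))
      have h3 : s (ρ t) = H.th x (ρ t • ω) * k.mu τ ρ₀ e (t • ω) ^ (n - 1) * t ^ (n - 1) := by
        simp only [hsdef]
        rw [show ρ t = t * k.mu τ ρ₀ e (t • ω) from rfl, mul_pow]
        ring
      rw [h3]
      calc (1 - om) * s t = (1 - om) * H.th x (t • ω) * t ^ (n - 1) := by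
            simp only [hsdef]
            ring
        _ ≤ _ := h2
    have hvol := vol1d s f ρ hsc hfC hfs hρC hρ0 hρt hmono hs0 om hom1
    -- identify the integrand
    have hfdc : Continuous (deriv f) := hfC.continuous_deriv (by norm_num)
    have hρdc : Continuous (deriv ρ) := hρC.continuous_deriv (by norm_num)
    have hρc : Continuous ρ := hρC.continuous
    have hdsupp : HasCompactSupport (deriv f) := hfs.deriv
    have hgc : Continuous (fun t : ℝ => ‖H.gr u (H.Ex x (t • ω))‖) :=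
      ((H.gr_cont hu).comp ((volInt_Ex_cont H x).comp hsm)).norm
    have hflnorm : ∀ t : ℝ, ‖(H.fl t (x, ω)).2‖ = 1 := by
      intro t
      rw [H.fl_norm]
      exact hω
    have hfd_le : ∀ t, |deriv f t| ≤ ‖H.gr u (H.Ex x (t • ω))‖ := by
      intro t
      rw [hfderiv]
      have := abs_real_inner_le_norm (H.gr u (H.Ex x (t • ω))) (H.fl t (x, ω)).2
      rwa [hflnorm, mul_one] at this
    have hne : ∀ t : ℝ, 0 < t → t • ω ≠ 0 := by
      intro t ht h0
      have h1 := congrArg norm h0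
      rw [norm_smul, hω, norm_zero, mul_one, Real.norm_eq_abs, abs_of_pos ht] at h1
      exact ht.ne' h1
    have hnorm : ∀ t : ℝ, 0 < t → ‖t • ω‖ = t := by
      intro t ht
      rw [norm_smul, hω, mul_one, Real.norm_eq_abs, abs_of_pos ht]
    have hin : ∀ t : ℝ, 0 < t → inner ℝ (t • ω) e / ‖t • ω‖ = c' := by
      intro t ht
      rw [hnorm t ht, real_inner_smul_left, mul_div_cancel_left₀ _ ht.ne']
    have hcy : ∀ t : ℝ, 0 < t →
        ‖H.gr u (H.Ex x (t • ω))‖ * H.cy u x (t • ω) = -(deriv f t) := by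
      intro t ht
      unfold cy
      rw [H.ve_smul, real_inner_smul_right, ← hfderiv, hnorm t ht]
      by_cases hg : ‖H.gr u (H.Ex x (t • ω))‖ = 0
      · have h1 : deriv f t = 0 := by
          have h2 := hfd_le t
          rw [hg] at h2
          exact abs_eq_zero.1 (le_antisymm h2 (abs_nonneg _))
        rw [hg, h1]
        simp
      · field_simp
    have hsub : ∀ t : ℝ, 0 < t → t - ρ t = τ * ρ₀ * k.η (t / ρ₀) c' := by
      intro t ht
      have h1 := k.one_sub_mu_mul (τ := τ) (ρ₀ := ρ₀) e (t • ω) (hne t ht)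
      rw [hnorm t ht] at h1
      rw [← hin t ht, hnorm t ht, ← h1]
      simp only [hρdef]
      ring
    have hdρ : ∀ t : ℝ, 0 < t → deriv ρ t = 1 - τ * k.ηr (t / ρ₀) c' := fun t ht =>
      (k.hasDerivAt_radial hρ ω hω t ht).deriv
    have hdetω : ∀ t : ℝ, 0 < t → |(fderiv ℝ (k.phi τ ρ₀ e) (t • ω)).det| =
        deriv ρ t * k.mu τ ρ₀ e (t • ω) ^ (n - 1) := by
      intro t ht
      rw [k.det_fderiv_phi hn1 hρ he (t • ω) (hne t ht), hin t ht, hnorm t ht, ← hdρ t ht]
      refine abs_of_nonneg (mul_nonneg ?_ (pow_nonneg (by linarith [(hmu t).1]) _))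
      rw [hdρ t ht]
      linarith [(k.rho_deriv_mem hτ hτ' (t / ρ₀) c' hc'1).1]
    -- integrands
    set A1 : ℝ → ℝ := fun t => -(deriv f t) * ((t - ρ t) * s t) with hA1
    set B1 : ℝ → ℝ := fun t => τ * ρ₀ * om * k.M * (‖H.gr u (H.Ex x (t • ω))‖ * s t) with hB1
    set C1 : ℝ → ℝ := fun t => f t * (s t - deriv ρ t * s (ρ t)) with hC1
    set D1 : ℝ → ℝ := fun t => |deriv f t| * ((t - ρ t) * s t) with hD1
    have hA1i : Integrable A1 := by
      refine (hfdc.neg.mul ((continuous_id.sub hρc).mul hsc)).integrable_of_hasCompactSupport ?_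
      exact (hdsupp.neg).mul_right
    have hD1i : Integrable D1 := by
      refine (hfdc.abs.mul ((continuous_id.sub hρc).mul hsc)).integrable_of_hasCompactSupport ?_
      refine HasCompactSupport.mul_right ?_
      exact hdsupp.comp_left (g := fun y : ℝ => |y|) abs_zero
    have hB1i : Integrable B1 := by
      refine (continuous_const.mul (hgc.mul hsc)).integrable_of_hasCompactSupport ?_
      refine HasCompactSupport.mul_left (HasCompactSupport.mul_right ?_)
      exact hgs.norm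
    have hC1i : Integrable C1 := by
      refine (hfC.continuous.mul (hsc.sub (hρdc.mul
        (hsc.comp hρc)))).integrable_of_hasCompactSupport ?_
      exact hfs.mul_right
    have hint : ∀ t ∈ Ioi (0 : ℝ), t ^ (n - 1) * Φ (t • ω) = A1 t + B1 t - C1 t := by
      intro t ht
      have ht' : 0 < t := ht
      simp only [hΦ, hA1, hB1, hC1, hin t ht', hphiω t, hdetω t ht']
      rw [hnorm t ht', ← hcy t ht', hsub t ht']
      have h3 : s (ρ t) = H.th x (ρ t • ω) * k.mu τ ρ₀ e (t • ω) ^ (n - 1) * t ^ (n - 1) := by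
        simp only [hsdef]
        rw [show ρ t = t * k.mu τ ρ₀ e (t • ω) from rfl, mul_pow]
        ring
      have h4 : s t = H.th x (t • ω) * t ^ (n - 1) := rfl
      have h5 : f t = u (H.Ex x (t • ω)) := rfl
      rw [h3, h4, h5]
      ring
    rw [setIntegral_congr_fun measurableSet_Ioi hint]
    have hAB : IntegrableOn (fun t => A1 t + B1 t) (Ioi (0 : ℝ)) :=
      hA1i.integrableOn.add hB1i.integrableOn
    rw [integral_sub hAB hC1i.integrableOn, integral_add hA1i.integrableOn hB1i.integrableOn]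
    have hDB : om * ∫ t in Ioi (0 : ℝ), D1 t ≤ ∫ t in Ioi (0 : ℝ), B1 t := by
      rw [← integral_const_mul]
      refine setIntegral_mono_on (hD1i.integrableOn.const_mul om) hB1i.integrableOn
        measurableSet_Ioi fun t ht => ?_
      have ht' : 0 < t := ht
      simp only [hD1, hB1]
      rw [hsub t ht']
      have h1 := hs0 t ht'.le
      have h2 := hfd_le t
      have h3 := k.η_le (t / ρ₀) c' hc'1
      have h4 := k.η_nonneg (t / ρ₀) c' hc'1
      have h5 : |deriv f t| * k.η (t / ρ₀) c' ≤ ‖H.gr u (H.Ex x (t • ω))‖ * k.M :=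
        mul_le_mul h2 h3 h4 (norm_nonneg _)
      have h6 : 0 ≤ om * (τ * ρ₀) * s t := by positivity
      have h7 := mul_le_mul_of_nonneg_left h5 h6
      calc om * (|deriv f t| * (τ * ρ₀ * k.η (t / ρ₀) c' * s t)) =
          om * (τ * ρ₀) * s t * (|deriv f t| * k.η (t / ρ₀) c') := by ring
        _ ≤ om * (τ * ρ₀) * s t * (‖H.gr u (H.Ex x (t • ω))‖ * k.M) := h7
        _ = _ := by ring
    have hvol' : ∫ t in Ioi (0 : ℝ), C1 t ≤ (∫ t in Ioi (0 : ℝ), A1 t) +
        om * ∫ t in Ioi (0 : ℝ), D1 t := hvol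
    linarith
  rw [hsum] at hkey
  linarith

end HData

end Vale.Agent.Lib.P219
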