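import Vale.Agent.Lib.P219.A.AreaInt
import Vale.Agent.Lib.P219.A.VolInt
import Vale.Agent.Lib.P219.A.Modulus
import Vale.Agent.Lib.P219.A.Layer
import Vale.Agent.Lib.P219.A.RpowB

/-! # P219 Part A: first variation inequality for near-minimisers, uniform in the base point -/

namespace Vale.Agent.Lib.P219

open MeasureTheory Set Filter Topology

/-- the real-number bookkeeping, first part -/
private theorem fv_arith1 {n' A V τ ρ M C c₀ ε₁ om a Vv Av Fc Fgh : ℝ}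
    (hn : 2 ≤ n') (hA : 0 < A) (hV : 0 < V) (hτ : 0 < τ) (hM : 0 < M)
    (hc₀ : 0 < c₀) (hε₁ : 0 < ε₁) (hε₁' : ε₁ ≤ 1 / 2)
    (hom : 0 < om) (hom1 : om ≤ 1) (ha : a = (n' - 1) / n')
    (hρ : ρ = n' * V / A)
    (hup : A ≤ (1 + ε₁) * c₀ * V ^ a)
    (hlow : (1 - ε₁) * c₀ * Vv ^ a ≤ Av)
    (hAv : Av ≤ (1 + C * τ ^ 2) * A - τ * Fgh)
    (hVv : V - Vv ≤ τ * ρ * (Fc + om * M * A))
    (hFc : |Fc| ≤ M * A)
    (hτ1 : 2 * τ * M * n' ≤ 1 / 2) :
    (1 - 2 * ε₁) * (A - (n' - 1) * τ * (Fc + om * M * A)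
      - 4 * n' ^ 2 * M ^ 2 * τ ^ 2 * A) ≤ (1 + C * τ ^ 2) * A - τ * Fgh := by
  have hn0 : 0 < n' := by linarith
  set z : ℝ := τ * n' * (Fc + om * M * A) / A with hz
  have hAbs := abs_le.1 hFc
  have hz1 : |z| ≤ 2 * τ * M * n' := by
    rw [hz, abs_div, abs_of_pos hA, div_le_iff₀ hA, abs_mul, abs_of_pos (by positivity : 0 < τ * n')]
    have h1 : |Fc + om * M * A| ≤ 2 * M * A := by
      have h2 : om * M * A ≤ 1 * (M * A) := by
        rw [mul_assoc]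
        exact mul_le_mul_of_nonneg_right hom1 (by positivity)
      have h3 : 0 ≤ om * M * A := by positivity
      rw [abs_le]
      constructor <;> linarith
    calc τ * n' * |Fc + om * M * A| ≤ τ * n' * (2 * M * A) :=
          mul_le_mul_of_nonneg_left h1 (by positivity)
      _ = 2 * τ * M * n' * A := by ring
  have hz2 : |z| ≤ 1 / 2 := hz1.trans hτ1
  have hz3 : z ^ 2 ≤ 4 * n' ^ 2 * M ^ 2 * τ ^ 2 := by
    have h1 : z ^ 2 = |z| ^ 2 := (sq_abs z).symm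
    rw [h1]
    calc |z| ^ 2 ≤ (2 * τ * M * n') ^ 2 := pow_le_pow_left₀ (abs_nonneg z) hz1 2
      _ = 4 * n' ^ 2 * M ^ 2 * τ ^ 2 := by ring
  have hVz : τ * ρ * (Fc + om * M * A) = V * z := by
    rw [hρ, hz]
    field_simp
  rw [hVz] at hVv
  have hzb := abs_le.1 hz2
  have h1z : 0 < 1 - z := by linarith
  have ha0 : 0 ≤ a := by rw [ha]; exact div_nonneg (by linarith) hn0.le
  have ha1 : a ≤ 1 := by rw [ha, div_le_one hn0]; linarith
  have haz : a * n' = n' - 1 := by rw [ha]; field_simp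
  have hVv' : V * (1 - z) ≤ Vv := by linarith
  have hp1 : (V * (1 - z)) ^ a ≤ Vv ^ a :=
    Real.rpow_le_rpow (mul_nonneg hV.le h1z.le) hVv' ha0
  rw [Real.mul_rpow hV.le h1z.le] at hp1
  have hp2 := one_sub_rpow_ge ha0 ha1 hz2
  have hVa : 0 < V ^ a := Real.rpow_pos_of_pos hV a
  have hp3 : V ^ a * (1 - a * z - z ^ 2) ≤ Vv ^ a :=
    (mul_le_mul_of_nonneg_left hp2 hVa.le).trans hp1
  have hpos : 0 ≤ 1 - a * z - z ^ 2 := by
    have h1 : a * z ≤ 1 / 2 := by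
      calc a * z ≤ |a * z| := le_abs_self _
        _ = a * |z| := by rw [abs_mul, abs_of_nonneg ha0]
        _ ≤ 1 * (1 / 2) := mul_le_mul ha1 hz2 (abs_nonneg z) zero_le_one
        _ = 1 / 2 := one_mul _
    have h2 : z ^ 2 ≤ 1 / 4 := by
      have : |z| ^ 2 ≤ (1 / 2) ^ 2 := pow_le_pow_left₀ (abs_nonneg z) hz2 2
      rw [sq_abs] at this
      linarith
    linarith
  -- main chain
  have hm1 : (1 - ε₁) * (c₀ * V ^ a) * (1 - a * z - z ^ 2) ≤ (1 + C * τ ^ 2) * A - τ * Fgh := by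
    calc (1 - ε₁) * (c₀ * V ^ a) * (1 - a * z - z ^ 2) =
        (1 - ε₁) * c₀ * (V ^ a * (1 - a * z - z ^ 2)) := by ring
      _ ≤ (1 - ε₁) * c₀ * Vv ^ a :=
          mul_le_mul_of_nonneg_left hp3 (mul_nonneg (by linarith) hc₀.le)
      _ ≤ Av := hlow
      _ ≤ _ := hAv
  have hm2 : (1 - 2 * ε₁) * A ≤ (1 - ε₁) * (c₀ * V ^ a) := by
    have hX : 0 < c₀ * V ^ a := mul_pos hc₀ hVa
    have h2 : A ≤ (1 + ε₁) * (c₀ * V ^ a) := by linarith
    have h3 : (1 - 2 * ε₁) * A ≤ (1 - 2 * ε₁) * ((1 + ε₁) * (c₀ * V ^ a)) :=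
      mul_le_mul_of_nonneg_left h2 (by linarith)
    have h4 : (1 - 2 * ε₁) * ((1 + ε₁) * (c₀ * V ^ a)) ≤ (1 - ε₁) * (c₀ * V ^ a) := by
      have h5 : (1 - 2 * ε₁) * (1 + ε₁) ≤ 1 - ε₁ := by
        have : 0 ≤ ε₁ ^ 2 := sq_nonneg _
        linarith
      calc (1 - 2 * ε₁) * ((1 + ε₁) * (c₀ * V ^ a)) =
          ((1 - 2 * ε₁) * (1 + ε₁)) * (c₀ * V ^ a) := by ring
        _ ≤ _ := mul_le_mul_of_nonneg_right h5 hX.le
    exact h3.trans h4
  have hm3 : (1 - 2 * ε₁) * A * (1 - a * z - z ^ 2) ≤ (1 + C * τ ^ 2) * A - τ * Fgh :=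
    (mul_le_mul_of_nonneg_right hm2 hpos).trans hm1
  have haA : a * z * A = (n' - 1) * τ * (Fc + om * M * A) := by
    have h1 : z * A = τ * n' * (Fc + om * M * A) := by
      rw [hz]
      field_simp
    calc a * z * A = a * (z * A) := by ring
      _ = a * n' * τ * (Fc + om * M * A) := by rw [h1]; ring
      _ = _ := by rw [haz]
  have hz4 : z ^ 2 * A ≤ 4 * n' ^ 2 * M ^ 2 * τ ^ 2 * A :=
    mul_le_mul_of_nonneg_right hz3 hA.le
  refine le_trans ?_ hm3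
  have h1 : (1 - 2 * ε₁) * A * (1 - a * z - z ^ 2) =
      (1 - 2 * ε₁) * (A - a * z * A - z ^ 2 * A) := by ring
  rw [h1, haA]
  exact mul_le_mul_of_nonneg_left (by linarith) (by linarith)

/-- the real-number bookkeeping, second part -/
private theorem fv_arith2 {n' A τ M C ε ε₁ om Fc Fgh : ℝ}
    (hn : 2 ≤ n') (hA : 0 < A) (hτ : 0 < τ) (hM : 0 < M)
    (hε₁ : 0 < ε₁) (hom : 0 < om) (hFc : |Fc| ≤ M * A)
    (hm4 : (1 - 2 * ε₁) * (A - (n' - 1) * τ * (Fc + om * M * A)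
      - 4 * n' ^ 2 * M ^ 2 * τ ^ 2 * A) ≤ (1 + C * τ ^ 2) * A - τ * Fgh)
    (hτ2 : (C + 4 * n' ^ 2 * M ^ 2) * τ ≤ ε / 4)
    (hom2 : (n' - 1) * om * M ≤ ε / 4)
    (he1 : 2 * ε₁ ≤ τ * (ε / 4)) (he2 : 2 * ε₁ * ((n' - 1) * M) ≤ ε / 4) :
    Fgh - (n' - 1) * Fc ≤ ε * A := by
  have hAbs := abs_le.1 hFc
  have hτA : 0 < τ * A := mul_pos hτ hA
  have e1 : τ * (Fgh - (n' - 1) * Fc) ≤
      2 * ε₁ * A + C * τ ^ 2 * A + 2 * ε₁ * ((n' - 1) * τ) * (-Fc)
      + (1 - 2 * ε₁) * ((n' - 1) * τ * (om * M * A))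
      + (1 - 2 * ε₁) * (4 * n' ^ 2 * M ^ 2 * τ ^ 2 * A) := by
    linarith [hm4]
  have e2 : 2 * ε₁ * ((n' - 1) * τ) * (-Fc) ≤ τ * A * (ε / 4) := by
    calc 2 * ε₁ * ((n' - 1) * τ) * (-Fc) ≤ 2 * ε₁ * ((n' - 1) * τ) * (M * A) := by
          refine mul_le_mul_of_nonneg_left (by linarith) ?_
          exact mul_nonneg (by linarith) (mul_nonneg (by linarith) hτ.le)
      _ = (2 * ε₁ * ((n' - 1) * M)) * (τ * A) := by ring
      _ ≤ ε / 4 * (τ * A) := mul_le_mul_of_nonneg_right he2 hτA.le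
      _ = _ := by ring
  have e3 : (1 - 2 * ε₁) * ((n' - 1) * τ * (om * M * A)) ≤ τ * A * (ε / 4) := by
    calc (1 - 2 * ε₁) * ((n' - 1) * τ * (om * M * A)) ≤ 1 * ((n' - 1) * τ * (om * M * A)) := by
          refine mul_le_mul_of_nonneg_right (by linarith) ?_
          exact mul_nonneg (mul_nonneg (by linarith) hτ.le) (by positivity)
      _ = ((n' - 1) * om * M) * (τ * A) := by ring
      _ ≤ ε / 4 * (τ * A) := mul_le_mul_of_nonneg_right hom2 hτA.le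
      _ = _ := by ring
  have e4 : 2 * ε₁ * A ≤ τ * A * (ε / 4) := by
    calc 2 * ε₁ * A ≤ τ * (ε / 4) * A := mul_le_mul_of_nonneg_right he1 hA.le
      _ = _ := by ring
  have e5 : C * τ ^ 2 * A + (1 - 2 * ε₁) * (4 * n' ^ 2 * M ^ 2 * τ ^ 2 * A) ≤
      τ * A * (ε / 4) := by
    have h1 : (1 - 2 * ε₁) * (4 * n' ^ 2 * M ^ 2 * τ ^ 2 * A) ≤
        1 * (4 * n' ^ 2 * M ^ 2 * τ ^ 2 * A) :=
      mul_le_mul_of_nonneg_right (by linarith) (by positivity)
    calc C * τ ^ 2 * A + (1 - 2 * ε₁) * (4 * n' ^ 2 * M ^ 2 * τ ^ 2 * A) ≤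
        C * τ ^ 2 * A + 1 * (4 * n' ^ 2 * M ^ 2 * τ ^ 2 * A) := by linarith
      _ = ((C + 4 * n' ^ 2 * M ^ 2) * τ) * (τ * A) := by ring
      _ ≤ ε / 4 * (τ * A) := mul_le_mul_of_nonneg_right hτ2 hτA.le
      _ = _ := by ring
  have e6 : τ * (ε * A) = τ * A * (ε / 4) + τ * A * (ε / 4) + τ * A * (ε / 4) +
      τ * A * (ε / 4) := by ring
  have hm5 : τ * (Fgh - (n' - 1) * Fc) ≤ τ * (ε * A) := by
    linarith only [e1, e2, e3, e4, e5, e6]
  exact le_of_mul_le_mul_left hm5 hτ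

namespace HData

variable {n : ℕ} (H : HData n) (k : Ker n)

private theorem fv_split {u : Ev n → ℝ} (hu : ContDiff ℝ 1 u)
    (hs : HasCompactSupport u) (ρ₀ : ℝ) (x : Ev n) {e : Ev n} (he : ‖e‖ = 1) :
    H.FV k.g u ρ₀ x e = H.FV k.gh u ρ₀ x e -
      ((n : ℝ) - 1) * H.FV (fun r c c' => c * k.η r c') u ρ₀ x e := by
  obtain ⟨C, hC, hb⟩ := k.g_bounded
  have h1 := H.FV_integrable k.gh_measurable (C := C)
    (fun r c c' hc hc' => (hb r c c' hc hc').2.1) hu hs ρ₀ x he.le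
  have hm : Measurable (fun p : ℝ × ℝ × ℝ => p.2.1 * k.η p.1 p.2.2) := by
    have h2 : Measurable (fun p : ℝ × ℝ × ℝ => k.η p.1 p.2.2) :=
      k.η_cont.measurable.comp (measurable_fst.prodMk (measurable_snd.comp measurable_snd))
    exact (measurable_fst.comp measurable_snd).mul h2
  have h3 := H.FV_integrable (F := fun r c c' => c * k.η r c') hm (C := k.M)
    (fun r c c' hc hc' => by
      rw [abs_mul, abs_of_nonneg (k.η_nonneg r c' hc')]
      calc |c| * k.η r c' ≤ 1 * k.M :=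
            mul_le_mul hc (k.η_le r c' hc') (k.η_nonneg r c' hc') zero_le_one
        _ = k.M := one_mul _) hu hs ρ₀ x he.le
  unfold FV
  rw [← integral_const_mul, ← integral_sub h1 (h3.const_mul _)]
  refine integral_congr_ae (Eventually.of_forall fun w => ?_)
  simp only [Ker.g]
  ring

theorem first_var (hn : 2 ≤ n) {K : Set (Ev n)} (hK : IsCompact K) (hc : H.Conv K)
    {c₀ : ℝ} (hc₀ : 0 < c₀) {ε : ℝ} (hε : 0 < ε) :
    ∃ ε₁ > 0, ∀ h : ℝ, ∀ u : Ev n → ℝ, H.Adm K h u →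
      H.A u ≤ (1 + ε₁) * c₀ * (H.V u) ^ (((n : ℝ) - 1) / n) →
      (∀ v, H.Adm K (4 * h) v → (1 - ε₁) * c₀ * (H.V v) ^ (((n : ℝ) - 1) / n) ≤ H.A v) →
      ∀ x ∈ K, ∀ e : Ev n, ‖e‖ = 1 → H.FV k.g u (n * H.V u / H.A u) x e ≤ ε * H.A u := by
  have hn' : (2 : ℝ) ≤ n := by exact_mod_cast hn
  have hM := k.M_pos
  obtain ⟨C, hC, harea⟩ := H.area_int k hn
  -- choice of om
  have hnM : 0 < ((n : ℝ) - 1) * k.M := mul_pos (by linarith) hM
  set om : ℝ := min 1 (ε / 4 / (((n : ℝ) - 1) * k.M)) with homdef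
  have hom : 0 < om := lt_min one_pos (by positivity)
  have hom1 : om ≤ 1 := min_le_left _ _
  have hom2 : ((n : ℝ) - 1) * om * k.M ≤ ε / 4 := by
    have h1 : om ≤ ε / 4 / (((n : ℝ) - 1) * k.M) := min_le_right _ _
    rw [le_div_iff₀ hnM] at h1
    calc ((n : ℝ) - 1) * om * k.M = om * (((n : ℝ) - 1) * k.M) := by ring
      _ ≤ ε / 4 := h1
  obtain ⟨τ₁, hτ₁, hτ₁', hmod⟩ := H.modulus k hK hom
  have hP1 : 0 < 4 * k.M * n := by positivity
  have hP2 : 0 < C + 4 * (n : ℝ) ^ 2 * k.M ^ 2 := by positivity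
  set τ : ℝ := min τ₁ (min (1 / (4 * k.M * n)) (ε / 4 / (C + 4 * (n : ℝ) ^ 2 * k.M ^ 2))) with hτdef
  have hτ : 0 < τ := lt_min hτ₁ (lt_min (by positivity) (by positivity))
  have hτle : τ ≤ τ₁ := min_le_left _ _
  have hτ1 : 2 * τ * k.M * n ≤ 1 / 2 := by
    have h1 : τ ≤ 1 / (4 * k.M * n) := (min_le_right _ _).trans (min_le_left _ _)
    rw [le_div_iff₀ hP1] at h1
    linarith
  have hτ2 : (C + 4 * (n : ℝ) ^ 2 * k.M ^ 2) * τ ≤ ε / 4 := by
    have h1 : τ ≤ ε / 4 / (C + 4 * (n : ℝ) ^ 2 * k.M ^ 2) :=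
      (min_le_right _ _).trans (min_le_right _ _)
    rw [le_div_iff₀ hP2] at h1
    linarith
  set ε₁ : ℝ := min (1 / 2) (min (τ * (ε / 4) / 2) (ε / 4 / (2 * (((n : ℝ) - 1) * k.M)))) with hε₁def
  have hε₁ : 0 < ε₁ := lt_min (by norm_num) (lt_min (by positivity) (by positivity))
  have hε₁' : ε₁ ≤ 1 / 2 := min_le_left _ _
  have he1 : 2 * ε₁ ≤ τ * (ε / 4) := by
    have h1 : ε₁ ≤ τ * (ε / 4) / 2 := (min_le_right _ _).trans (min_le_left _ _)
    linarith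
  have he2 : 2 * ε₁ * (((n : ℝ) - 1) * k.M) ≤ ε / 4 := by
    have h1 : ε₁ ≤ ε / 4 / (2 * (((n : ℝ) - 1) * k.M)) := (min_le_right _ _).trans (min_le_right _ _)
    rw [le_div_iff₀ (by positivity)] at h1
    linarith
  refine ⟨ε₁, hε₁, ?_⟩
  intro h u hu hup hlow x hx e he
  have hs : HasCompactSupport u := hK.of_isClosed_subset (isClosed_tsupport u) hu.supp
  rcases (H.A_nonneg u).eq_or_lt with hA0 | hA
  · -- degenerate case
    obtain ⟨C', hC', hb⟩ := k.g_bounded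
    have h1 := H.abs_FV_le (F := k.g) (C := C') (fun r c c' hc hc' => (hb r c c' hc hc').1)
      hu.smooth hs (n * H.V u / H.A u) x he.le
    rw [← hA0, mul_zero] at h1
    rw [← hA0, mul_zero]
    exact (le_abs_self _).trans h1
  · have hV := hu.mass_pos
    set ρ : ℝ := n * H.V u / H.A u with hρdef
    have hρ : 0 < ρ := by
      rw [hρdef]
      exact div_pos (mul_pos (by linarith) hV) hA
    have hτ0 : τ ≤ k.τ₀ := hτle.trans hτ₁'
    obtain ⟨v, hv, huv, hvs, hv0, hv1⟩ := H.exists_comp k (by omega : 1 ≤ n) hK.isClosed hc hx he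
      hτ.le hτ0 hρ hu.smooth hu.supp hu.nonneg hu.le_one
    have hvol := H.vol_int k hn hK x e hx he τ ρ hτ.le hτ0 hρ u v hu.smooth hu.supp hv huv om
      hom.le (fun w hw => hmod τ hτ.le hτle ρ hρ x hx e he w hw)
    have hFc : |H.FV (fun r c c' => c * k.η r c') u ρ x e| ≤ k.M * H.A u := by
      refine H.abs_FV_le (F := fun r c c' => c * k.η r c') (fun r c c' hc hc' => ?_)
        hu.smooth hs ρ x he.le
      rw [abs_mul, abs_of_nonneg (k.η_nonneg r c' hc')]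
      calc |c| * k.η r c' ≤ 1 * k.M :=
            mul_le_mul hc (k.η_le r c' hc') (k.η_nonneg r c' hc') zero_le_one
        _ = k.M := one_mul _
    have hVv : H.V u / 2 ≤ H.V v := by
      have h1 : τ * ρ * (H.FV (fun r c c' => c * k.η r c') u ρ x e + om * k.M * H.A u) ≤
          H.V u / 2 := by
        have h2 : H.FV (fun r c c' => c * k.η r c') u ρ x e + om * k.M * H.A u ≤
            2 * k.M * H.A u := by
          have h3 := (abs_le.1 hFc).2
          have h4 : om * k.M * H.A u ≤ 1 * (k.M * H.A u) := by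
            rw [mul_assoc]
            exact mul_le_mul_of_nonneg_right hom1 (by positivity)
          linarith
        calc τ * ρ * (H.FV (fun r c c' => c * k.η r c') u ρ x e + om * k.M * H.A u) ≤
            τ * ρ * (2 * k.M * H.A u) := mul_le_mul_of_nonneg_left h2 (by positivity)
          _ = (2 * τ * k.M * n) * H.V u := by
              rw [hρdef]
              field_simp
          _ ≤ 1 / 2 * H.V u := mul_le_mul_of_nonneg_right hτ1 hV.le
          _ = H.V u / 2 := by ring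
      linarith
    have hlay := H.layer_le k (by omega : 1 ≤ n) x he hτ.le hτ0 hρ (fun s => s * (1 - s))
      (by fun_prop) (fun s hs0 hs1 => mul_nonneg hs0 (by linarith)) (by norm_num) hu.smooth hs
      hu.nonneg hu.le_one hv huv
    have hh : 0 ≤ h := by
      have h1 : 0 ≤ ∫ x, u x * (1 - u x) ∂H.vol :=
        integral_nonneg fun y => mul_nonneg (hu.nonneg y) (by linarith [hu.le_one y])
      have h2 := h1.trans hu.layer
      by_contra hneg
      rw [not_le] at hneg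
      have := mul_neg_of_neg_of_pos hneg hV
      linarith
    have hadm : H.Adm K (4 * h) v := by
      refine ⟨hv, hvs, hv0, hv1, by linarith, ?_⟩
      calc ∫ y, v y * (1 - v y) ∂H.vol ≤ 2 * ∫ y, u y * (1 - u y) ∂H.vol := hlay
        _ ≤ 2 * (h * H.V u) := by linarith [hu.layer]
        _ ≤ 4 * h * H.V v := by nlinarith
    have hlow' := hlow v hadm
    have har := harea x e he τ ρ hτ.le hτ0 hρ u v hu.smooth hs hv huv
    rw [fv_split H k hu.smooth hs ρ x he]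
    exact fv_arith2 hn' hA hτ hM hε₁ hom hFc (fv_arith1 hn' hA hV hτ hM hc₀ hε₁ hε₁' hom hom1
      rfl hρdef hup hlow' har hvol hFc hτ1) hτ2 hom2 he1 he2

end HData

end Vale.Agent.Lib.P219
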