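import Vale.Agent.Lib.P219.A.Swap
import Vale.Agent.Lib.P219.A.Polar

/-! # P219 Part A: the geodesic flow and the Liouville measure -/

namespace Vale.Agent.Lib.P219

open MeasureTheory Set Filter Topology
open scoped ENNReal

namespace HData

variable {n : ℕ} (H : HData n)

theorem SM_neg (Φ : Ev n × Ev n → ℝ≥0∞) (hΦ : Measurable Φ) :
    H.SM (fun v => Φ (v.1, -v.2)) = H.SM Φ := by
  unfold SM
  refine lintegral_congr fun x => ?_
  exact lintegral_sphere_neg (fun w => Φ (x, w)) (hΦ.comp (by fun_prop))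

/-- the density of the pair function in normal coordinates -/
private noncomputable def FlowSwap_F (Φ₁ Φ₂ : Ev n × Ev n → ℝ≥0∞) (p : Ev n × Ev n) : ℝ≥0∞ :=
  Φ₁ (p.1, ‖p.2‖⁻¹ • p.2) * Φ₂ (H.fl ‖p.2‖ (p.1, ‖p.2‖⁻¹ • p.2)) /
    (ENNReal.ofReal (H.th p.1 p.2) * ENNReal.ofReal (‖p.2‖ ^ (n - 1)))

private theorem FlowSwap_meas {Φ₁ Φ₂ : Ev n × Ev n → ℝ≥0∞} (h₁ : Measurable Φ₁)
    (h₂ : Measurable Φ₂) : Measurable (H.FlowSwap_F Φ₁ Φ₂) := by
  have hth : Measurable (fun p : Ev n × Ev n => H.th p.1 p.2) := H.th_cont.measurable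
  have hn : Measurable (fun p : Ev n × Ev n => ‖p.2‖) := by fun_prop
  have hu : Measurable (fun p : Ev n × Ev n => (p.1, ‖p.2‖⁻¹ • p.2)) := by fun_prop
  have hfl : Measurable (fun p : Ev n × Ev n => H.fl ‖p.2‖ (p.1, ‖p.2‖⁻¹ • p.2)) :=
    H.fl_cont.measurable.comp (hn.prodMk hu)
  unfold FlowSwap_F
  exact ((h₁.comp hu).mul (h₂.comp hfl)).div
    (hth.ennreal_ofReal.mul (hn.pow_const (n - 1)).ennreal_ofReal)

private theorem FlowSwap_norm {t : ℝ} (ht : 0 < t) (ω : Metric.sphere (0 : Ev n) 1) :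
    ‖t • (ω : Ev n)‖ = t := by
  have h1 : ‖(ω : Ev n)‖ = 1 := by
    have := ω.2
    rwa [mem_sphere_zero_iff_norm] at this
  rw [norm_smul, h1, mul_one, Real.norm_eq_abs, abs_of_pos ht]

private theorem FlowSwap_cancel (a : ℝ≥0∞) {s t : ℝ} (hs : 0 < s) (ht : 0 < t) :
    a / (ENNReal.ofReal s * ENNReal.ofReal t) * ENNReal.ofReal s * ENNReal.ofReal t = a := by
  rw [mul_assoc]
  refine ENNReal.div_mul_cancel ?_ ?_
  · exact mul_ne_zero (by simpa using hs) (by simpa using ht)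
  · exact ENNReal.mul_ne_top ENNReal.ofReal_ne_top ENNReal.ofReal_ne_top

private theorem FlowSwap_th_pos (x w : Ev n) : 0 < H.th x w :=
  lt_of_lt_of_le one_pos (H.one_le_th x w)

private theorem FlowSwap_left (hn : 1 ≤ n) (Φ₁ Φ₂ : Ev n × Ev n → ℝ≥0∞) (h₁ : Measurable Φ₁)
    (h₂ : Measurable Φ₂) (x : Ev n) :
    ∫⁻ w, H.FlowSwap_F Φ₁ Φ₂ (x, w) * ENNReal.ofReal (H.th x w) =
      ∫⁻ ω : Metric.sphere (0 : Ev n) 1, (Φ₁ (x, (ω : Ev n)) *
        ∫⁻ t in Ioi (0 : ℝ), Φ₂ (H.fl t (x, (ω : Ev n))))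
        ∂(volume : Measure (Ev n)).toSphere := by
  have hF := H.FlowSwap_meas h₁ h₂
  have hth : Measurable (fun w : Ev n => H.th x w) :=
    (H.th_cont.comp (by fun_prop : Continuous (fun w : Ev n => (x, w)))).measurable
  have hmm : Measurable (fun w : Ev n =>
      H.FlowSwap_F Φ₁ Φ₂ (x, w) * ENNReal.ofReal (H.th x w)) :=
    (hF.comp (by fun_prop : Measurable (fun w : Ev n => (x, w)))).mul hth.ennreal_ofReal
  rw [lintegral_polar hn _ hmm]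
  refine lintegral_congr fun ω => ?_
  have hfl : Measurable (fun t : ℝ => Φ₂ (H.fl t (x, (ω : Ev n)))) :=
    h₂.comp (H.fl_cont.measurable.comp (by fun_prop : Measurable (fun t : ℝ => (t, (x, (ω : Ev n))))))
  rw [← lintegral_const_mul _ hfl]
  refine setLIntegral_congr_fun measurableSet_Ioi fun t ht => ?_
  have ht' : 0 < t := ht
  have e1 := FlowSwap_norm ht' ω
  have e2 : t⁻¹ • t • (ω : Ev n) = (ω : Ev n) := by
    rw [smul_smul, inv_mul_cancel₀ ht'.ne', one_smul]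
  show H.FlowSwap_F Φ₁ Φ₂ (x, t • (ω : Ev n)) * ENNReal.ofReal (H.th x (t • (ω : Ev n))) *
    ENNReal.ofReal (t ^ (n - 1)) = Φ₁ (x, (ω : Ev n)) * Φ₂ (H.fl t (x, (ω : Ev n)))
  unfold FlowSwap_F
  simp only [e1, e2]
  exact FlowSwap_cancel _ (H.FlowSwap_th_pos _ _) (pow_pos ht' _)

private theorem FlowSwap_right (hn : 1 ≤ n) (Φ₁ Φ₂ : Ev n × Ev n → ℝ≥0∞) (h₁ : Measurable Φ₁)
    (h₂ : Measurable Φ₂) (x : Ev n) :
    ∫⁻ w, H.FlowSwap_F Φ₁ Φ₂ (H.Ex x w, -(H.ve x w)) * ENNReal.ofReal (H.th x w) =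
      ∫⁻ ω : Metric.sphere (0 : Ev n) 1, (Φ₂ (x, -(ω : Ev n)) *
        ∫⁻ t in Ioi (0 : ℝ), Φ₁ (H.fl (-t) (x, -(ω : Ev n))))
        ∂(volume : Measure (Ev n)).toSphere := by
  have hF := H.FlowSwap_meas h₁ h₂
  have hc : Continuous (fun w : Ev n => (x, w)) := by fun_prop
  have hth : Measurable (fun w : Ev n => H.th x w) := (H.th_cont.comp hc).measurable
  have hEx : Measurable (fun w : Ev n => H.Ex x w) := (H.Ex_cont.comp hc).measurable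
  have hve : Measurable (fun w : Ev n => H.ve x w) := (H.ve_cont.comp hc).measurable
  have hmm : Measurable (fun w : Ev n =>
      H.FlowSwap_F Φ₁ Φ₂ (H.Ex x w, -(H.ve x w)) * ENNReal.ofReal (H.th x w)) :=
    (hF.comp (hEx.prodMk hve.neg)).mul hth.ennreal_ofReal
  rw [lintegral_polar hn _ hmm]
  refine lintegral_congr fun ω => ?_
  have hfl : Measurable (fun t : ℝ => Φ₁ (H.fl (-t) (x, -(ω : Ev n)))) :=
    h₁.comp (H.fl_cont.measurable.comp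
      (by fun_prop : Measurable (fun t : ℝ => (-t, (x, -(ω : Ev n))))))
  rw [← lintegral_const_mul _ hfl]
  refine setLIntegral_congr_fun measurableSet_Ioi fun t ht => ?_
  have ht' : 0 < t := ht
  have e0 : ‖-(H.ve x (t • (ω : Ev n)))‖ = t := by
    rw [norm_neg, H.norm_ve, FlowSwap_norm ht' ω]
  have e1 : H.Ex x (t • (ω : Ev n)) = (H.fl t (x, (ω : Ev n))).1 := H.Ex_smul t x _
  have e2 : t⁻¹ • -(H.ve x (t • (ω : Ev n))) = -(H.fl t (x, (ω : Ev n))).2 := by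
    rw [H.ve_smul, ← smul_neg, smul_smul, inv_mul_cancel₀ ht'.ne', one_smul]
  have e3 : H.fl t ((H.fl t (x, (ω : Ev n))).1, -(H.fl t (x, (ω : Ev n))).2) =
      (x, -(ω : Ev n)) := by
    have h := H.fl_neg t (H.fl t (x, (ω : Ev n))).1 (H.fl t (x, (ω : Ev n))).2
    rw [Prod.mk.eta, ← H.fl_add, neg_add_cancel, H.fl_zero] at h
    exact h
  have e4 : H.fl (-t) (x, -(ω : Ev n)) =
      ((H.fl t (x, (ω : Ev n))).1, -(H.fl t (x, (ω : Ev n))).2) := by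
    have h := H.fl_neg (-t) x (ω : Ev n)
    rw [neg_neg] at h
    exact h
  have e5 : H.th (H.Ex x (t • (ω : Ev n))) (-(H.ve x (t • (ω : Ev n)))) =
      H.th x (t • (ω : Ev n)) := H.th_symm x _
  show H.FlowSwap_F Φ₁ Φ₂ (H.Ex x (t • (ω : Ev n)), -(H.ve x (t • (ω : Ev n)))) *
    ENNReal.ofReal (H.th x (t • (ω : Ev n))) *
    ENNReal.ofReal (t ^ (n - 1)) = Φ₂ (x, -(ω : Ev n)) * Φ₁ (H.fl (-t) (x, -(ω : Ev n)))
  unfold FlowSwap_F
  simp only [e0, e2, e5]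
  rw [FlowSwap_cancel _ (H.FlowSwap_th_pos _ _) (pow_pos ht' _), e1, e3, e4, mul_comm]

/-- (D4') -/
theorem flow_swap (hn : 1 ≤ n) (Φ₁ Φ₂ : Ev n × Ev n → ℝ≥0∞) (h₁ : Measurable Φ₁)
    (h₂ : Measurable Φ₂) :
    H.SM (fun v => Φ₁ v * ∫⁻ t in Ioi (0 : ℝ), Φ₂ (H.fl t v))
      = H.SM (fun v => Φ₂ v * ∫⁻ t in Ioi (0 : ℝ), Φ₁ (H.fl (-t) v)) := by
  have hm : Measurable (fun v : Ev n × Ev n =>
      Φ₂ v * ∫⁻ t in Ioi (0 : ℝ), Φ₁ (H.fl (-t) v)) := by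
    refine h₂.mul ?_
    have h3 : Measurable (fun q : (Ev n × Ev n) × ℝ => Φ₁ (H.fl (-q.2) q.1)) :=
      h₁.comp (H.fl_cont.measurable.comp
        (by fun_prop : Measurable (fun q : (Ev n × Ev n) × ℝ => (-q.2, q.1))))
    exact h3.lintegral_prod_right'
  rw [← H.SM_neg _ hm]
  calc H.SM (fun v => Φ₁ v * ∫⁻ t in Ioi (0 : ℝ), Φ₂ (H.fl t v))
      = ∫⁻ x, (∫⁻ w, H.FlowSwap_F Φ₁ Φ₂ (x, w) * ENNReal.ofReal (H.th x w)) ∂H.vol := by
        unfold SM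
        exact lintegral_congr fun x => (H.FlowSwap_left hn Φ₁ Φ₂ h₁ h₂ x).symm
    _ = ∫⁻ x, (∫⁻ w, H.FlowSwap_F Φ₁ Φ₂ (H.Ex x w, -(H.ve x w)) *
          ENNReal.ofReal (H.th x w)) ∂H.vol := H.swap _ (H.FlowSwap_meas h₁ h₂)
    _ = _ := by
        unfold SM
        exact lintegral_congr fun x => H.FlowSwap_right hn Φ₁ Φ₂ h₁ h₂ x

end HData

end Vale.Agent.Lib.P219
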