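import Mathlib.Algebra.Order.Ring.Star
import Mathlib.Analysis.FunctionalSpaces.SobolevInequality
import Vale.Agent.Lib.P219.A.Vol

/-! # P219 Part A: positivity of the isoperimetric constant of a compact set -/

namespace Vale.Agent.Lib.P219

open MeasureTheory Set Filter Topology
open scoped ENNReal

namespace HData

variable {n : ℕ} (H : HData n)

private theorem integral_vol (f : Ev n → ℝ) :
    ∫ x, f x ∂H.vol = ∫ x, H.dens x * f x := by
  unfold vol
  have hm : Measurable (fun x => ENNReal.ofReal (H.dens x)) :=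
    (ENNReal.continuous_ofReal.comp H.dens_cont).measurable
  rw [integral_withDensity_eq_integral_toReal_smul hm
    (Filter.Eventually.of_forall (fun x => ENNReal.ofReal_lt_top))]
  apply integral_congr_ae
  refine Filter.Eventually.of_forall (fun x => ?_)
  simp only [ENNReal.toReal_ofReal (H.dens_pos x).le, smul_eq_mul]

private theorem norm_fderiv_le (u : Ev n → ℝ) (x : Ev n) :
    ‖fderiv ℝ u x‖ ≤ ‖H.Li x‖ * ‖H.gr u x‖ := by
  apply ContinuousLinearMap.opNorm_le_bound _ (by positivity)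
  intro v
  have h1 : fderiv ℝ u x v = inner ℝ (H.gr u x) (H.Li x v) := by
    rw [H.inner_gr, H.L_Li]
  rw [h1]
  calc ‖inner ℝ (H.gr u x) (H.Li x v)‖ ≤ ‖H.gr u x‖ * ‖H.Li x v‖ := norm_inner_le_norm _ _
    _ ≤ ‖H.gr u x‖ * (‖H.Li x‖ * ‖v‖) := by
        gcongr
        exact (H.Li x).le_opNorm v
    _ = _ := by ring

private theorem gns_euclid (hn : 2 ≤ n) : ∃ C : ℝ, 0 ≤ C ∧
    ∀ u : Ev n → ℝ, ContDiff ℝ 1 u → HasCompactSupport u → (∀ y, 0 ≤ u y) →
      ∫ x, u x ^ ((n : ℝ) / (n - 1)) ≤ C * (∫ x, ‖fderiv ℝ u x‖) ^ ((n : ℝ) / (n - 1)) := by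
  have hnR : (2 : ℝ) ≤ n := by exact_mod_cast hn
  set p : ℝ := (n : ℝ) / (n - 1) with hp
  have hp1 : 1 < p := by
    rw [hp, lt_div_iff₀ (by linarith)]
    linarith
  have hconj : Real.HolderConjugate (Module.finrank ℝ (Ev n)) p := by
    have hfr : (Module.finrank ℝ (Ev n) : ℝ) = n := by
      simp
    rw [hfr]
    rw [Real.holderConjugate_iff]
    refine ⟨by linarith, ?_⟩
    rw [hp]
    field_simp
    ring
  refine ⟨(lintegralPowLePowLIntegralFDerivConst (volume : Measure (Ev n)) p : ℝ),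
    NNReal.coe_nonneg _, ?_⟩
  intro u hu hs h0
  have h1 := lintegral_pow_le_pow_lintegral_fderiv (volume : Measure (Ev n)) hu hs hconj
  have hp0 : 0 < p := by linarith
  -- left side
  have hcl : Continuous (fun x => u x ^ p) := hu.continuous.rpow_const (fun x => Or.inr hp0.le)
  have hsl : HasCompactSupport (fun x => u x ^ p) := by
    apply HasCompactSupport.intro hs
    intro x hx
    rw [image_eq_zero_of_notMem_tsupport hx, Real.zero_rpow hp0.ne']
  have hil : Integrable (fun x => u x ^ p) := hcl.integrable_of_hasCompactSupport hsl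
  have e1 : ∫⁻ x, ‖u x‖ₑ ^ p = ENNReal.ofReal (∫ x, u x ^ p) := by
    rw [ofReal_integral_eq_lintegral_ofReal hil
      (Filter.Eventually.of_forall (fun x => Real.rpow_nonneg (h0 x) p))]
    apply lintegral_congr
    intro x
    rw [Real.enorm_eq_ofReal (h0 x), ENNReal.ofReal_rpow_of_nonneg (h0 x) hp0.le]
  have hcr : Continuous (fun x => ‖fderiv ℝ u x‖) := (hu.continuous_fderiv (by norm_num)).norm
  have hsr : HasCompactSupport (fun x => ‖fderiv ℝ u x‖) := by
    apply HasCompactSupport.intro hs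
    intro x hx
    rw [fderiv_of_notMem_tsupport ℝ hx, norm_zero]
  have hir : Integrable (fun x => ‖fderiv ℝ u x‖) := hcr.integrable_of_hasCompactSupport hsr
  have e2 : ∫⁻ x, ‖fderiv ℝ u x‖ₑ = ENNReal.ofReal (∫ x, ‖fderiv ℝ u x‖) := by
    rw [ofReal_integral_eq_lintegral_ofReal hir
      (Filter.Eventually.of_forall (fun x => norm_nonneg _))]
    apply lintegral_congr
    intro x
    rw [ofReal_norm]
  have hF0 : 0 ≤ ∫ x, ‖fderiv ℝ u x‖ := integral_nonneg (fun x => norm_nonneg _)
  rw [e1, e2, ENNReal.ofReal_rpow_of_nonneg hF0 hp0.le, ← ENNReal.ofReal_coe_nnreal,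
    ← ENNReal.ofReal_mul (NNReal.coe_nonneg _)] at h1
  exact (ENNReal.ofReal_le_ofReal_iff (by positivity)).mp h1

/-- Gagliardo-Nirenberg-Sobolev inequality on a compact set -/
theorem gns (hn : 2 ≤ n) {K : Set (Ev n)} (hK : IsCompact K) : ∃ c : ℝ, 0 < c ∧
    ∀ u : Ev n → ℝ, ContDiff ℝ 1 u → tsupport u ⊆ K → (∀ y, 0 ≤ u y) → (∀ y, u y ≤ 1) →
      c * (∫ x, u x ^ 2 ∂H.vol) ^ (((n : ℝ) - 1) / n) ≤ H.A u := by
  have hnR : (2 : ℝ) ≤ n := by exact_mod_cast hn
  obtain ⟨C, hC0, hC⟩ := gns_euclid hn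
  obtain ⟨D₀, hD₀⟩ := hK.exists_bound_of_continuousOn H.dens_cont.continuousOn
  obtain ⟨M₀, hM₀⟩ := hK.exists_bound_of_continuousOn
    (H.dens_cont.inv₀ (fun x => (H.dens_pos x).ne')).continuousOn
  obtain ⟨Λ₀, hΛ₀⟩ := hK.exists_bound_of_continuousOn H.Li_cont.continuousOn
  set D := max D₀ 0 with hD
  set M := max M₀ 0 with hM
  set Λ := max Λ₀ 0 with hΛ
  have hD0 : 0 ≤ D := le_max_right _ _
  have hM0 : 0 ≤ M := le_max_right _ _
  have hΛ0 : 0 ≤ Λ := le_max_right _ _
  set p : ℝ := (n : ℝ) / (n - 1) with hp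
  set a : ℝ := ((n : ℝ) - 1) / n with ha
  have hp1 : 1 < p := by
    rw [hp, lt_div_iff₀ (by linarith)]
    linarith
  have hp2 : p ≤ 2 := by
    rw [hp, div_le_iff₀ (by linarith)]
    linarith
  have hp0 : 0 < p := by linarith
  have ha0 : 0 < a := by
    rw [ha]
    apply div_pos <;> linarith
  have hpa : p * a = 1 := by
    rw [hp, ha]
    have h1 : (n : ℝ) - 1 ≠ 0 := by linarith
    have h2 : (n : ℝ) ≠ 0 := by linarith
    field_simp
  set T : ℝ := (D * C) ^ a * (Λ * M) with hT
  have hT0 : 0 ≤ T := by rw [hT]; positivity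
  refine ⟨1 / (T + 1), by positivity, ?_⟩
  intro u hu hs h0 h1
  have hcs : HasCompactSupport u := hK.of_isClosed_subset (isClosed_tsupport u) hs
  have hzero : ∀ x, x ∉ K → u x = 0 := fun x hx =>
    image_eq_zero_of_notMem_tsupport (fun h' => hx (hs h'))
  -- first estimate
  have hcl : Continuous (fun x => u x ^ p) := hu.continuous.rpow_const (fun x => Or.inr hp0.le)
  have hsl : HasCompactSupport (fun x => u x ^ p) := by
    apply HasCompactSupport.intro hcs
    intro x hx
    rw [image_eq_zero_of_notMem_tsupport hx, Real.zero_rpow hp0.ne']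
  have hil : Integrable (fun x => u x ^ p) := hcl.integrable_of_hasCompactSupport hsl
  have hX : ∫ x, u x ^ 2 ∂H.vol ≤ D * ∫ x, u x ^ p := by
    rw [H.integral_vol, ← integral_const_mul]
    apply integral_mono
    · apply Continuous.integrable_of_hasCompactSupport
      · exact H.dens_cont.mul (hu.continuous.pow 2)
      · apply HasCompactSupport.intro hcs
        intro x hx
        rw [image_eq_zero_of_notMem_tsupport hx]
        simp
    · exact hil.const_mul D
    · intro x
      by_cases hx : x ∈ K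
      · have h2 : u x ^ 2 ≤ u x ^ p := by
          rw [← Real.rpow_natCast]
          apply Real.rpow_le_rpow_of_exponent_ge' (h0 x) (h1 x) hp0.le
          exact_mod_cast hp2
        have h3 : H.dens x ≤ D := by
          refine le_trans ?_ (le_max_left _ _)
          exact le_trans (le_abs_self _) (hD₀ x hx)
        have h4 := H.dens_pos x
        exact mul_le_mul h3 h2 (sq_nonneg _) hD0
      · simp only [hzero x hx]
        rw [Real.zero_rpow hp0.ne']
        simp
  -- second estimate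
  have hA : ∫ x, ‖fderiv ℝ u x‖ ≤ Λ * M * H.A u := by
    unfold A
    rw [H.integral_vol, ← integral_const_mul]
    apply integral_mono
    · apply Continuous.integrable_of_hasCompactSupport
      · exact (hu.continuous_fderiv (by norm_num)).norm
      · apply HasCompactSupport.intro hcs
        intro x hx
        rw [fderiv_of_notMem_tsupport ℝ hx, norm_zero]
    · apply Integrable.const_mul
      apply Continuous.integrable_of_hasCompactSupport
      · exact H.dens_cont.mul (H.gr_cont hu).norm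
      · apply HasCompactSupport.intro hcs
        intro x hx
        rw [H.gr_zero_of_not_mem hx]
        simp
    · intro x
      by_cases hx : x ∈ K
      · have h2 := H.norm_fderiv_le u x
        have h3 : ‖H.Li x‖ ≤ Λ := le_trans (hΛ₀ x hx) (le_max_left _ _)
        have h4 : (H.dens x)⁻¹ ≤ M := by
          refine le_trans ?_ (le_max_left _ _)
          exact le_trans (le_abs_self _) (hM₀ x hx)
        have h5 : 1 ≤ M * H.dens x := by
          have h6 := mul_le_mul_of_nonneg_right h4 (H.dens_pos x).le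
          rwa [inv_mul_cancel₀ (H.dens_pos x).ne'] at h6
        calc ‖fderiv ℝ u x‖ ≤ ‖H.Li x‖ * ‖H.gr u x‖ := h2
          _ ≤ Λ * ‖H.gr u x‖ := by gcongr
          _ ≤ Λ * ‖H.gr u x‖ * (M * H.dens x) := le_mul_of_one_le_right (by positivity) h5
          _ = Λ * M * (H.dens x * ‖H.gr u x‖) := by ring
      · have h7 : x ∉ tsupport u := fun h' => hx (hs h')
        simp only [fderiv_of_notMem_tsupport ℝ h7, norm_zero, H.gr_zero_of_not_mem h7, mul_zero]
        exact le_refl _
  have hF0 : 0 ≤ ∫ x, ‖fderiv ℝ u x‖ := integral_nonneg (fun x => norm_nonneg _)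
  have hA0 := H.A_nonneg u
  have hX0 : 0 ≤ ∫ x, u x ^ 2 ∂H.vol := integral_nonneg (fun x => sq_nonneg _)
  have h3 : ∫ x, u x ^ 2 ∂H.vol ≤ D * C * (Λ * M * H.A u) ^ p := by
    calc ∫ x, u x ^ 2 ∂H.vol ≤ D * ∫ x, u x ^ p := hX
      _ ≤ D * (C * (∫ x, ‖fderiv ℝ u x‖) ^ p) := by
          gcongr
          exact hC u hu hcs h0
      _ ≤ D * (C * (Λ * M * H.A u) ^ p) := by gcongr
      _ = _ := by ring
  have h4 : (∫ x, u x ^ 2 ∂H.vol) ^ a ≤ T * H.A u := by
    calc (∫ x, u x ^ 2 ∂H.vol) ^ a ≤ (D * C * (Λ * M * H.A u) ^ p) ^ a :=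
          Real.rpow_le_rpow hX0 h3 ha0.le
      _ = (D * C) ^ a * ((Λ * M * H.A u) ^ p) ^ a := by
          rw [Real.mul_rpow (by positivity) (by positivity)]
      _ = T * H.A u := by
          rw [← Real.rpow_mul (by positivity), hpa, Real.rpow_one, hT]
          ring
  rw [div_mul_eq_mul_div, one_mul, div_le_iff₀ (by positivity)]
  calc (∫ x, u x ^ 2 ∂H.vol) ^ a ≤ T * H.A u := h4
    _ ≤ H.A u * (T + 1) := by nlinarith

/-- positivity in the class of almost indicator functions -/
theorem gns_adm (hn : 2 ≤ n) {K : Set (Ev n)} (hK : IsCompact K) : ∃ c : ℝ, 0 < c ∧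
    ∀ h : ℝ, h ≤ 1 / 2 → ∀ u : Ev n → ℝ, H.Adm K h u →
      c * (H.V u) ^ (((n : ℝ) - 1) / n) ≤ H.A u := by
  have hnR : (2 : ℝ) ≤ n := by exact_mod_cast hn
  obtain ⟨c, hc0, hc⟩ := H.gns hn hK
  set a : ℝ := ((n : ℝ) - 1) / n with ha
  have ha0 : 0 < a := by
    rw [ha]
    apply div_pos <;> linarith
  refine ⟨c * (1 / 2) ^ a, by positivity, ?_⟩
  intro h hh u hu
  have h1 := hc u hu.smooth hu.supp hu.nonneg hu.le_one
  have hcs : HasCompactSupport u := hK.of_isClosed_subset (isClosed_tsupport u) hu.supp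
  have hi1 : Integrable u H.vol := H.integrable_of_continuous hu.smooth.continuous hcs
  have hi2 : Integrable (fun x => u x ^ 2) H.vol := by
    apply H.integrable_of_continuous (hu.smooth.continuous.pow 2)
    apply HasCompactSupport.intro hcs
    intro x hx
    show u x ^ 2 = 0
    rw [image_eq_zero_of_notMem_tsupport hx]
    simp
  have hl := hu.layer
  have e1 : ∫ x, u x * (1 - u x) ∂H.vol = H.V u - ∫ x, u x ^ 2 ∂H.vol := by
    unfold V
    rw [← integral_sub hi1 hi2]
    congr 1
    funext x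
    ring
  rw [e1] at hl
  have hV := hu.mass_pos
  have h2 : 1 / 2 * H.V u ≤ ∫ x, u x ^ 2 ∂H.vol := by nlinarith
  calc c * (1 / 2) ^ a * H.V u ^ a = c * (1 / 2 * H.V u) ^ a := by
        rw [Real.mul_rpow (by norm_num) hV.le]
        ring
    _ ≤ c * (∫ x, u x ^ 2 ∂H.vol) ^ a := by
        gcongr
    _ ≤ H.A u := h1

end HData

end Vale.Agent.Lib.P219
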