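import Vale.Agent.Lib.P219.A.GNS
import Vale.Agent.Lib.P219.A.CDefs

/-! # P219 Part A: existence of the limit isoperimetric constant -/

namespace Vale.Agent.Lib.P219

open MeasureTheory Set Filter Topology
open scoped ENNReal

namespace HData

variable {n : ℕ} (H : HData n)

theorem exists_near (hn : 2 ≤ n) {K : Set (Ev n)} (hK : IsCompact K) {c₁ : ℝ} (hc₁ : 0 < c₁)
    (hex : ∀ h > 0, ∃ u, H.Adm K h u ∧ H.A u < c₁ * (H.V u) ^ (((n : ℝ) - 1) / n)) :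
    ∃ c₀, c₀ ≤ c₁ ∧ H.Near K c₀ := by
  obtain ⟨cG, hcG, hG⟩ := H.gns_adm hn hK
  obtain ⟨S, hS⟩ : ∃ S : Set ℝ, S = {c | 0 < c ∧ ∃ h > 0, ∀ v, H.Adm K h v →
      c * (H.V v) ^ (((n : ℝ) - 1) / n) ≤ H.A v} := ⟨_, rfl⟩
  have hmem : ∀ c, c ∈ S ↔ (0 < c ∧ ∃ h > 0, ∀ v, H.Adm K h v →
      c * (H.V v) ^ (((n : ℝ) - 1) / n) ≤ H.A v) := fun c => by rw [hS]; rfl
  have hSG : cG ∈ S := by
    rw [hS]
    exact ⟨hcG, 1 / 2, by norm_num, fun v hv => hG (1 / 2) le_rfl v hv⟩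
  have hSle : ∀ c ∈ S, c ≤ c₁ := by
    intro c hc
    rw [hS] at hc
    obtain ⟨-, h, hh, hcv⟩ := hc
    obtain ⟨u, hu, hAu⟩ := hex h hh
    have hV : 0 < (H.V u) ^ (((n : ℝ) - 1) / n) := Real.rpow_pos_of_pos hu.mass_pos _
    have h1 := (hcv u hu).trans_lt hAu
    exact (lt_of_mul_lt_mul_right h1 hV.le).le
  have hbdd : BddAbove S := ⟨c₁, hSle⟩
  have hne : S.Nonempty := ⟨cG, hSG⟩
  have hpos : 0 < sSup S := hcG.trans_le (le_csSup hbdd hSG)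
  refine ⟨sSup S, csSup_le hne hSle, hpos, fun ε hε => ?_⟩
  have h1 : (1 - ε) * sSup S < sSup S := by nlinarith
  obtain ⟨c, hcS, hc⟩ := exists_lt_of_lt_csSup hne h1
  have hcS' := hcS
  rw [hS] at hcS'
  obtain ⟨-, h, hh, hcv⟩ := hcS'
  refine ⟨h, hh, fun v hv => ?_, fun h' hh' => ?_⟩
  · have hV : 0 < (H.V v) ^ (((n : ℝ) - 1) / n) := Real.rpow_pos_of_pos hv.mass_pos _
    exact (mul_le_mul_of_nonneg_right hc.le hV.le).trans (hcv v hv)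
  · by_contra hcon
    have h2 : (1 + ε) * sSup S ∈ S := by
      refine (hmem _).2 ⟨by positivity, h', hh', fun v hv => ?_⟩
      by_contra h3
      exact hcon ⟨v, hv, (not_le.1 h3).le⟩
    have h4 := le_csSup hbdd h2
    nlinarith

end HData

end Vale.Agent.Lib.P219
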