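import Vale.Agent.Lib.P219.A.Concl
import Vale.Agent.Lib.P219.A.NearEx

/-! # P219 Part A: the sharp isoperimetric inequality for almost indicator functions -/

namespace Vale.Agent.Lib.P219

open MeasureTheory Set Filter Topology
open scoped ENNReal

theorem om_pos (n : ℕ) : 0 < om n := by
  unfold om
  exact ENNReal.toReal_pos (Metric.measure_ball_pos volume _ one_pos).ne'
    measure_ball_lt_top.ne

namespace HData

variable {n : ℕ} (H : HData n)

/-- **Part A**: certificates imply the sharp isoperimetric inequality. -/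
theorem partA (hn : 2 ≤ n) (hk : HasKer n) {K : Set (Ev n)} (hK : IsCompact K) (hc : H.Conv K)
    {c : ℝ} (hc0 : c < n * om n ^ ((1 : ℝ) / n)) :
    ∃ h > 0, ∀ u, H.Adm K h u → c * (H.V u) ^ (((n : ℝ) - 1) / n) ≤ H.A u := by
  rcases le_or_gt c 0 with hcn | hcp
  · refine ⟨1, one_pos, fun u hu => ?_⟩
    have h1 : 0 ≤ (H.V u) ^ (((n : ℝ) - 1) / n) := Real.rpow_nonneg hu.mass_pos.le _
    have h2 : 0 ≤ H.A u := integral_nonneg (fun x => norm_nonneg _)
    exact (mul_nonpos_of_nonpos_of_nonneg hcn h1).trans h2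
  by_contra hcon
  push Not at hcon
  obtain ⟨c₀, hc₀, hN⟩ := H.exists_near hn hK hcp (fun h hh => hcon h hh)
  have hc₀pos : 0 < c₀ := hN.1
  have hn0 : n ≠ 0 := by omega
  have hnR : (0 : ℝ) < n := by positivity
  have hom := om_pos n
  have key : ∀ ε > 0, (n : ℝ) ^ (n - 1) * (n * om n - ε) ≤ c ^ n := by
    intro ε hε
    obtain ⟨k, hk'⟩ := hk ε hε
    have h1 := H.main_k k hn hK hc hN
    have h2 : (n : ℝ) ^ (n - 1) * ((n * om n - ε) * k.a) ≤ k.a * c₀ ^ n :=
      (mul_le_mul_of_nonneg_left hk' (by positivity)).trans h1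
    have h3 : k.a * ((n : ℝ) ^ (n - 1) * (n * om n - ε)) ≤ k.a * c₀ ^ n := by
      refine le_trans (le_of_eq ?_) h2
      ring
    have h4 := le_of_mul_le_mul_left h3 k.a_pos
    exact h4.trans (pow_le_pow_left₀ hc₀pos.le hc₀ n)
  have hlim : (n : ℝ) ^ n * om n ≤ c ^ n := by
    have hpow : (n : ℝ) ^ n = (n : ℝ) ^ (n - 1) * n := by
      rw [← pow_succ]
      congr 1
      omega
    have h1 : ∀ ε > 0, (n : ℝ) ^ n * om n ≤ c ^ n + ε := by
      intro ε hε
      have hq : (0 : ℝ) < (n : ℝ) ^ (n - 1) := by positivity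
      have h2 := key (ε / (n : ℝ) ^ (n - 1)) (by positivity)
      have h3 : (n : ℝ) ^ (n - 1) * (n * om n - ε / (n : ℝ) ^ (n - 1)) =
          (n : ℝ) ^ n * om n - ε := by
        rw [hpow, mul_sub, mul_div_cancel₀ _ hq.ne']
        ring
      rw [h3] at h2
      linarith
    exact le_of_forall_pos_le_add h1
  have hlt : c ^ n < (n : ℝ) ^ n * om n := by
    have h1 : c ^ n < (n * om n ^ ((1 : ℝ) / n)) ^ n := pow_lt_pow_left₀ hc0 hcp.le hn0
    have h2 : (om n ^ ((1 : ℝ) / n)) ^ n = om n := by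
      rw [← Real.rpow_natCast, ← Real.rpow_mul hom.le]
      rw [one_div, inv_mul_cancel₀ hnR.ne', Real.rpow_one]
    rwa [mul_pow, h2] at h1
  exact absurd hlim (not_le.mpr hlt)

end HData

end Vale.Agent.Lib.P219
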