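import Mathlib.Algebra.Ring.IsFormallyReal
import Mathlib.Analysis.InnerProductSpace.NormDet
import Vale.Agent.Lib.P219.A.KerB
import Vale.Agent.Lib.P219.LA.Rank

/-! # P219 Part A: the contraction of the tangent space -/

namespace Vale.Agent.Lib.P219

open MeasureTheory Set Filter Topology

namespace Ker

variable {n : ℕ} (k : Ker n)

theorem phi_aux_abs_le {e : Ev n} (he : ‖e‖ = 1) (w : Ev n) :
    |(inner ℝ w e : ℝ) / ‖w‖| ≤ 1 := by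
  rw [abs_div, abs_norm]
  refine div_le_one_of_le₀ ?_ (norm_nonneg _)
  have h := abs_real_inner_le_norm w e
  rwa [he, mul_one] at h

theorem phi_aux_mu_eq {τ ρ₀ : ℝ} (e w : Ev n) : k.mu τ ρ₀ e w
    = 1 - τ * (k.η (‖w‖ / ρ₀) (inner ℝ w e / ‖w‖) / (‖w‖ / ρ₀)) := by
  unfold mu
  rw [div_div_eq_mul_div]
  ring

theorem phi_aux_tau {τ : ℝ} (hτ' : τ ≤ k.τ₀) : τ * k.M ≤ 1 / 2 ∧ τ * (k.M / k.δ) ≤ 1 / 2 := by
  have hM := k.M_pos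
  have hδ := k.δ_pos
  have h1 : τ ≤ 1 / (2 * k.M) := hτ'.trans (min_le_left _ _)
  have h2 : τ ≤ k.δ / (2 * k.M) := hτ'.trans (min_le_right _ _)
  constructor
  · calc τ * k.M ≤ 1 / (2 * k.M) * k.M := mul_le_mul_of_nonneg_right h1 hM.le
      _ = 1 / 2 := by field_simp
  · calc τ * (k.M / k.δ) ≤ k.δ / (2 * k.M) * (k.M / k.δ) :=
        mul_le_mul_of_nonneg_right h2 (div_pos hM hδ).le
      _ = 1 / 2 := by field_simp

theorem mu_mem {τ ρ₀ : ℝ} (hτ : 0 ≤ τ) (hτ' : τ ≤ k.τ₀) (hρ : 0 < ρ₀) {e : Ev n} (he : ‖e‖ = 1)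
    (w : Ev n) : 1 / 2 ≤ k.mu τ ρ₀ e w ∧ k.mu τ ρ₀ e w ≤ 1 ∧
      1 - k.mu τ ρ₀ e w ≤ τ * (k.M / k.δ) := by
  rw [phi_aux_mu_eq]
  have h1 := k.η_div_nonneg (‖w‖ / ρ₀) (inner ℝ w e / ‖w‖) (phi_aux_abs_le he w)
  have h2 := k.η_div_le (‖w‖ / ρ₀) (inner ℝ w e / ‖w‖) (phi_aux_abs_le he w)
  obtain ⟨-, h3⟩ := k.phi_aux_tau hτ'
  have h4 := mul_nonneg hτ h1
  have h5 := mul_le_mul_of_nonneg_left h2 hτ
  refine ⟨by linarith, by linarith, by linarith⟩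

theorem mu_eq_one {τ ρ₀ : ℝ} (hρ : 0 < ρ₀) (e : Ev n) {w : Ev n}
    (hw : ‖w‖ ≤ k.δ * ρ₀) : k.mu τ ρ₀ e w = 1 := by
  unfold mu
  rw [k.η_zero _ _ ((div_le_iff₀ hρ).2 hw)]
  simp

/-- `(1 - mu) ‖w‖ = τ ρ₀ η` -/
theorem one_sub_mu_mul {τ ρ₀ : ℝ} (e w : Ev n) (hw : w ≠ 0) :
    (1 - k.mu τ ρ₀ e w) * ‖w‖ = τ * ρ₀ * k.η (‖w‖ / ρ₀) (inner ℝ w e / ‖w‖) := by
  unfold mu
  have h : ‖w‖ ≠ 0 := norm_ne_zero_iff.2 hw
  field_simp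
  ring

theorem phi_aux_eventually {τ ρ₀ : ℝ} (hρ : 0 < ρ₀) (e : Ev n) :
    k.phi τ ρ₀ e =ᶠ[𝓝 0] fun w => w := by
  have hpos : 0 < k.δ * ρ₀ := mul_pos k.δ_pos hρ
  have hmem : {w' : Ev n | ‖w'‖ < k.δ * ρ₀} ∈ 𝓝 (0 : Ev n) := by
    refine (isOpen_lt continuous_norm continuous_const).mem_nhds ?_
    simpa using hpos
  filter_upwards [hmem] with w' hw'
  unfold phi
  rw [k.mu_eq_one hρ e (le_of_lt hw'), one_smul]

theorem phi_contDiff {τ ρ₀ : ℝ} (hρ : 0 < ρ₀) {e : Ev n} (he : ‖e‖ = 1) :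
    ContDiff ℝ 1 (k.phi τ ρ₀ e) := by
  rw [contDiff_iff_contDiffAt]
  intro w
  by_cases hw : w = 0
  · subst hw
    exact contDiffAt_id.congr_of_eventuallyEq (k.phi_aux_eventually hρ e)
  · have hne : ‖w‖ ≠ 0 := norm_ne_zero_iff.2 hw
    have h1 : ContDiffAt ℝ 1 (fun w : Ev n => ‖w‖) w := contDiffAt_norm ℝ hw
    have h2 : ContDiffAt ℝ 1 (fun w : Ev n => (inner ℝ w e : ℝ)) w :=
      (contDiff_id.inner ℝ contDiff_const).contDiffAt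
    have h3 : ContDiffAt ℝ 1 (fun w : Ev n => ((‖w‖ / ρ₀, inner ℝ w e / ‖w‖) : ℝ × ℝ)) w :=
      (h1.div_const ρ₀).prodMk (h2.div h1 hne)
    have h4 : ContDiffAt ℝ 1 (fun w : Ev n => k.η (‖w‖ / ρ₀) (inner ℝ w e / ‖w‖)) w :=
      ContDiffAt.comp w (g := fun p : ℝ × ℝ => k.η p.1 p.2) k.smooth.contDiffAt h3
    have h5 : ContDiffAt ℝ 1 (k.mu τ ρ₀ e) w :=
      contDiffAt_const.sub ((contDiffAt_const.mul h4).div h1 hne)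
    exact h5.smul contDiffAt_id

/-- the tangential component of the gradient of the radial function -/
noncomputable def beta (τ ρ₀ : ℝ) (e w : Ev n) : Ev n :=
  -(τ * ρ₀ * k.ηc (‖w‖ / ρ₀) (inner ℝ w e / ‖w‖) / ‖w‖) • (e - (inner ℝ w e / ‖w‖ ^ 2) • w)

theorem beta_orth {τ ρ₀ : ℝ} (e w : Ev n) (hw : w ≠ 0) :
    inner ℝ (k.beta τ ρ₀ e w) (‖w‖⁻¹ • w) = 0 := by
  have h : ‖w‖ ≠ 0 := norm_ne_zero_iff.2 hw
  unfold beta
  rw [inner_smul_left, inner_smul_right, inner_sub_left, inner_smul_left,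
    real_inner_self_eq_norm_sq, real_inner_comm w e]
  simp only [conj_trivial]
  have h2 : (inner ℝ w e : ℝ) - inner ℝ w e / ‖w‖ ^ 2 * ‖w‖ ^ 2 = 0 := by
    field_simp
    ring
  rw [h2]
  ring

theorem phi_aux_norm_sub {e : Ev n} (he : ‖e‖ = 1) (w : Ev n) (hw : w ≠ 0) :
    ‖e - (inner ℝ w e / ‖w‖ ^ 2 : ℝ) • w‖ = Real.sqrt (1 - (inner ℝ w e / ‖w‖) ^ 2) := by
  have h : ‖w‖ ≠ 0 := norm_ne_zero_iff.2 hw
  have h1 : ‖e - (inner ℝ w e / ‖w‖ ^ 2 : ℝ) • w‖ ^ 2 = 1 - (inner ℝ w e / ‖w‖) ^ 2 := by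
    rw [norm_sub_sq_real, inner_smul_right, norm_smul, mul_pow, he, Real.norm_eq_abs, sq_abs,
      real_inner_comm w e]
    field_simp
    ring
  rw [← h1, Real.sqrt_sq (norm_nonneg _)]

theorem norm_beta {τ ρ₀ : ℝ} (hτ : 0 ≤ τ) (hρ : 0 < ρ₀) {e : Ev n} (he : ‖e‖ = 1) (w : Ev n)
    (hw : w ≠ 0) : ‖k.beta τ ρ₀ e w‖ = τ * |k.ηc (‖w‖ / ρ₀) (inner ℝ w e / ‖w‖)|
      * Real.sqrt (1 - (inner ℝ w e / ‖w‖) ^ 2) / (‖w‖ / ρ₀) := by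
  unfold beta
  rw [norm_smul, phi_aux_norm_sub he w hw, norm_neg, Real.norm_eq_abs, abs_div, abs_mul, abs_mul,
    abs_norm, abs_of_nonneg hτ, abs_of_pos hρ, div_div_eq_mul_div]
  ring

theorem phi_aux_norm_hasFDerivAt (w : Ev n) (hw : w ≠ 0) :
    HasFDerivAt (fun w : Ev n => ‖w‖) (‖w‖⁻¹ • (innerSL ℝ w : Ev n →L[ℝ] ℝ)) w := by
  have h0 : ‖w‖ ≠ 0 := norm_ne_zero_iff.2 hw
  have h := (hasStrictFDerivAt_norm_sq w).hasFDerivAt.sqrt (pow_ne_zero 2 h0)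
  simp only [Real.sqrt_sq (norm_nonneg _)] at h
  refine h.congr_fderiv ?_
  ext ξ
  simp
  field_simp

theorem phi_aux_inner_hasFDerivAt (e w : Ev n) :
    HasFDerivAt (fun w : Ev n => (inner ℝ w e : ℝ)) (innerSL ℝ e : Ev n →L[ℝ] ℝ) w := by
  have h := (innerSL ℝ e : Ev n →L[ℝ] ℝ).hasFDerivAt (x := w)
  refine h.congr_of_eventuallyEq (Eventually.of_forall fun y => ?_)
  simp [real_inner_comm]

theorem phi_aux_D (r c a b : ℝ) :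
    (fderiv ℝ (fun p : ℝ × ℝ => k.η p.1 p.2) (r, c)) (a, b) = a * k.ηr r c + b * k.ηc r c := by
  have hF : HasFDerivAt (fun p : ℝ × ℝ => k.η p.1 p.2)
      (fderiv ℝ (fun p : ℝ × ℝ => k.η p.1 p.2) (r, c)) (r, c) :=
    (k.smooth.differentiable one_ne_zero (r, c)).hasFDerivAt
  have h1 : (fderiv ℝ (fun p : ℝ × ℝ => k.η p.1 p.2) (r, c)) (1, 0) = k.ηr r c := by
    have hl : HasDerivAt (fun s : ℝ => ((s, c) : ℝ × ℝ)) (1, 0) r :=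
      (hasDerivAt_id r).prodMk (hasDerivAt_const r c)
    have h := HasFDerivAt.comp_hasDerivAt r hF hl
    exact h.unique (k.deriv_r r c)
  have h2 : (fderiv ℝ (fun p : ℝ × ℝ => k.η p.1 p.2) (r, c)) (0, 1) = k.ηc r c := by
    have hl : HasDerivAt (fun s : ℝ => ((r, s) : ℝ × ℝ)) (0, 1) c :=
      (hasDerivAt_const c r).prodMk (hasDerivAt_id c)
    have h := HasFDerivAt.comp_hasDerivAt c hF hl
    exact h.unique (k.deriv_c r c)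
  have h3 : ((a, b) : ℝ × ℝ) = a • ((1, 0) : ℝ × ℝ) + b • ((0, 1) : ℝ × ℝ) := by
    simp
  rw [h3, map_add, map_smul, map_smul, h1, h2, smul_eq_mul, smul_eq_mul]

theorem phi_hasFDerivAt {τ ρ₀ : ℝ} (hρ : 0 < ρ₀) {e : Ev n} (he : ‖e‖ = 1) (w : Ev n)
    (hw : w ≠ 0) : HasFDerivAt (k.phi τ ρ₀ e)
      (LA.Dm (k.mu τ ρ₀ e w) (1 - τ * k.ηr (‖w‖ / ρ₀) (inner ℝ w e / ‖w‖)) (‖w‖⁻¹ • w)
        (k.beta τ ρ₀ e w)) w := by
  have h0 : ‖w‖ ≠ 0 := norm_ne_zero_iff.2 hw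
  have hρ0 : ρ₀ ≠ 0 := hρ.ne'
  have hN := phi_aux_norm_hasFDerivAt w hw
  have hI := phi_aux_inner_hasFDerivAt e w
  have hNi : HasFDerivAt (fun w : Ev n => ‖w‖⁻¹)
      ((-(‖w‖ ^ 2)⁻¹) • (‖w‖⁻¹ • (innerSL ℝ w : Ev n →L[ℝ] ℝ))) w :=
    (hasDerivAt_inv h0).comp_hasFDerivAt w hN
  have hr : HasFDerivAt (fun w : Ev n => ‖w‖ / ρ₀)
      (ρ₀⁻¹ • (‖w‖⁻¹ • (innerSL ℝ w : Ev n →L[ℝ] ℝ))) w := by
    have h := hN.const_mul ρ₀⁻¹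
    refine h.congr_of_eventuallyEq (Eventually.of_forall fun y => ?_)
    simp only
    rw [div_eq_inv_mul]
  have hc := hI.mul hNi
  have hη := (k.smooth.differentiable one_ne_zero (‖w‖ / ρ₀, inner ℝ w e / ‖w‖)).hasFDerivAt
  have hrc : HasFDerivAt (fun w : Ev n => ((‖w‖ / ρ₀, inner ℝ w e / ‖w‖) : ℝ × ℝ)) _ w :=
    hr.prodMk hc
  have hη2 := HasFDerivAt.comp (g := fun p : ℝ × ℝ => k.η p.1 p.2) w hη hrc
  have hmu := ((hη2.mul hNi).const_mul (τ * ρ₀)).const_sub 1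
  have hphi := hmu.smul (hasFDerivAt_id w)
  have hphi2 : HasFDerivAt (k.phi τ ρ₀ e) _ w :=
    hphi.congr_of_eventuallyEq (Eventually.of_forall fun y => by
      simp only [phi, mu, Pi.smul_apply', Pi.mul_apply, Function.comp_apply, id]
      congr 1
      ring)
  refine hphi2.congr_fderiv ?_
  ext1 ξ
  rw [LA.Dm_apply]
  simp only [add_apply, smul_apply,
    neg_apply, ContinuousLinearMap.smulRight_apply,
    ContinuousLinearMap.comp_apply, ContinuousLinearMap.prod_apply,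
    ContinuousLinearMap.id_apply, innerSL_apply_apply, Pi.mul_apply, Function.comp_apply, id,
    smul_eq_mul, phi_aux_D]
  unfold mu beta
  rw [smul_smul]
  congr 1
  · congr 1
    ring
  · congr 1
    simp only [inner_add_left, inner_smul_left, inner_sub_left, conj_trivial]
    field_simp
    ring

theorem rho_deriv_mem {τ : ℝ} (hτ : 0 ≤ τ) (hτ' : τ ≤ k.τ₀) (r c : ℝ) (hc : |c| ≤ 1) :
    1 / 2 ≤ 1 - τ * k.ηr r c ∧ 1 - τ * k.ηr r c ≤ 2 := by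
  obtain ⟨h1, -⟩ := k.phi_aux_tau hτ'
  have h2 : |τ * k.ηr r c| ≤ 1 / 2 := by
    rw [abs_mul, abs_of_nonneg hτ]
    exact (mul_le_mul_of_nonneg_left (k.ηr_le r c hc) hτ).trans h1
  obtain ⟨h3, h4⟩ := abs_le.1 h2
  constructor <;> linarith

theorem det_fderiv_phi (hn : 1 ≤ n) {τ ρ₀ : ℝ} (hρ : 0 < ρ₀) {e : Ev n} (he : ‖e‖ = 1)
    (w : Ev n) (hw : w ≠ 0) : (fderiv ℝ (k.phi τ ρ₀ e) w).det
      = (1 - τ * k.ηr (‖w‖ / ρ₀) (inner ℝ w e / ‖w‖)) * k.mu τ ρ₀ e w ^ (n - 1) := by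
  rw [(k.phi_hasFDerivAt hρ he w hw).fderiv]
  refine LA.det_Dm hn _ _ _ _ ?_ (k.beta_orth e w hw)
  rw [norm_smul, norm_inv, norm_norm, inv_mul_cancel₀ (norm_ne_zero_iff.2 hw)]

theorem det_fderiv_phi_ne_zero (hn : 1 ≤ n) {τ ρ₀ : ℝ} (hτ : 0 ≤ τ) (hτ' : τ ≤ k.τ₀)
    (hρ : 0 < ρ₀) {e : Ev n} (he : ‖e‖ = 1) (w : Ev n) :
    (fderiv ℝ (k.phi τ ρ₀ e) w).det ≠ 0 := by
  by_cases hw : w = 0
  · subst hw
    rw [(k.phi_aux_eventually hρ e).fderiv_eq, fderiv_fun_id, ContinuousLinearMap.det,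
      ContinuousLinearMap.coe_id, LinearMap.det_id]
    exact one_ne_zero
  · rw [k.det_fderiv_phi hn hρ he w hw]
    have h1 := (k.rho_deriv_mem hτ hτ' (‖w‖ / ρ₀) _ (phi_aux_abs_le he w)).1
    have h2 := (k.mu_mem hτ hτ' hρ he w).1
    have h3 : 0 < 1 - τ * k.ηr (‖w‖ / ρ₀) (inner ℝ w e / ‖w‖) := by linarith
    have h4 : 0 < k.mu τ ρ₀ e w := by linarith
    exact (mul_pos h3 (pow_pos h4 _)).ne'

end Ker

end Vale.Agent.Lib.P219
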